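import Vale.Agent.P078.Dense
import Vale.Agent.P078.Cartan.OperatorDensity

/-!
A normal positive functional on a von Neumann algebra is a sum of vector functionals: weak
compactness of balls gives vectors tending to zero that control it, Hahn-Banach gives a series,
and the square root of a compressed flip symmetrises the series.
-/

namespace Vale.Agent.P078.Any

open scoped InnerProductSpace ComplexOrder ENNReal
open Filter Topology ContinuousLinearMap Cartan

variable {H : Type} [NormedAddCommGroup H] [InnerProductSpace ℂ H] [CompleteSpace H]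
variable {M : VonNeumannAlgebra H} {A : StarSubalgebra ℂ (H →L[ℂ] H)}
variable {ψ : (H →L[ℂ] H) → ℂ}

/-- On the ball of radius `n` the functional is below one where the vectors of `S` are small. -/
def Controls (M : VonNeumannAlgebra H) (ψ : (H →L[ℂ] H) → ℂ) (n : ℕ) (S : Finset H) : Prop :=
  ∀ x ∈ M, ‖x‖ ≤ n → (∀ ξ ∈ S, ‖x ξ‖ ≤ 1) → ‖ψ x‖ < 1

theorem exists_controls_one (hψ : IsNormalCentral M A ψ) : ∃ S, Controls M ψ 1 S := by
  classical
  obtain ⟨F, d, hd, hF⟩ := hψ.normal 1 one_pos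
  refine ⟨F.image fun ξ => ((2 / d : ℝ) : ℂ) • ξ, fun x hx hx1 hS =>
    hF x hx (by simpa using hx1) fun ξ hξ => ?_⟩
  have h := hS _ (Finset.mem_image_of_mem _ hξ)
  rw [map_smul, norm_smul, Complex.norm_real, Real.norm_of_nonneg (by positivity),
    div_mul_eq_mul_div, div_le_one hd] at h
  linarith [norm_nonneg (x ξ)]

theorem exists_controls_succ (hψ : IsNormalCentral M A ψ) {n : ℕ} (hn : 0 < n) {S : Finset H}
    (hS : Controls M ψ n S) :
    ∃ G : Finset H, (∀ ξ ∈ G, ‖ξ‖ ≤ 1 / (n : ℝ)) ∧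
      ∀ x ∈ M, ‖x‖ ≤ ((n + 1 : ℕ) : ℝ) → (∀ ξ ∈ S, ‖x ξ‖ ≤ 1) → (∀ ξ ∈ G, ‖x ξ‖ ≤ 1) →
        ‖ψ x‖ < 1 := by
  classical
  by_contra hcon
  push Not at hcon
  have hex : ∀ G : Finset {v : H // ‖v‖ ≤ 1 / (n : ℝ)}, ∃ x ∈ M, ‖x‖ ≤ ((n + 1 : ℕ) : ℝ) ∧
      (∀ ξ ∈ S, ‖x ξ‖ ≤ 1) ∧ (∀ v ∈ G, ‖x v.1‖ ≤ 1) ∧ 1 ≤ ‖ψ x‖ := fun G => by
    obtain ⟨x, hx, hxn, hxS, hxG, h1⟩ := hcon (G.image Subtype.val) fun ξ hξ => by
      obtain ⟨v, -, rfl⟩ := Finset.mem_image.1 hξ
      exact v.2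
    exact ⟨x, hx, hxn, hxS, fun v hv => hxG _ (Finset.mem_image_of_mem _ hv), h1⟩
  choose x hxM hxn hxS hxG hx1 using hex
  obtain ⟨U, hU⟩ : ∃ U : Ultrafilter (Finset {v : H // ‖v‖ ≤ 1 / (n : ℝ)}),
      ↑U ≤ (atTop : Filter (Finset {v : H // ‖v‖ ≤ 1 / (n : ℝ)})) :=
    ⟨Ultrafilter.of atTop, Ultrafilter.of_le _⟩
  obtain ⟨L, hLn, hL⟩ := exists_weak_lim U x (Nat.cast_nonneg (n + 1)) hxn
  have hLM : L ∈ M := by
    rw [mem_vn_iff]
    intro w hw
    refine ContinuousLinearMap.ext fun v => ext_inner_left ℂ fun u => ?_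
    have h1 := hL (adjoint w u) v
    simp only [ContinuousLinearMap.adjoint_inner_left] at h1
    refine tendsto_nhds_unique h1 ((hL u (w v)).congr fun G => ?_)
    rw [← mul_apply', ← mul_apply', (mem_vn_iff.1 (hxM G)) w hw]
  have hsmall : ∀ v : H, (∀ᶠ G in (U : Filter _), ‖x G v‖ ≤ 1) → ‖L v‖ ≤ 1 := by
    intro v hev
    have h1 := le_of_tendsto (hL (L v) v).norm (hev.mono fun G hG => (norm_inner_le_norm _ _).trans
      (mul_le_of_le_one_right (norm_nonneg _) hG))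
    rw [inner_self_eq_norm_sq_to_K, norm_pow] at h1
    simp only [Complex.coe_algebraMap, Complex.norm_real, norm_norm] at h1
    by_contra h2
    nlinarith [not_le.1 h2]
  have hLn' : ‖L‖ ≤ n := by
    refine opNorm_le_bound _ (Nat.cast_nonneg n) fun v => ?_
    rcases eq_or_ne v 0 with rfl | hv
    · simp
    have hnv : 0 < (n : ℝ) * ‖v‖ := by
      have := norm_pos_iff.2 hv
      positivity
    obtain ⟨w, hw⟩ : ∃ w : H, w = ((((n : ℝ) * ‖v‖)⁻¹ : ℝ) : ℂ) • v := ⟨_, rfl⟩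
    have hwn : ‖w‖ ≤ 1 / (n : ℝ) := by
      rw [hw, norm_smul, Complex.norm_real, Real.norm_of_nonneg (by positivity)]
      refine le_of_eq ?_
      field_simp
    have h1 := hsmall w (((eventually_ge_atTop {⟨w, hwn⟩}).filter_mono hU).mono fun G hG =>
      hxG G ⟨w, hwn⟩ (hG (Finset.mem_singleton_self _)))
    rw [hw, map_smul, norm_smul, Complex.norm_real, Real.norm_of_nonneg (by positivity),
      inv_mul_le_iff₀ hnv, mul_one] at h1
    exact h1
  have hψL := hS L hLM hLn' fun ξ hξ => hsmall ξ (Eventually.of_forall fun G => hxS G ξ hξ)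
  have hlim : Tendsto (fun G => ψ (x G)) U (𝓝 (ψ L)) := by
    refine Metric.tendsto_nhds.2 fun e he => ?_
    obtain ⟨t, ht⟩ : ∃ t : ℝ, t = e / (3 * ((n + 1 : ℕ) : ℝ)) := ⟨_, rfl⟩
    have ht0 : 0 < t := ht ▸ by positivity
    obtain ⟨F, w, hFw⟩ := normal_approx hψ ht0
    have hc : Tendsto (fun G => ∑ ξ : F, ⟪w ξ, x G ξ⟫_ℂ) U (𝓝 (∑ ξ : F, ⟪w ξ, L ξ⟫_ℂ)) :=
      tendsto_finsetSum _ fun ξ _ => hL _ _
    filter_upwards [Metric.tendsto_nhds.1 hc (e / 3) (by positivity)] with G hG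
    have hte : t * ((n + 1 : ℕ) : ℝ) = e / 3 := by rw [ht]; field_simp
    have h1 : dist (ψ (x G)) (∑ ξ : F, ⟪w ξ, x G ξ⟫_ℂ) ≤ e / 3 := by
      rw [dist_eq_norm]
      exact (hFw _ (hxM G)).trans ((mul_le_mul_of_nonneg_left (hxn G) ht0.le).trans_eq hte)
    have h2 : dist (∑ ξ : F, ⟪w ξ, L ξ⟫_ℂ) (ψ L) ≤ e / 3 := by
      rw [dist_comm, dist_eq_norm]
      exact (hFw _ hLM).trans ((mul_le_mul_of_nonneg_left hLn ht0.le).trans_eq hte)
    have h3 := dist_triangle4 (ψ (x G)) (∑ ξ : F, ⟪w ξ, x G ξ⟫_ℂ) (∑ ξ : F, ⟪w ξ, L ξ⟫_ℂ) (ψ L)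
    linarith
  linarith [ge_of_tendsto' hlim.norm hx1]

/-- A family of vectors tending to zero controls a normal functional. -/
theorem exists_null_family (hψ : IsNormalCentral M A ψ) :
    ∃ (κ : Type) (ξ : κ → H),
      (∀ e : ℝ, 0 < e → ∃ F : Finset κ, ∀ k, k ∉ F → ‖ξ k‖ ≤ e) ∧
      ∀ x ∈ M, ∀ c : ℝ, 0 < c → (∀ k, ‖x (ξ k)‖ ≤ c) → ‖ψ x‖ ≤ c := by
  classical
  obtain ⟨S₀, hS₀⟩ := exists_controls_one hψ
  have hstep : ∀ n (S : {S : Finset H // Controls M ψ (n + 1) S}),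
      ∃ S' : {S : Finset H // Controls M ψ (n + 2) S}, ∃ G : Finset H,
        (∀ ξ ∈ G, ‖ξ‖ ≤ 1 / ((n + 1 : ℕ) : ℝ)) ∧ (S' : Finset H) = (S : Finset H) ∪ G := by
    intro n S
    obtain ⟨G, hG, hgood⟩ := exists_controls_succ hψ (Nat.succ_pos n) S.2
    exact ⟨⟨(S : Finset H) ∪ G, fun x hx hxn hSG => hgood x hx hxn
      (fun ξ hξ => hSG ξ (Finset.mem_union_left _ hξ))
      fun ξ hξ => hSG ξ (Finset.mem_union_right _ hξ)⟩, G, hG, rfl⟩
  choose next G hG hnext using hstep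
  obtain ⟨S, hS0, hS⟩ : ∃ S : (n : ℕ) → {S : Finset H // Controls M ψ (n + 1) S},
      (S 0 : Finset H) = S₀ ∧ ∀ n, S (n + 1) = next n (S n) :=
    ⟨fun n => Nat.rec (motive := fun n => {S : Finset H // Controls M ψ (n + 1) S}) ⟨S₀, hS₀⟩
      (fun n S => next n S) n, rfl, fun _ => rfl⟩
  obtain ⟨T, hT0, hT⟩ : ∃ T : ℕ → Finset H, T 0 = S₀ ∧ ∀ n, T (n + 1) = G n (S n) :=
    ⟨fun n => Nat.rec (motive := fun _ => Finset H) S₀ (fun n _ => G n (S n)) n, rfl, fun _ => rfl⟩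
  have hsub : ∀ n, ∀ v ∈ (S n : Finset H), ∃ k, v ∈ T k := by
    intro n
    induction n with
    | zero => exact fun v hv => ⟨0, by rw [hT0, ← hS0]; exact hv⟩
    | succ n ih =>
      intro v hv
      rw [hS, hnext, Finset.mem_union] at hv
      rcases hv with hv | hv
      · exact ih v hv
      · exact ⟨n + 1, by rw [hT]; exact hv⟩
  refine ⟨Σ k : ℕ, {v : H // v ∈ T k}, fun p => p.2.1, fun e he => ?_, fun x hx c hc hk => ?_⟩
  · obtain ⟨N, hN⟩ := exists_nat_gt (1 / e)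
    refine ⟨(Finset.range (N + 1)).sigma fun k => (T k).attach, fun p hp => ?_⟩
    obtain ⟨k, v, hv⟩ := p
    have hk : N + 1 ≤ k := by
      by_contra h'
      exact hp (Finset.mem_sigma.2 ⟨Finset.mem_range.2 (not_le.1 h'), Finset.mem_attach _ _⟩)
    obtain ⟨m, rfl⟩ : ∃ m, k = m + 1 := ⟨k - 1, by omega⟩
    show ‖v‖ ≤ e
    refine (hG m (S m) v (by rw [← hT]; exact hv)).trans ?_
    rw [div_le_iff₀ (by positivity)]
    rw [div_lt_iff₀ he] at hN
    have : (N : ℝ) ≤ ((m + 1 : ℕ) : ℝ) := Nat.cast_le.2 (by omega)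
    nlinarith
  · obtain ⟨y, hy⟩ : ∃ y, y = ((c⁻¹ : ℝ) : ℂ) • x := ⟨_, rfl⟩
    obtain ⟨n, hn⟩ := exists_nat_ge ‖y‖
    have hyS : ∀ v ∈ (S n : Finset H), ‖y v‖ ≤ 1 := fun v hv => by
      obtain ⟨k, hk'⟩ := hsub n v hv
      rw [hy, smul_apply, norm_smul, Complex.norm_real, Real.norm_of_nonneg (by positivity),
        inv_mul_le_iff₀ hc, mul_one]
      exact hk ⟨k, v, hk'⟩
    have h1 := (S n).2 y (hy ▸ vn_smul_mem _ hx)
      (hn.trans (Nat.cast_le.2 (Nat.le_succ n))) hyS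
    rw [hy, hψ.map_smul _ x hx, norm_mul, Complex.norm_real, Real.norm_of_nonneg (by positivity),
      inv_mul_lt_iff₀ hc, mul_one] at h1
    exact h1.le

/-- A normal functional is an absolutely convergent series of vector functionals. -/
theorem exists_series (hψ : IsNormalCentral M A ψ) :
    ∃ (κ : Type) (a b : κ → H), Summable (fun k => ‖a k‖ ^ 2) ∧ Summable (fun k => ‖b k‖ ^ 2) ∧
      ∀ x ∈ M, HasSum (fun k => ⟪a k, x (b k)⟫_ℂ) (ψ x) := by
  classical
  obtain ⟨κ, ξ, hnull, hctl⟩ := exists_null_family hψ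
  obtain ⟨F₁, hF₁⟩ := hnull 1 one_pos
  obtain ⟨B, hB0, hB⟩ : ∃ B : ℝ, 0 ≤ B ∧ ∀ k, ‖ξ k‖ ≤ B := by
    refine ⟨1 + ∑ k ∈ F₁, ‖ξ k‖, by positivity, fun k => ?_⟩
    have h0 : 0 ≤ ∑ k ∈ F₁, ‖ξ k‖ := Finset.sum_nonneg fun _ _ => norm_nonneg _
    by_cases hk : k ∈ F₁
    · linarith [Finset.single_le_sum (f := fun k => ‖ξ k‖) (fun _ _ => norm_nonneg _) hk]
    · linarith [hF₁ k hk]
  have hmem : ∀ x : H →L[ℂ] H, Memℓp (fun k => x (ξ k)) ∞ := fun x => by
    refine memℓp_infty ⟨‖x‖ * B, ?_⟩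
    rintro _ ⟨k, rfl⟩
    exact (x.le_opNorm _).trans (mul_le_mul_of_nonneg_left (hB k) (norm_nonneg _))
  let J : (H →L[ℂ] H) →ₗ[ℂ] lp (fun _ : κ => H) ∞ :=
    { toFun := fun x => ⟨fun k => x (ξ k), hmem x⟩
      map_add' := fun x y => by ext k; rfl
      map_smul' := fun c x => by ext k; rfl }
  have hJ : ∀ x k, J x k = x (ξ k) := fun _ _ => rfl
  have hbd : ∀ x ∈ M, ‖ψ x‖ ≤ ‖J x‖ := fun x hx => le_of_forall_pos_le_add fun e he =>
    hctl x hx _ (by positivity) fun k => by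
      rw [← hJ]
      linarith [lp.norm_apply_le_norm ENNReal.top_ne_zero (J x) k]
  let MS : Submodule ℂ (H →L[ℂ] H) := M.toStarSubalgebra.toSubalgebra.toSubmodule
  obtain ⟨P, hP⟩ : ∃ P : Submodule ℂ (lp (fun _ : κ => H) ∞), P = MS.map J := ⟨_, rfl⟩
  have hpre : ∀ z : P, ∃ x, x ∈ M ∧ J x = z.1 := fun z => by
    obtain ⟨z, hz⟩ := z
    rw [hP] at hz
    obtain ⟨x, hx, rfl⟩ := hz
    exact ⟨x, hx, rfl⟩
  choose pre hpreM hpreJ using hpre
  have hwd : ∀ x ∈ M, ∀ y ∈ M, J x = J y → ψ x = ψ y := fun x hx y hy e => by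
    have h := hbd _ (sub_mem hx hy)
    rw [map_sub, e, sub_self, norm_zero, norm_le_zero_iff, normalCentral_sub hψ hx hy,
      sub_eq_zero] at h
    exact h
  obtain ⟨f, hf⟩ : ∃ f : StrongDual ℂ P, ∀ z : P, f z = ψ (pre z) := by
    refine ⟨LinearMap.mkContinuous
      { toFun := fun z : P => ψ (pre z)
        map_add' := fun z z' => by
          rw [← hψ.map_add _ (hpreM z) _ (hpreM z')]
          refine hwd _ (hpreM _) _ (add_mem (hpreM z) (hpreM z')) ?_
          rw [map_add, hpreJ, hpreJ, hpreJ]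
          rfl
        map_smul' := fun c z => by
          rw [RingHom.id_apply, smul_eq_mul, ← hψ.map_smul c _ (hpreM z)]
          refine hwd _ (hpreM _) _ (vn_smul_mem c (hpreM z)) ?_
          rw [map_smul, hpreJ, hpreJ]
          rfl }
      1 (fun z => ?_), fun z => rfl⟩
    rw [one_mul]
    have h := hbd _ (hpreM z)
    rw [hpreJ] at h
    exact h
  obtain ⟨g, hg, -⟩ := exists_extension_norm_eq P f
  have hgJ : ∀ x ∈ M, g (J x) = ψ x := fun x hx => by
    have hz : J x ∈ P := hP ▸ Submodule.mem_map_of_mem hx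
    have h := hg ⟨J x, hz⟩
    rw [hf] at h
    rw [h]
    exact hwd _ (hpreM _) x hx (hpreJ _)
  obtain ⟨w, hw⟩ : ∃ w : κ → H, ∀ k u, ⟪w k, u⟫_ℂ = g (lp.single ∞ k u) :=
    ⟨fun k => (InnerProductSpace.toDual ℂ H).symm
      (g.comp (lp.singleContinuousLinearMap ℂ (fun _ : κ => H) ∞ k)),
      fun k u => by rw [InnerProductSpace.toDual_symm_apply]; rfl⟩
  have happ : ∀ (s : Finset κ) (u : κ → H) k,
      (∑ i ∈ s, lp.single (E := fun _ : κ => H) ∞ i (u i)) k = if k ∈ s then u k else 0 := by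
    intro s u k
    rw [lp.coeFn_sum, Finset.sum_apply]
    split_ifs with hk
    · rw [Finset.sum_eq_single k (fun i _ hi => lp.single_apply_ne ∞ i _ hi.symm)
        (fun h => absurd hk h), lp.single_apply_self]
    · exact Finset.sum_eq_zero fun i hi => lp.single_apply_ne ∞ i _ (by rintro rfl; exact hk hi)
  have hwsum : Summable fun k => ‖w k‖ := by
    refine summable_of_sum_le (c := ‖g‖) (fun k => norm_nonneg _) fun u => ?_
    obtain ⟨y, hy⟩ : ∃ y : lp (fun _ : κ => H) ∞,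
        y = ∑ k ∈ u, lp.single ∞ k (((‖w k‖⁻¹ : ℝ) : ℂ) • w k) := ⟨_, rfl⟩
    have hy1 : ‖y‖ ≤ 1 := by
      refine lp.norm_le_of_forall_le zero_le_one fun k => ?_
      rw [hy, happ]
      split_ifs
      · rw [norm_smul, Complex.norm_real, Real.norm_of_nonneg (by positivity)]
        exact inv_mul_le_one
      · rw [norm_zero]; exact zero_le_one
    have hgy : g y = ((∑ k ∈ u, ‖w k‖ : ℝ) : ℂ) := by
      rw [hy, map_sum, Complex.ofReal_sum]
      refine Finset.sum_congr rfl fun k _ => ?_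
      rw [← hw, inner_smul_right, inner_self_eq_norm_sq_to_K]
      rcases eq_or_ne ‖w k‖ 0 with h0 | h0
      · simp [h0]
      · simp only [Complex.coe_algebraMap]
        rw [← Complex.ofReal_pow, ← Complex.ofReal_mul]
        congr 1
        field_simp
    have h := (g.le_opNorm y).trans (mul_le_of_le_one_right (norm_nonneg _) hy1)
    rw [hgy, Complex.norm_real, Real.norm_of_nonneg (Finset.sum_nonneg fun _ _ => norm_nonneg _)]
      at h
    exact h
  refine ⟨κ, fun k => (((Real.sqrt ‖w k‖)⁻¹ : ℝ) : ℂ) • w k,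
    fun k => ((Real.sqrt ‖w k‖ : ℝ) : ℂ) • ξ k, ?_, ?_, fun x hx => ?_⟩
  · refine hwsum.congr fun k => ?_
    rw [norm_smul, Complex.norm_real, Real.norm_of_nonneg (by positivity), mul_pow, inv_pow,
      Real.sq_sqrt (norm_nonneg _)]
    rcases eq_or_ne ‖w k‖ 0 with h0 | h0
    · simp [h0]
    · field_simp
  · refine Summable.of_nonneg_of_le (fun k => sq_nonneg _) (fun k => ?_) (hwsum.mul_left (B ^ 2))
    rw [norm_smul, Complex.norm_real, Real.norm_of_nonneg (Real.sqrt_nonneg _), mul_pow,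
      Real.sq_sqrt (norm_nonneg _), mul_comm]
    exact mul_le_mul_of_nonneg_right (pow_le_pow_left₀ (norm_nonneg _) (hB k) 2) (norm_nonneg _)
  · have hterm : ∀ k, ⟪(((Real.sqrt ‖w k‖)⁻¹ : ℝ) : ℂ) • w k,
        x (((Real.sqrt ‖w k‖ : ℝ) : ℂ) • ξ k)⟫_ℂ = g (lp.single ∞ k (x (ξ k))) := fun k => by
      rw [← hw, map_smul, inner_smul_left, inner_smul_right, Complex.conj_ofReal, ← mul_assoc,
        ← Complex.ofReal_mul]
      rcases eq_or_ne (w k) 0 with h0 | h0
      · simp [h0]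
      · rw [inv_mul_cancel₀ (Real.sqrt_ne_zero'.2 (norm_pos_iff.2 h0)), Complex.ofReal_one,
          one_mul]
    simp only [hterm]
    rw [← hgJ x hx]
    refine Metric.tendsto_nhds.2 fun e he => ?_
    obtain ⟨d, hd⟩ : ∃ d : ℝ, d = e / ((‖g‖ + 1) * (‖x‖ + 1)) := ⟨_, rfl⟩
    obtain ⟨F, hF⟩ := hnull d (hd ▸ by positivity)
    refine (eventually_ge_atTop F).mono fun u hu => ?_
    rw [dist_eq_norm, ← map_sum, ← map_sub]
    have hd0 : 0 ≤ d := hd ▸ by positivity
    have hn : ‖(∑ k ∈ u, lp.single (E := fun _ : κ => H) ∞ k (x (ξ k))) - J x‖ ≤ ‖x‖ * d := by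
      refine lp.norm_le_of_forall_le (by positivity) fun k => ?_
      rw [lp.coeFn_sub, Pi.sub_apply, happ, hJ]
      split_ifs with hk
      · rw [sub_self, norm_zero]; positivity
      · rw [zero_sub, norm_neg]
        exact (x.le_opNorm _).trans
          (mul_le_mul_of_nonneg_left (hF k fun h => hk (hu h)) (norm_nonneg _))
    refine lt_of_le_of_lt ((g.le_opNorm _).trans (mul_le_mul_of_nonneg_left hn (norm_nonneg _))) ?_
    have he' : (‖g‖ + 1) * (‖x‖ + 1) * d = e := by rw [hd]; field_simp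
    nlinarith [norm_nonneg g, norm_nonneg x, mul_nonneg (norm_nonneg g) (norm_nonneg x)]

/-- The square root of an operator with nonnegative quadratic form. -/
theorem exists_root {G : Type} [NormedAddCommGroup G] [InnerProductSpace ℂ G] [CompleteSpace G]
    {T : G →L[ℂ] G} (hT : ∀ f, 0 ≤ ⟪f, T f⟫_ℂ) :
    ∃ S : G →L[ℂ] G, IsSelfAdjoint S ∧ S * S = T ∧ ∀ X, Commute T X → Commute S X := by
  have hpos : 0 ≤ T := by
    rw [ContinuousLinearMap.nonneg_iff_isPositive, ContinuousLinearMap.isPositive_iff_complex]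
    intro f
    obtain ⟨hre, him⟩ := Complex.nonneg_iff.1 (hT f)
    have e : ⟪T f, f⟫_ℂ = ((⟪f, T f⟫_ℂ).re : ℂ) := by
      rw [← inner_conj_symm (T f) f]
      exact Complex.ext (by rw [Complex.conj_re, Complex.ofReal_re])
        (by rw [Complex.conj_im, ← him, neg_zero, Complex.ofReal_im])
    rw [e]
    refine ⟨?_, ?_⟩
    · simp
    · simpa using hre
  refine ⟨cfc Real.sqrt T, cfc_predicate _ _, ?_, fun X hX => hX.cfc_real _⟩
  rw [← cfc_mul _ _ T]
  conv_rhs => rw [← cfc_id' ℝ T (IsSelfAdjoint.of_nonneg hpos)]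
  exact cfc_congr fun t ht => Real.mul_self_sqrt (spectrum_nonneg_of_nonneg hpos ht)

/-- The vector of the state from the compressed flip. -/
theorem exists_root_vector {G : Type} [NormedAddCommGroup G] [InnerProductSpace ℂ G]
    [CompleteSpace G] {T : G →L[ℂ] G} (hT : ∀ f, 0 ≤ ⟪f, T f⟫_ℂ) (v : G) :
    ∃ z : G, ∀ X : G →L[ℂ] G, Commute T X → ⟪z, X z⟫_ℂ = ⟪v, T (X v)⟫_ℂ := by
  obtain ⟨S, hS, hSS, hcom⟩ := exists_root hT
  refine ⟨S v, fun X hX => ?_⟩
  have e : X (S v) = S (X v) := (congrArg (fun F : G →L[ℂ] G => F v) (hcom X hX).eq).symm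
  rw [← hSS, mul_apply', sa_inner hS, e]

/-- A normal positive functional is a sum of vector functionals. -/
theorem exists_vectors (hψ : IsNormalCentral M A ψ) :
    ∃ (ι : Type) (η : ι → H), Summable (fun i => ‖η i‖ ^ 2) ∧
      ∀ x ∈ M, ψ x = ∑' i, ⟪η i, x (η i)⟫_ℂ := by
  classical
  obtain ⟨κ, a, b, ha, hb, hs⟩ := exists_series hψ
  have hinjt : Function.Injective fun k : κ => (k, true) := fun k k' e => (Prod.ext_iff.1 e).1
  have hinjf : Function.Injective fun k : κ => (k, false) := fun k k' e => (Prod.ext_iff.1 e).1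
  have hmem : Memℓp (fun i : κ × Bool => cond i.2 (a i.1) (b i.1)) 2 := by
    refine memℓp_gen ?_
    simp only [ENNReal.toReal_ofNat, Real.rpow_two]
    refine summable_of_sum_le (c := ∑' k, ‖a k‖ ^ 2 + ∑' k, ‖b k‖ ^ 2) (fun _ => sq_nonneg _)
      fun u => ?_
    calc ∑ i ∈ u, ‖cond i.2 (a i.1) (b i.1)‖ ^ 2
        ≤ ∑ i ∈ (u.image Prod.fst) ×ˢ Finset.univ, ‖cond i.2 (a i.1) (b i.1)‖ ^ 2 :=
          Finset.sum_le_sum_of_subset_of_nonneg (fun i hi => Finset.mem_product.2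
            ⟨Finset.mem_image_of_mem _ hi, Finset.mem_univ _⟩) fun _ _ _ => sq_nonneg _
      _ = ∑ k ∈ u.image Prod.fst, (‖a k‖ ^ 2 + ‖b k‖ ^ 2) := by
          rw [Finset.sum_product]
          exact Finset.sum_congr rfl fun k _ => by simp
      _ ≤ _ := by
          rw [Finset.sum_add_distrib]
          exact add_le_add (ha.sum_le_tsum _ fun _ _ => sq_nonneg _)
            (hb.sum_le_tsum _ fun _ _ => sq_nonneg _)
  obtain ⟨v, hv⟩ : ∃ v : lp (fun _ : κ × Bool => H) 2, ∀ i, v i = cond i.2 (a i.1) (b i.1) :=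
    ⟨⟨_, hmem⟩, fun _ => rfl⟩
  have hsq : ∀ f : lp (fun _ : κ × Bool => H) 2, Summable fun i => ‖f i‖ ^ 2 := fun f => by
    simpa using (lp.memℓp f).summable (by norm_num : 0 < (2 : ℝ≥0∞).toReal)
  have hflip : ∀ (f : lp (fun _ : κ × Bool => H) 2) (u : Finset (κ × Bool)),
      ∑ i ∈ u, ‖cond i.2 (f (i.1, false)) 0‖ ^ 2 ≤ ∑' i, ‖f i‖ ^ 2 := by
    intro f u
    calc ∑ i ∈ u, ‖cond i.2 (f (i.1, false)) 0‖ ^ 2
        ≤ ∑ i ∈ (u.image Prod.fst) ×ˢ Finset.univ, ‖cond i.2 (f (i.1, false)) 0‖ ^ 2 :=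
          Finset.sum_le_sum_of_subset_of_nonneg (fun i hi => Finset.mem_product.2
            ⟨Finset.mem_image_of_mem _ hi, Finset.mem_univ _⟩) fun _ _ _ => sq_nonneg _
      _ = ∑ k ∈ u.image Prod.fst, ‖f (k, false)‖ ^ 2 := by
          rw [Finset.sum_product]
          exact Finset.sum_congr rfl fun k _ => by simp
      _ = ∑ i ∈ (u.image Prod.fst).image (fun k => (k, false)), ‖f i‖ ^ 2 :=
          (Finset.sum_image (f := fun i => ‖f i‖ ^ 2) fun k _ k' _ e => hinjf e).symm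
      _ ≤ _ := (hsq f).sum_le_tsum _ fun _ _ => sq_nonneg _
  let R : lp (fun _ : κ × Bool => H) 2 →L[ℂ] lp (fun _ : κ × Bool => H) 2 :=
    LinearMap.mkContinuous
      { toFun := fun f => ⟨fun i => cond i.2 (f (i.1, false)) 0, memℓp_gen (by
          simp only [ENNReal.toReal_ofNat, Real.rpow_two]
          exact summable_of_sum_le (fun _ => sq_nonneg _) (hflip f))⟩
        map_add' := fun f f' => by
          ext ⟨k, c⟩
          cases c
          exacts [(add_zero (0 : H)).symm, rfl]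
        map_smul' := fun c f => by
          ext ⟨k, c'⟩
          cases c'
          exacts [(smul_zero c).symm, rfl] }
      1 fun f => by
        rw [one_mul]
        refine (abs_le_of_sq_le_sq' ?_ (norm_nonneg _)).2
        have h1 : ∀ f : lp (fun _ : κ × Bool => H) 2, ‖f‖ ^ 2 = ∑' i, ‖f i‖ ^ 2 := fun f => by
          simpa using lp.norm_rpow_eq_tsum (p := 2) (by norm_num) f
        rw [h1, h1]
        exact Real.tsum_le_of_sum_le (fun _ => sq_nonneg _) (hflip f)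
  have hR : ∀ f i, R f i = cond i.2 (f (i.1, false)) 0 := fun _ _ => rfl
  have hRD : ∀ (x : H →L[ℂ] H) f, R (diagMul x f) = diagMul x (R f) := fun x f => by
    refine lp.ext (funext fun ⟨k, c⟩ => ?_)
    rw [hR, diagMul_apply, diagMul_apply, hR]
    cases c <;> simp
  have hform : ∀ x ∈ M, ∀ y ∈ M,
      ⟪diagMul y v, R (diagMul x v)⟫_ℂ = ψ (star y * x) := by
    intro x hx y hy
    rw [lp.inner_eq_tsum, ← (hs _ (mul_mem (star_mem hy) hx)).tsum_eq,
      ← hinjt.tsum_eq (f := fun i => ⟪diagMul y v i, R (diagMul x v) i⟫_ℂ)]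
    · refine tsum_congr fun k => ?_
      show ⟪diagMul y v (k, true), R (diagMul x v) (k, true)⟫_ℂ = _
      rw [hR, diagMul_apply, cond_true, diagMul_apply, hv, hv, cond_true, cond_false, mul_apply',
        ContinuousLinearMap.star_eq_adjoint, ContinuousLinearMap.adjoint_inner_right]
    · rintro ⟨k, c⟩ hi
      cases c
      · exfalso
        refine hi ?_
        show ⟪diagMul y v (k, false), R (diagMul x v) (k, false)⟫_ℂ = 0
        rw [hR, cond_false, inner_zero_right]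
      · exact ⟨k, rfl⟩
  let ev : (H →L[ℂ] H) →ₗ[ℂ] lp (fun _ : κ × Bool => H) 2 :=
    { toFun := fun x => diagMul x v
      map_add' := fun x y => by ext i; rfl
      map_smul' := fun c x => by ext i; rfl }
  let MS : Submodule ℂ (H →L[ℂ] H) := M.toStarSubalgebra.toSubalgebra.toSubmodule
  obtain ⟨K, hK⟩ : ∃ K : Submodule ℂ (lp (fun _ : κ × Bool => H) 2),
      K = (MS.map ev).topologicalClosure := ⟨_, rfl⟩
  have : CompleteSpace K := hK ▸ (Submodule.isClosed_topologicalClosure _).completeSpace_coe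
  have hinv : ∀ x ∈ M, ∀ f ∈ K, diagMul x f ∈ K := by
    intro x hx f hf
    rw [hK] at hf ⊢
    refine map_mem_closure (diagMul x).continuous hf ?_
    rintro _ ⟨y, hy, rfl⟩
    exact ⟨x * y, (mul_mem hx (show y ∈ M from hy) : x * y ∈ M), by ext i; rfl⟩
  have hcomm : ∀ x ∈ M, ∀ f, K.starProjection (diagMul x f)
      = diagMul x (K.starProjection f) := by
    intro x hx f
    refine Submodule.eq_starProjection_of_mem_of_inner_eq_zero
      (hinv x hx _ (Submodule.starProjection_apply_mem _ _)) fun w hw => ?_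
    rw [← map_sub, ← inner_conj_symm, diagMul_inner, inner_conj_symm]
    exact Submodule.starProjection_inner_eq_zero f _ (hinv _ (star_mem hx) w hw)
  have hKpos : ∀ f ∈ K, 0 ≤ ⟪f, R f⟫_ℂ := by
    intro f hf
    rw [hK] at hf
    have hc : IsClosed {p : lp (fun _ : κ × Bool => H) 2 |
        0 ≤ RCLike.re ⟪p, R p⟫_ℂ ∧ RCLike.im ⟪p, R p⟫_ℂ = 0} := by
      have hcont : Continuous fun p => ⟪p, R p⟫_ℂ := continuous_id.inner R.continuous
      exact (isClosed_le continuous_const (RCLike.continuous_re.comp hcont)).inter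
        (isClosed_eq (RCLike.continuous_im.comp hcont) continuous_const)
    have h1 := closure_minimal (fun p hp => ?_) hc (show f ∈ closure _ from hf)
    · exact Complex.nonneg_iff.2 ⟨h1.1, h1.2.symm⟩
    · obtain ⟨x, hx, rfl⟩ := hp
      show 0 ≤ RCLike.re ⟪diagMul x v, R (diagMul x v)⟫_ℂ ∧
        RCLike.im ⟪diagMul x v, R (diagMul x v)⟫_ℂ = 0
      rw [hform x hx x hx]
      exact ⟨(Complex.nonneg_iff.1 (hψ.nonneg x hx)).1, (Complex.nonneg_iff.1 (hψ.nonneg x hx)).2.symm⟩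
  obtain ⟨T, hT⟩ : ∃ T, T = K.starProjection * R * K.starProjection := ⟨_, rfl⟩
  have hTf : ∀ f g, ⟪f, T g⟫_ℂ = ⟪K.starProjection f, R (K.starProjection g)⟫_ℂ := fun f g => by
    rw [hT, mul_apply', mul_apply', Submodule.inner_starProjection_left_eq_right]
  obtain ⟨z, hz⟩ := exists_root_vector (T := T)
    (fun f => by rw [hTf]; exact hKpos _ (Submodule.starProjection_apply_mem _ _)) v
  refine ⟨κ × Bool, fun i => z i, hsq z, fun x hx => ?_⟩
  have hTX : Commute T (diagMul x) := by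
    show T * diagMul x = diagMul x * T
    ext1 f
    simp only [hT, mul_apply', hcomm x hx, hRD]
  have hone : diagMul (1 : H →L[ℂ] H) v = v := by ext i; rfl
  have hPv : ∀ y ∈ M, K.starProjection (diagMul y v) = diagMul y v := fun y hy => by
    rw [Submodule.starProjection_eq_self_iff, hK]
    exact Submodule.le_topologicalClosure _ ⟨y, hy, rfl⟩
  have h1 := hz _ hTX
  have hPv1 : K.starProjection v = diagMul (1 : H →L[ℂ] H) v := by
    simpa only [hone] using hPv 1 (one_mem M)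
  rw [hTf, hPv x hx, hPv1, hform x hx 1 (one_mem M), star_one, one_mul, lp.inner_eq_tsum] at h1
  exact h1.symm

end Vale.Agent.P078.Any
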