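import Vale.Agent.P078.Any.State
import Vale.Agent.P078.Any.NormalVectors
import Vale.Agent.P078.Dense

/-!
Finitely many vectors live in a corner of a separating MASA carrying a state centralised by the
MASA: so-paving for MASAs with such states gives it for separating MASAs.
-/

namespace Vale.Agent.P078.Any

open scoped InnerProductSpace ComplexOrder
open ContinuousLinearMap Cartan

variable {H : Type} [NormedAddCommGroup H] [InnerProductSpace ℂ H] [CompleteSpace H]
variable {M : VonNeumannAlgebra H} {A : StarSubalgebra ℂ (H →L[ℂ] H)}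

/-- The sum of the functionals of finitely many vectors is normal and central. -/
theorem sum_phi_normalCentral (hA : IsMasa M A) (hsep : SeparatingNormalCentral M A)
    (F : Finset H) : IsNormalCentral M A fun y => ∑ v ∈ F, P078.phi A v y := by
  classical
  induction F using Finset.induction_on with
  | empty =>
    refine ⟨fun _ _ _ _ => by simp, fun _ _ _ => by simp, fun _ _ => by simp,
      fun _ _ _ _ => by simp, fun t ht => ⟨∅, 1, one_pos, fun _ _ _ _ => by simpa using ht⟩⟩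
  | insert v s hv ih =>
    have h1 := phi_normalCentral hA hsep v
    simp only [Finset.sum_insert hv]
    refine ⟨fun x hx y hy => ?_, fun c x hx => ?_, fun x hx => ?_, fun a ha x hx => ?_,
      fun t ht => ?_⟩
    · rw [h1.map_add x hx y hy, ih.map_add x hx y hy]; ring
    · rw [h1.map_smul c x hx, ih.map_smul c x hx]; ring
    · exact add_nonneg (h1.nonneg x hx) (ih.nonneg x hx)
    · rw [h1.central a ha x hx, ih.central a ha x hx]
    · obtain ⟨F₁, d₁, hd₁, hF₁⟩ := h1.normal (t / 2) (half_pos ht)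
      obtain ⟨F₂, d₂, hd₂, hF₂⟩ := ih.normal (t / 2) (half_pos ht)
      refine ⟨F₁ ∪ F₂, min d₁ d₂, lt_min hd₁ hd₂, fun x hx hx1 hxs => ?_⟩
      have a₁ := hF₁ x hx hx1 fun ξ hξ =>
        lt_of_lt_of_le (hxs ξ (Finset.mem_union_left _ hξ)) (min_le_left _ _)
      have a₂ := hF₂ x hx hx1 fun ξ hξ =>
        lt_of_lt_of_le (hxs ξ (Finset.mem_union_right _ hξ)) (min_le_right _ _)
      exact lt_of_le_of_lt (norm_add_le _ _) (by linarith)

/-- The smallest projection of the MASA fixing finitely many vectors. -/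
theorem exists_carrier (hA : IsMasa M A) (F : Finset H) :
    ∃ (U : Submodule ℂ H) (_ : CompleteSpace U), U.starProjection ∈ A ∧ (∀ v ∈ F, v ∈ U) ∧
      ∀ R ∈ A, (∀ v ∈ F, R v = 0) → R * U.starProjection = 0 := by
  obtain ⟨S, hS⟩ : ∃ S : Set H, S = {u | ∃ w ∈ M.commutant, ∃ a ∈ A, ∃ v ∈ F, u = w (a v)} :=
    ⟨_, rfl⟩
  obtain ⟨U, hU⟩ : ∃ U : Submodule ℂ H, U = (Submodule.span ℂ S).topologicalClosure := ⟨_, rfl⟩
  have hUc : CompleteSpace U :=
    hU ▸ (Submodule.isClosed_topologicalClosure _).completeSpace_coe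
  have hcom : ∀ w ∈ M.commutant, ∀ a ∈ A, ∀ u, w (a u) = a (w u) := fun w hw a ha u =>
    congrArg (fun T : H →L[ℂ] H => T u) ((mem_vn_iff.1 (hA.le a ha)) w hw)
  have hinv : ∀ T : H →L[ℂ] H, (∀ u ∈ S, T u ∈ U) → ∀ u ∈ U, T u ∈ U := by
    intro T hT u hu
    have hc : IsClosed {u | T u ∈ U} := by
      rw [hU]
      exact (Submodule.isClosed_topologicalClosure _).preimage T.continuous
    rw [hU] at hu
    refine closure_minimal ?_ hc (show u ∈ closure _ from hu)
    intro z hz
    show T z ∈ U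
    induction hz using Submodule.span_induction with
    | mem z hz => exact hT z hz
    | zero => rw [map_zero]; exact zero_mem U
    | add a b _ _ h1 h2 => rw [map_add]; exact add_mem h1 h2
    | smul c a _ h1 => rw [map_smul]; exact U.smul_mem c h1
  have hmem : ∀ u ∈ S, u ∈ U := fun u hu =>
    hU ▸ Submodule.le_topologicalClosure _ (Submodule.subset_span hu)
  have hM : ∀ z ∈ M.commutant, ∀ u ∈ U, z u ∈ U := fun z hz => hinv z fun u hu => by
    rw [hS] at hu
    obtain ⟨w, hw, a, ha, v, hv, rfl⟩ := hu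
    exact hmem _ (hS ▸ ⟨z * w, mul_mem hz hw, a, ha, v, hv, rfl⟩)
  have hAi : ∀ b ∈ A, ∀ u ∈ U, b u ∈ U := fun b hb => hinv b fun u hu => by
    rw [hS] at hu
    obtain ⟨w, hw, a, ha, v, hv, rfl⟩ := hu
    exact hmem _ (hS ▸ ⟨w, hw, b * a, mul_mem hb ha, v, hv, by rw [mul_apply', hcom w hw b hb]⟩)
  refine ⟨U, hUc, hA.mem_of_commute (proj_mem_vn U hM) fun a ha =>
    (proj_comm_of_invariant U (hAi a ha) (hAi _ (star_mem ha))).eq, fun v hv => ?_,
    fun R hR hR0 => ?_⟩
  · exact hmem v (hS ▸ ⟨1, one_mem _, 1, one_mem A, v, hv, rfl⟩)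
  · ext u
    rw [mul_apply', zero_apply]
    have hu := Submodule.starProjection_apply_mem U u
    have hc : IsClosed {z | R z = 0} := isClosed_eq R.continuous continuous_const
    have key : ∀ z ∈ U, R z = 0 := by
      intro z hz
      rw [hU] at hz
      refine closure_minimal ?_ hc (show z ∈ closure _ from hz)
      intro z hz
      show R z = 0
      induction hz using Submodule.span_induction with
      | mem z hz =>
        rw [hS] at hz
        obtain ⟨w, hw, a, ha, v, hv, rfl⟩ := hz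
        have e : R (a v) = a (R v) := by rw [← mul_apply', hA.comm R hR a ha, mul_apply']
        rw [← hcom w hw R hR, e, hR0 v hv, map_zero, map_zero]
      | zero => rw [map_zero]
      | add a b _ _ h1 h2 => rw [map_add, h1, h2, add_zero]
      | smul c a _ h1 => rw [map_smul, h1, smul_zero]
    exact key _ hu

section corner

variable (U : Submodule ℂ H) [CompleteSpace U]

theorem inner_ext0 (η : H) (y : U →L[ℂ] U) :
    ⟪U.orthogonalProjectionOnto η, y (U.orthogonalProjectionOnto η)⟫_ℂ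
      = ⟪η, ext0 U y η⟫_ℂ := by
  rw [ext0_apply, Submodule.coe_inner]
  conv_rhs => arg 3; rw [← Submodule.starProjection_eq_self_iff.2 (SetLike.coe_mem _)]
  exact Submodule.inner_starProjection_left_eq_right U η _

/-- A carrier corner has a state centralised by the MASA. -/
theorem exists_corner_state (hA : IsMasa M A) (hsep : SeparatingNormalCentral M A) (F : Finset H)
    (hU : U.starProjection ∈ A) (hR : ∀ R ∈ A, (∀ v ∈ F, R v = 0) → R * U.starProjection = 0)
    (hne : U.starProjection ≠ 0) :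
    ∃ (ι : Type) (η : ι → U),
      IsState (cornerVN U M (hA.le _ hU)) (cornerSub U A hU) η := by
  classical
  obtain ⟨ψ, hψe⟩ : ∃ ψ : (H →L[ℂ] H) → ℂ, ψ = fun y => ∑ v ∈ F, P078.phi A v y := ⟨_, rfl⟩
  have hψ : IsNormalCentral M A ψ := hψe ▸ sum_phi_normalCentral hA hsep F
  obtain ⟨ι, η₀, hsum, hη⟩ := exists_vectors hψ
  obtain ⟨η₁, hη₁⟩ : ∃ η₁ : ι → U, ∀ i, η₁ i = U.orthogonalProjectionOnto (η₀ i) :=
    ⟨_, fun _ => rfl⟩
  have hpair : ∀ y ∈ cornerVN U M (hA.le _ hU),
      ∑' i, ⟪η₁ i, y (η₁ i)⟫_ℂ = ψ (ext0 U y) := fun y hy => by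
    rw [hη _ hy]
    exact tsum_congr fun i => by rw [hη₁, inner_ext0]
  have hsum1 : Summable fun i => ‖η₁ i‖ ^ 2 := by
    refine Summable.of_nonneg_of_le (fun i => sq_nonneg _) (fun i => ?_) hsum
    rw [hη₁]
    refine pow_le_pow_left₀ (norm_nonneg _) ((le_opNorm _ _).trans ?_) 2
    exact mul_le_of_le_one_left (norm_nonneg _) U.orthogonalProjectionOnto_norm_le
  have hfaith : ∀ y ∈ cornerVN U M (hA.le _ hU), (∀ i, y (η₁ i) = 0) → y = 0 := by
    intro y hy h0
    obtain ⟨Y, hY⟩ : ∃ Y, Y = ext0 U y := ⟨_, rfl⟩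
    have hYM : Y ∈ M := hY ▸ hy
    have hz : ψ (star Y * Y) = 0 := by
      rw [hY, ← ext0_star, ← ext0_mul, ← hpair _ (mul_mem (star_mem hy) hy)]
      simp only [mul_apply', h0, map_zero, inner_zero_right, tsum_zero]
    have hv : ∀ v ∈ F, semi A v Y = 0 := by
      intro v hv
      have hnn : ∀ w ∈ F, 0 ≤ P078.phi A w (star Y * Y) := fun w _ => by
        rw [phi_self_real]; exact Complex.zero_le_real.2 (sq_nonneg _)
      rw [hψe] at hz
      have h1 := (Finset.sum_eq_zero_iff_of_nonneg hnn).1 hz v hv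
      rw [phi_self_real, Complex.ofReal_eq_zero] at h1
      exact eq_zero_of_pow_eq_zero h1
    obtain ⟨R, hRA, hRs, hR2⟩ := expect_pos_sqrt hA hYM
    have hRU : R * U.starProjection = 0 := hR R hRA fun v hv' => by
      have h1 := hv v hv'
      rw [semi_eq_norm hRs hR2 v] at h1
      exact norm_eq_zero.1 h1
    have hYU : Y * U.starProjection = Y := by
      rw [hY, ← ext0_one, ← ext0_mul, mul_one]
    have hE : expect A (star Y * Y) = 0 := by
      conv_lhs => rw [← hYU, star_mul, (isStarProjection_starProjection).isSelfAdjoint.star_eq,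
        mul_assoc, ← mul_assoc (star Y) Y, expect_mul_left hA hU, expect_mul_right hA hU, ← hR2,
        mul_assoc R R, hRU, mul_zero, mul_zero]
    have hY0 : Y = 0 := eq_zero_of_semi_eq_zero hA hsep hYM fun v => by
      rw [semi, P078.phi, hE]
      simp
    exact ext0_injective U ((hY.symm.trans hY0).trans (ext0_zero U).symm)
  obtain ⟨m, hm⟩ : ∃ m : ℝ, m = ∑' i, ‖η₁ i‖ ^ 2 := ⟨_, rfl⟩
  have hm0 : 0 < m := by
    refine lt_of_le_of_ne (hm ▸ tsum_nonneg fun i => sq_nonneg _) fun e => hne ?_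
    have h1 := (hasSum_zero_iff_of_nonneg fun i => sq_nonneg ‖η₁ i‖).1 (e ▸ hm ▸ hsum1.hasSum)
    have h2 := hfaith 1 (one_mem _) fun i => by simpa using congrFun h1 i
    rw [← ext0_one, h2, ext0_zero]
  obtain ⟨c, hc⟩ : ∃ c : ℝ, c = (Real.sqrt m)⁻¹ := ⟨_, rfl⟩
  have hc0 : 0 < c := hc ▸ inv_pos.2 (Real.sqrt_pos.2 hm0)
  refine ⟨ι, fun i => (c : ℂ) • η₁ i, ?_⟩
  have hsc : ∀ i, ‖(c : ℂ) • η₁ i‖ ^ 2 = c ^ 2 * ‖η₁ i‖ ^ 2 := fun i => by
    rw [norm_smul, Complex.norm_real, Real.norm_of_nonneg hc0.le, mul_pow]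
  refine ⟨?_, ?_, fun a ha y hy => ?_, fun y hy h0 => ?_⟩
  · simp only [hsc]; exact hsum1.mul_left _
  · simp only [hsc]
    rw [tsum_mul_left, ← hm, hc, inv_pow, Real.sq_sqrt hm0.le, inv_mul_cancel₀ hm0.ne']
  · have e : ∀ T : U →L[ℂ] U, ∀ i, ⟪(c : ℂ) • η₁ i, T ((c : ℂ) • η₁ i)⟫_ℂ
        = (c : ℂ) * (c : ℂ) * ⟪η₁ i, T (η₁ i)⟫_ℂ := fun T i => by
      rw [map_smul, inner_smul_left, inner_smul_right, Complex.conj_ofReal, mul_assoc]
    have haM : a ∈ cornerVN U M (hA.le _ hU) := hA.le _ ha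
    simp only [← mul_apply' a, ← mul_apply' y, e, tsum_mul_left]
    rw [hpair _ (mul_mem haM hy), hpair _ (mul_mem hy haM), ext0_mul, ext0_mul,
      hψ.central _ ha _ hy]
  · refine hfaith y hy fun i => ?_
    have h1 := h0 i
    rw [map_smul] at h1
    exact (smul_eq_zero.1 h1).resolve_left (Complex.ofReal_ne_zero.2 hc0.ne')

/-- Paving in a corner carrying the vectors gives paving. -/
theorem pave_of_corner (hA : IsMasa M A) (hU : U.starProjection ∈ A) {ε : ℝ} (hε : 0 ≤ ε) {r : ℕ}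
    (hr : 0 < r) {x : H →L[ℂ] H} (hx : x ∈ M) (hxs : IsSelfAdjoint x) (F : Finset H)
    (hF : ∀ v ∈ F, v ∈ U) {δ : ℝ} (hδ : 0 < δ)
    (hp : AllSoPavable (cornerVN U M (hA.le _ hU)) (cornerSub U A hU) ε r) :
    ∃ p : Fin r → (H →L[ℂ] H), IsPartition A p ∧
      ∃ a ∈ A, IsSelfAdjoint a ∧ ‖a‖ ≤ ‖x‖ ∧
      ∃ q ∈ M, IsStarProjection q ∧ (∀ ξ ∈ F, ‖(1 - q) ξ‖ < δ) ∧
        ‖q * (pinching p x - a) * q‖ ≤ ε * ‖x‖ := by
  classical
  obtain ⟨g, hg⟩ : ∃ g, g = U.starProjection := ⟨_, rfl⟩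
  have hgp : IsStarProjection g := hg ▸ isStarProjection_starProjection
  have hgA : g ∈ A := hg ▸ hU
  have hyM : comp0 U x ∈ cornerVN U M (hA.le _ hU) := by
    rw [mem_cornerVN, ext0_comp0]; exact mul_mem (mul_mem (hA.le _ hU) hx) (hA.le _ hU)
  have hys : IsSelfAdjoint (comp0 U x) := by
    refine ext0_injective U ?_
    rw [ext0_star, ext0_comp0, star_mul, star_mul,
      (isStarProjection_starProjection).isSelfAdjoint.star_eq, hxs.star_eq, mul_assoc]
  obtain ⟨p, hpp, a, ha, has, han, q, hqM, hqp, hqd, hqn⟩ :=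
    hp _ hyM hys (F.image U.orthogonalProjectionOnto) δ hδ
  have hproj : ∀ {y : U →L[ℂ] U}, IsStarProjection y → IsStarProjection (ext0 U y) := by
    intro y hy
    refine ⟨?_, ?_⟩
    · show ext0 U y * ext0 U y = ext0 U y
      rw [← ext0_mul, hy.isIdempotentElem.eq]
    · rw [IsSelfAdjoint, ← ext0_star, hy.isSelfAdjoint.star_eq]
  have hgy : ∀ y, g * ext0 U y = ext0 U y ∧ ext0 U y * g = ext0 U y := fun y => by
    rw [hg, ← ext0_one, ← ext0_mul, ← ext0_mul, one_mul, mul_one]
    exact ⟨rfl, rfl⟩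
  have hy0 : ∀ y, (1 - g) * ext0 U y = 0 ∧ ext0 U y * (1 - g) = 0 := fun y => by
    rw [sub_mul, mul_sub, one_mul, mul_one, (hgy y).1, (hgy y).2, sub_self]
    exact ⟨rfl, rfl⟩
  obtain ⟨e, he⟩ : ∃ e : Fin r → (H →L[ℂ] H), e = fun i => if i = ⟨0, hr⟩ then 1 - g else 0 :=
    ⟨_, rfl⟩
  have heA : ∀ i, e i ∈ A := fun i => by
    rw [he]; dsimp only; split_ifs
    · exact sub_mem (one_mem A) hgA
    · exact zero_mem A
  have hep : ∀ i, IsStarProjection (e i) := fun i => by
    rw [he]; dsimp only; split_ifs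
    · exact hgp.one_sub
    · exact IsStarProjection.zero _
  have hey : ∀ i y, e i * ext0 U y = 0 ∧ ext0 U y * e i = 0 := fun i y => by
    rw [he]; dsimp only; split_ifs
    · exact hy0 y
    · exact ⟨zero_mul _, mul_zero _⟩
  have heo : ∀ i j, i ≠ j → e i * e j = 0 := fun i j hij => by
    rw [he]; dsimp only; split_ifs with h1 h2
    · exact absurd (h1.trans h2.symm) hij
    all_goals simp
  refine ⟨fun i => ext0 U (p i) + e i, ⟨fun i => add_mem (hpp.mem i) (heA i),
    fun i => (hproj (hpp.proj i)).add (hep i) (hey i _).2, fun i j hij => ?_, ?_⟩,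
    ext0 U a, ha, by rw [IsSelfAdjoint, ← ext0_star, has.star_eq],
    (norm_ext0_le U a).trans (han.trans (norm_comp0_le U x)), ext0 U q, hqM, hproj hqp,
    fun ξ hξ => ?_, ?_⟩
  · rw [add_mul, mul_add, mul_add, ← ext0_mul, hpp.orth i j hij, ext0_zero, (hey j _).2,
      (hey i _).1, heo i j hij, add_zero, add_zero]
  · rw [Finset.sum_add_distrib, ← ext0_sum, hpp.sum_eq, ext0_one, he]
    simp [← hg]
  · have e1 : (1 - ext0 U q) ξ = ext0 U (1 - q) ξ := by
      rw [ext0_sub, sub_apply, sub_apply, one_apply_eq_self, ext0_one,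
        Submodule.starProjection_eq_self_iff.2 (hF ξ hξ)]
    rw [e1, ext0_apply]
    exact hqd _ (Finset.mem_image_of_mem _ hξ)
  · have hxy : ext0 U (comp0 U x) = g * x * g := by rw [ext0_comp0, hg]
    have hgi : ∀ i, g * (ext0 U (p i) + e i) = ext0 U (p i) ∧
        (ext0 U (p i) + e i) * g = ext0 U (p i) := fun i => by
      have hge : g * e i = 0 ∧ e i * g = 0 := by
        have := hey i 1
        rw [ext0_one, ← hg] at this
        exact ⟨this.2, this.1⟩
      rw [mul_add, add_mul, (hgy _).1, (hgy _).2, hge.1, hge.2, add_zero]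
      exact ⟨rfl, rfl⟩
    have key : g * pinching (fun i => ext0 U (p i) + e i) x * g
        = ext0 U (pinching p (comp0 U x)) := by
      simp only [pinching, ext0_sum, Finset.mul_sum, Finset.sum_mul]
      refine Finset.sum_congr rfl fun i _ => ?_
      calc g * ((ext0 U (p i) + e i) * x * (ext0 U (p i) + e i)) * g
          = g * (ext0 U (p i) + e i) * x * ((ext0 U (p i) + e i) * g) := by simp only [mul_assoc]
        _ = ext0 U (p i) * g * x * (g * ext0 U (p i)) := by
            rw [(hgi i).1, (hgi i).2, (hgy _).1, (hgy _).2]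
        _ = ext0 U (p i) * (g * x * g) * ext0 U (p i) := by simp only [mul_assoc]
        _ = _ := by rw [← hxy, ← ext0_mul, ← ext0_mul]
    have e2 : ext0 U q * (pinching (fun i => ext0 U (p i) + e i) x - ext0 U a) * ext0 U q
        = ext0 U (q * (pinching p (comp0 U x) - a) * q) := by
      calc _ = ext0 U q * g * (pinching (fun i => ext0 U (p i) + e i) x - ext0 U a)
            * (g * ext0 U q) := by rw [(hgy q).1, (hgy q).2]
        _ = ext0 U q * (g * (pinching (fun i => ext0 U (p i) + e i) x - ext0 U a) * g)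
            * ext0 U q := by simp only [mul_assoc]
        _ = _ := by
            rw [mul_sub, sub_mul, key, (hgy a).1, (hgy a).2, ← ext0_sub, ← ext0_mul, ← ext0_mul]
    rw [e2]
    exact (norm_ext0_le U _).trans (hqn.trans
      (mul_le_mul_of_nonneg_left (norm_comp0_le U x) hε))

end corner

/-- So-paving for MASAs with a centralised state gives it for separating MASAs. -/
theorem allSoPavable_of_states {ε : ℝ} (hε : 0 < ε) {r : ℕ} (hr : 0 < r)
    (hyp : ∀ (K : Type) [NormedAddCommGroup K] [InnerProductSpace ℂ K] [CompleteSpace K]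
      (N : VonNeumannAlgebra K) (B : StarSubalgebra ℂ (K →L[ℂ] K)) (ι : Type) (η : ι → K),
      IsMasa N B → IsState N B η → AllSoPavable N B ε r)
    (hA : IsMasa M A) (hsep : SeparatingNormalCentral M A) : AllSoPavable M A ε r := by
  intro x hx hxs F δ hδ
  obtain ⟨U, hUc, hU, hFU, hR⟩ := exists_carrier hA F
  by_cases hne : U.starProjection = 0
  · have hF0 : ∀ v ∈ F, v = 0 := fun v hv => by
      have := Submodule.starProjection_eq_self_iff.2 (hFU v hv)
      rw [hne, zero_apply] at this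
      exact this.symm
    obtain ⟨p, hp⟩ := exists_trivial_partition (A := A) hr
    exact ⟨p, hp, 0, zero_mem A, IsSelfAdjoint.zero _, by simp, 0, zero_mem M,
      IsStarProjection.zero _, fun ξ hξ => by simp [hF0 ξ hξ, hδ],
      by simpa using mul_nonneg hε.le (norm_nonneg x)⟩
  · obtain ⟨ι, η, hst⟩ := exists_corner_state U hA hsep F hU hR hne
    exact pave_of_corner U hA hU hε.le hr hx hxs F hFU hδ
      (hyp U _ _ ι η (corner_isMasa U hU (hA.le _ hU) hA) hst)

end Vale.Agent.P078.Any
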