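import Vale.Agent.P078.Any.OperatorPave
import Vale.Agent.P078.Any.Corner
import Vale.Agent.P078.Reduce

/-!
So-paving with a quadratic count for a MASA in the centraliser of a state, and for every MASA with
separating centralised functionals.
-/

namespace Vale.Agent.P078.Any

open scoped InnerProductSpace ComplexOrder
open ContinuousLinearMap Cartan

variable {H : Type} [NormedAddCommGroup H] [InnerProductSpace ℂ H] [CompleteSpace H]
variable {M : VonNeumannAlgebra H} {A : StarSubalgebra ℂ (H →L[ℂ] H)} {ι : Type} {η : ι → H}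

/-- The pieces of a bound by moments, added up. -/
theorem combine_moments (h : IsState M A η) {S R Y : H →L[ℂ] H} (hSM : S ∈ M) (hRM : R ∈ M)
    (hYM : Y ∈ M) (hS : IsSelfAdjoint S) (hR : IsSelfAdjoint R) (hY : IsSelfAdjoint Y)
    {lam θ : ℝ} (hlam : 0 < lam) (hθ : 0 < θ) {j : ℕ} (hj : 0 < j) :
    ∃ k ∈ M, IsStarProjection k ∧ ‖k * (S + R + Y) * k‖ ≤ 2 * lam + θ + θ ∧
      θ * ‖h.V (1 - k)‖ ^ 2 ≤ (lam ^ (2 * j - 1))⁻¹ *
        ((h.phi (S ^ (2 * j))).re + (h.phi (Y ^ (2 * j))).re) + θ⁻¹ * ‖h.V R‖ ^ 2 := by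
  obtain ⟨c, hc⟩ : ∃ c : ℝ, c = (lam ^ (2 * j - 1))⁻¹ := ⟨_, rfl⟩
  have hc0 : 0 ≤ c := hc ▸ by positivity
  obtain ⟨P, hP⟩ : ∃ P : H →L[ℂ] H,
      P = c • S ^ (2 * j) + θ⁻¹ • R ^ (2 * 1) + c • Y ^ (2 * j) := ⟨_, rfl⟩
  have hpow : ∀ X : H →L[ℂ] H, IsSelfAdjoint X → ∀ k : ℕ, 0 ≤ X ^ (2 * k) := fun X hX k => by
    rw [two_mul, pow_add]
    conv_rhs => arg 1; rw [← (hX.pow k).star_eq]
    exact star_mul_self_nonneg _
  have hP0 : 0 ≤ P := hP ▸ add_nonneg (add_nonneg (smul_nonneg hc0 (hpow S hS j))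
    (smul_nonneg (inv_nonneg.2 hθ.le) (hpow R hR 1))) (smul_nonneg hc0 (hpow Y hY j))
  have hPM : P ∈ M := by
    rw [hP, ← Complex.coe_smul c, ← Complex.coe_smul θ⁻¹, ← Complex.coe_smul c]
    exact add_mem (add_mem (vn_smul_mem _ (pow_mem hSM _)) (vn_smul_mem _ (pow_mem hRM _)))
      (vn_smul_mem _ (pow_mem hYM _))
  have key : ∀ S' R' Y' : H →L[ℂ] H, IsSelfAdjoint S' → IsSelfAdjoint R' → IsSelfAdjoint Y' →
      S' ^ (2 * j) = S ^ (2 * j) → R' ^ (2 * 1) = R ^ (2 * 1) → Y' ^ (2 * j) = Y ^ (2 * j) →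
      S' + R' + Y' ≤ algebraMap ℝ (H →L[ℂ] H) (2 * lam + θ) + P :=
    fun S' R' Y' hS' hR' hY' eS eR eY => by
    have h1 := le_add_moment hS' hlam hj
    have h2 := le_add_moment hR' hθ one_pos
    have h3 := le_add_moment hY' hlam hj
    rw [eS, ← hc] at h1
    rw [eY, ← hc] at h3
    rw [eR, show 2 * 1 - 1 = 1 from rfl, pow_one θ] at h2
    refine (add_le_add (add_le_add h1 h2) h3).trans (le_of_eq ?_)
    rw [hP, two_mul lam, map_add, map_add]
    abel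
  obtain ⟨k, hkM, hk, hkn, hkV⟩ := h.exists_cut_state ((hS.add hR).add hY) hP0 hPM
    (by positivity : 0 ≤ 2 * lam + θ) hθ (key S R Y hS hR hY rfl rfl rfl) (by
      rw [neg_add, neg_add]
      exact key _ _ _ hS.neg hR.neg hY.neg ((even_two_mul j).neg_pow _) ((even_two_mul 1).neg_pow _)
        ((even_two_mul j).neg_pow _))
  refine ⟨k, hkM, hk, hkn, hkV.trans (le_of_eq ?_)⟩
  rw [hP, h.phi_add, h.phi_add, Complex.add_re, Complex.add_re, h.re_phi_real_smul,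
    h.re_phi_real_smul, h.re_phi_real_smul, mul_one, pow_two R, ← hc]
  rw [show R * R = star R * R by rw [hR.star_eq]]
  rw [h.re_phi_star_mul_self]
  ring

/-- So-paving for a MASA in the centraliser of a state. -/
theorem allSoPavable_of_isState (hR : RandomPavingStatement) (hA : IsMasa M A)
    (h : IsState M A η) {ε : ℝ} {r : ℕ} (hr : 0 < r) (hε : 100 / Real.sqrt r < ε) :
    AllSoPavable M A ε r := by
  have := hA.abelianClosed
  have := spec_totallyDisconnected hA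
  intro x hx hxs F δ hδ
  have hsq : (0 : ℝ) < Real.sqrt r := Real.sqrt_pos.2 (Nat.cast_pos.2 hr)
  have hε0 : 0 < ε := lt_trans (by positivity) hε
  rcases eq_or_ne x 0 with hx0 | hx0
  · obtain ⟨p, hp⟩ := exists_trivial_partition (A := A) hr
    refine ⟨p, hp, 0, zero_mem A, IsSelfAdjoint.zero _, by simp, 1, one_mem M,
      IsStarProjection.one _, fun ξ _ => by simpa using hδ, ?_⟩
    simp [hx0, pinching]
  -- the levels
  obtain ⟨lam, hlam⟩ : ∃ lam : ℝ, lam = 25 / Real.sqrt r := ⟨_, rfl⟩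
  have hlam0 : 0 < lam := hlam ▸ by positivity
  obtain ⟨θ, hθ, hθε⟩ : ∃ θ : ℝ, 0 < θ ∧ 2 * (2 * lam + θ + θ) ≤ ε :=
    ⟨(ε - 100 / Real.sqrt r) / 4, by linarith, by
      have e : 100 / Real.sqrt (r : ℝ) = 4 * lam := by rw [hlam]; ring
      rw [e]; linarith⟩
  obtain ⟨γ, hγ, hsmall⟩ := h.strong_small F hδ
  obtain ⟨tgt, htgt⟩ : ∃ tgt : ℝ, tgt = θ * γ ^ 2 := ⟨_, rfl⟩
  have htgt0 : 0 < tgt := htgt ▸ by positivity
  obtain ⟨d, hd, hdt⟩ : ∃ d : ℝ, 0 < d ∧ θ⁻¹ * d ^ 2 ≤ tgt / 3 :=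
    ⟨Real.sqrt (θ * tgt / 3), by positivity, by
      rw [Real.sq_sqrt (by positivity)]
      exact le_of_eq (by field_simp)⟩
  obtain ⟨j, hj0, hj⟩ : ∃ j : ℕ, 0 < j ∧ 3 * lam * (4 / 5 : ℝ) ^ (2 * j) ≤ tgt / 3 := by
    obtain ⟨i, hi⟩ := exists_pow_lt_of_lt_one (show 0 < tgt / 3 / (3 * lam) by positivity)
      (show (4 / 5 : ℝ) < 1 by norm_num)
    refine ⟨i + 1, Nat.succ_pos _, ?_⟩
    have h1 := (pow_le_pow_of_le_one (by norm_num : (0 : ℝ) ≤ 4 / 5) (by norm_num)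
      (show i ≤ 2 * (i + 1) by omega)).trans hi.le
    rw [le_div_iff₀ (by positivity), mul_comm] at h1
    exact h1
  obtain ⟨e, he⟩ : ∃ e : ℝ, e = tgt / 6 * lam ^ (2 * j - 1) := ⟨_, rfl⟩
  have he0 : 0 < e := he ▸ by positivity
  -- the split and the normalised parts
  obtain ⟨z, hzM, hzs, hzn, hzo, hzap⟩ := h.exists_split hA hx hxs
  have hmx : 0 < ‖x‖ := norm_pos_iff.2 hx0
  obtain ⟨n, hnS, hns, hnn, hnd⟩ := hzap (d * ‖x‖) (by positivity)
  have hnM := spanN_le hA hnS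
  obtain ⟨a, ha⟩ : ∃ a, a = expect A x := ⟨_, rfl⟩
  have haA : a ∈ A := ha ▸ expect_mem hA hx
  have has : IsSelfAdjoint a := ha ▸ expect_isSelfAdjoint hxs
  have han : ‖a‖ ≤ ‖x‖ := ha ▸ expect_norm_le x
  have hEz : expect A z = a := by
    have h1 := hzo 1 IsNormaliser.one
    rw [star_one, one_mul, expect_sub, sub_eq_zero] at h1
    rw [ha, h1]
  obtain ⟨b, hb⟩ : ∃ b : ℂ, b = (((2 * ‖x‖)⁻¹ : ℝ) : ℂ) := ⟨_, rfl⟩
  have hbs : starRingEnd ℂ b = b := by rw [hb, Complex.conj_ofReal]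
  have hbn : ‖b‖ = (2 * ‖x‖)⁻¹ := by
    rw [hb, Complex.norm_real, Real.norm_of_nonneg (by positivity)]
  have hsa : ∀ w : H →L[ℂ] H, IsSelfAdjoint w → IsSelfAdjoint (b • w) := fun w hw => by
    rw [IsSelfAdjoint, star_smul, hw.star_eq, RCLike.star_def, hbs]
  have hle1 : ∀ w : H →L[ℂ] H, ‖w‖ ≤ 2 * ‖x‖ → ‖b • w‖ ≤ 1 := fun w hw => by
    rw [norm_smul, hbn, inv_mul_le_iff₀ (by positivity), mul_one]
    exact hw
  obtain ⟨n₀, hn₀⟩ : ∃ n₀ : H →L[ℂ] H, n₀ = b • (n - expect A n) := ⟨_, rfl⟩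
  obtain ⟨z₀, hz₀⟩ : ∃ z₀ : H →L[ℂ] H, z₀ = b • (z - a) := ⟨_, rfl⟩
  obtain ⟨y, hy⟩ : ∃ y : H →L[ℂ] H, y = b • (x - z) := ⟨_, rfl⟩
  have hn₀S : n₀ ∈ spanN M A := by
    rw [hn₀]
    refine Submodule.smul_mem _ _ (sub_mem hnS ?_)
    have h1 := mem_spanN (M := M) (expect_mem hA hnM) IsNormaliser.one
    rwa [mul_one] at h1
  have hn₀s : IsSelfAdjoint n₀ := hn₀ ▸ hsa _ (hns.sub (expect_isSelfAdjoint hns))
  have hn₀1 : ‖n₀‖ ≤ 1 := hn₀ ▸ hle1 _ ((norm_sub_le _ _).trans (by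
    have := expect_norm_le (A := A) n; linarith))
  have hn₀E : expect A n₀ = 0 := by
    rw [hn₀, expect_smul, expect_sub, expect_self hA (expect_mem hA hnM), sub_self, smul_zero]
  have hn₀M := spanN_le hA hn₀S
  have hz₀M : z₀ ∈ M := hz₀ ▸ vn_smul_mem _ (sub_mem hzM (hA.le _ haA))
  have hz₀s : IsSelfAdjoint z₀ := hz₀ ▸ hsa _ (hzs.sub has)
  have hzn₀ : ‖h.V (z₀ - n₀)‖ ≤ d := by
    have e1 : z₀ - n₀ = b • ((z - n) - expect A (z - n)) := by
      rw [hz₀, hn₀, expect_sub, hEz, ← smul_sub]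
      congr 1
      abel
    rw [e1, map_smul, norm_smul, hbn, inv_mul_le_iff₀ (by positivity), map_sub]
    refine (norm_sub_le _ _).trans ?_
    have := h.norm_V_expect_le hA (sub_mem hzM hnM)
    linarith
  have hyM : y ∈ M := hy ▸ vn_smul_mem _ (sub_mem hx hzM)
  have hys : IsSelfAdjoint y := hy ▸ hsa _ (hxs.sub hzs)
  have hy1 : ‖y‖ ≤ 1 := hy ▸ hle1 _ ((norm_sub_le _ _).trans (by linarith))
  have hyo : Orth M A y := fun v hv => by
    rw [hy, mul_smul_comm, expect_smul, hzo v hv, smul_zero]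
  -- one colouring, one cut
  obtain ⟨p, hp, hpy, hpn⟩ :=
    exists_pinching_moments hR hA h hn₀S hn₀s hn₀1 hn₀E hyM hys hy1 hyo hr hj0 he0
  obtain ⟨q, hqM, hq, hqT, hqV⟩ := combine_moments h (pinching_mem hA hp hn₀M)
    (pinching_mem hA hp (sub_mem hz₀M hn₀M)) (pinching_mem hA hp hyM)
    (pinching_isSelfAdjoint hp hn₀s) (pinching_isSelfAdjoint hp (hz₀s.sub hn₀s))
    (pinching_isSelfAdjoint hp hys) hlam0 hθ hj0
  refine ⟨p, hp, a, haA, has, han, q, hqM, hq, fun ξ hξ => ?_, ?_⟩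
  · refine hsmall _ (sub_mem (one_mem M) hqM) (norm_sa_proj_le hq.one_sub) ?_ ξ hξ
    have hpw : lam ^ (2 * j) = lam ^ (2 * j - 1) * lam := by
      rw [← pow_succ, Nat.sub_add_cancel (by omega)]
    have hmono : (2 / Real.sqrt r) ^ (2 * j) ≤ (20 / Real.sqrt r) ^ (2 * j) := by
      gcongr
      norm_num
    have h20 : (20 / Real.sqrt r) ^ (2 * j) = (4 / 5) ^ (2 * j) * (lam ^ (2 * j - 1) * lam) := by
      rw [← hpw, ← mul_pow, hlam]
      congr 1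
      ring
    have hlp : 0 < lam ^ (2 * j - 1) := by positivity
    have h1 : (lam ^ (2 * j - 1))⁻¹ * ((h.phi (pinching p n₀ ^ (2 * j))).re +
        (h.phi (pinching p y ^ (2 * j))).re) ≤ 2 * tgt / 3 := by
      rw [inv_mul_le_iff₀ hlp]
      have := mul_le_mul_of_nonneg_left hj hlp.le
      nlinarith
    have h2 : θ⁻¹ * ‖h.V (pinching p (z₀ - n₀))‖ ^ 2 ≤ tgt / 3 :=
      (mul_le_mul_of_nonneg_left (pow_le_pow_left₀ (norm_nonneg _)
        ((h.norm_V_pinching_le hA hp (sub_mem hz₀M hn₀M)).trans hzn₀) 2)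
        (inv_nonneg.2 hθ.le)).trans hdt
    have h3 : θ * ‖h.V (1 - q)‖ ^ 2 ≤ θ * γ ^ 2 := by linarith
    exact le_of_pow_le_pow_left₀ two_ne_zero hγ.le (le_of_mul_le_mul_left h3 hθ)
  · have e1 : pinching p x - a = ((2 * ‖x‖ : ℝ) : ℂ) •
        (pinching p n₀ + pinching p (z₀ - n₀) + pinching p y) := by
      have e2 : n₀ + (z₀ - n₀) + y = b • (x - a) := by
        rw [hz₀, hy, add_sub_cancel, ← smul_add]
        congr 1
        abel
      rw [← pinching_add, ← pinching_add, e2, pinching_smul, pinching_sub, pinching_self hA hp haA,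
        smul_smul, hb, ← Complex.ofReal_mul, mul_inv_cancel₀ (by positivity), Complex.ofReal_one,
        one_smul]
    rw [e1, mul_smul_comm, smul_mul_assoc, norm_smul, Complex.norm_real,
      Real.norm_of_nonneg (by positivity)]
    calc 2 * ‖x‖ * ‖q * (pinching p n₀ + pinching p (z₀ - n₀) + pinching p y) * q‖
        ≤ 2 * ‖x‖ * (2 * lam + θ + θ) := mul_le_mul_of_nonneg_left hqT (by positivity)
      _ ≤ ε * ‖x‖ := by nlinarith

/-- The number of pieces. -/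
theorem exists_level {ε : ℝ} (hε : 0 < ε) (hε1 : ε < 1) :
    ∃ r : ℕ, 0 < r ∧ (r : ℝ) ≤ 10002 / ε ^ 2 ∧ 100 / Real.sqrt r < ε := by
  obtain ⟨r, hr⟩ : ∃ r : ℕ, r = ⌈10000 / ε ^ 2⌉₊ + 1 := ⟨_, rfl⟩
  have h1 := Nat.ceil_lt_add_one (show 0 ≤ 10000 / ε ^ 2 by positivity)
  have h2 : (1 : ℝ) ≤ 1 / ε ^ 2 := by rw [le_div_iff₀ (by positivity)]; nlinarith
  have h3 : (10000 / ε ^ 2 : ℝ) < r := by
    rw [hr]; push_cast; linarith [Nat.le_ceil (10000 / ε ^ 2 : ℝ)]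
  have hr0 : 0 < r := by omega
  refine ⟨r, hr0, ?_, ?_⟩
  · rw [hr]; push_cast
    rw [show 10002 / ε ^ 2 = 10000 / ε ^ 2 + 2 * (1 / ε ^ 2) by ring]
    linarith
  · rw [div_lt_iff₀ (by positivity)]
    rw [div_lt_iff₀ (by positivity)] at h3
    refine lt_of_pow_lt_pow_left₀ 2 (by positivity) ?_
    rw [mul_pow, Real.sq_sqrt (Nat.cast_nonneg _)]
    linarith

/-- The bound for MASAs with separating centralised functionals, from the random paving. -/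
theorem quadraticPavingSeparating_of_randomPaving (hR : RandomPavingStatement) :
    QuadraticPavingSeparating := by
  refine ⟨10002, fun H _ _ _ M A hA hsep ε hε hε1 => ?_⟩
  obtain ⟨r, hr0, hr, hlt⟩ := exists_level hε hε1
  exact ⟨r, hr, allSoPavable_of_states hε hr0
    (fun K _ _ _ N B ι η hB hη => allSoPavable_of_isState hR hB hη hr0 hlt) hA hsep⟩

end Vale.Agent.P078.Any
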