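import Vale.Agent.P078.Cartan.Quad.State

/-!
Interfaces for paving without an invariant measure: systems of expected determinants, the local
random colouring rule and the statements of the blocks of the proof.
-/

namespace Vale.Agent.P078.Any

open Function Finset

/-- The colour weights at the points of `U` are probability laws. -/
def LawOn {V : Type} {r : ℕ} (w : V → Fin r → ℝ) (U : Finset V) : Prop :=
  ∀ u ∈ U, (∀ c, 0 ≤ w u c) ∧ ∑ c, w u c = 1

/-- Expected determinants of the finite windows of a graph, as a function of the colour laws and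
of the diagonal variables. -/
structure Sys (V : Type) [DecidableEq V] (r : ℕ) where
  /-- The neighbours. -/
  nb : V → Finset V
  nb_symm : ∀ a b, b ∈ nb a → a ∈ nb b
  /-- The expected determinant of a window. -/
  F : (V → Fin r → ℝ) → Finset V → (V → ℝ) → ℝ
  congr : ∀ (w w' : V → Fin r → ℝ) (U : Finset V) (z z' : V → ℝ),
    (∀ u ∈ U, w u = w' u) → (∀ u ∈ U, z u = z' u) → F w U z = F w' U z'
  empty : ∀ w z, F w ∅ z = 1
  single : ∀ w z u, LawOn w {u} → F w {u} z = z u - 1 / 2
  affine : ∀ w U z, LawOn w U → ∀ u ∈ U, ∀ a : ℝ,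
    F w U (update z u a) = F w U z + (a - z u) * F w (U.erase u) z
  split : ∀ w U z, ∀ u ∈ U,
    F w U z = ∑ c, w u c * F (update w u (Pi.single c 1)) U z
  mult : ∀ w A B z, LawOn w (A ∪ B) → Disjoint A B → (∀ a ∈ A, ∀ b ∈ B, b ∉ nb a) →
    F w (A ∪ B) z = F w A z * F w B z
  rayleigh : ∀ w U z, LawOn w U → ∀ u ∈ U, ∀ v ∈ U, u ≠ v →
    F w U z * F w ((U.erase u).erase v) z ≤ F w (U.erase u) z * F w (U.erase v) z
  bound : ∀ w U z, LawOn w U → (∀ v ∈ U, |z v| ≤ 5) →
    |F w U z| ≤ 8 ^ U.card * (Nat.factorial U.card : ℝ)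
  stieltjes : ∀ w U z, LawOn w U → (∀ T ⊆ U, 0 < F w T z) → ∀ u ∈ U,
    ∃ (n : ℕ) (m d : Fin n → ℝ), (∀ i, 0 ≤ m i) ∧ ∑ i, m i = 1 ∧ (∀ i, 0 < d i) ∧
      (∀ D, (∀ v ∈ U, z v ≤ D) → ∀ i, d i ≤ D) ∧
      ∀ t, 0 ≤ t →
        F w (U.erase u) (fun v => z v + t) / F w U (fun v => z v + t) = ∑ i, m i / (t + d i)
  init : ∀ U z, (∀ v ∈ U, (1 / Real.sqrt (2 * r) + Real.sqrt (1 / 2)) ^ 2 < z v) →
    0 < F (fun _ _ => 1 / r) U z

variable {V : Type} [DecidableEq V] {r : ℕ}

/-- All subwindows are positive: `z` is above the roots. -/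
def Sys.Valid (S : Sys V r) (w : V → Fin r → ℝ) (U : Finset V) (z : V → ℝ) : Prop :=
  ∀ T ⊆ U, 0 < S.F w T z

/-- The resolvent entry at a point. -/
noncomputable def Sys.Res (S : Sys V r) (w : V → Fin r → ℝ) (U : Finset V) (z : V → ℝ) (u : V) :
    ℝ :=
  S.F w (U.erase u) z / S.F w U z

/-- The self energy of a colour at a point. -/
noncomputable def Sys.hc (S : Sys V r) (w : V → Fin r → ℝ) (U : Finset V) (z : V → ℝ) (u : V)
    (c : Fin r) : ℝ :=
  z u - S.F (update w u (Pi.single c 1)) U z / S.F w (U.erase u) z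

/-- The points within `n` steps. -/
def ball (nb : V → Finset V) : ℕ → V → Finset V
  | 0, u => {u}
  | n + 1, u => ball nb n u ∪ (ball nb n u).biUnion nb

/-- The parameters of the colouring rule. -/
structure Par where
  /-- The number of rounds. -/
  m : ℕ
  /-- The radius of a test. -/
  L : ℕ
  /-- The starting level. -/
  T0 : ℝ
  /-- The rise of the level in one round. -/
  rise : ℝ
  /-- The square of the step of a move. -/
  h : ℝ
  /-- The gap above the level. -/
  g : ℝ
  /-- The bound of the test. -/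
  Lam : ℝ
  /-- The smallest weight of a colour that moves. -/
  eps : ℝ

/-- The level at which round `j` is tested. -/
noncomputable def Par.level (P : Par) (j : ℕ) : ℝ := P.T0 + j * P.rise + P.rise / 4

/-- A direction balanced for the weights and, up to `η`, for the self energies. -/
def DirOK {r : ℕ} (eps η : ℝ) (qu hh x : Fin r → ℝ) : Prop :=
  (∀ c, |x c| ≤ 1) ∧ ∑ c, qu c * x c = 0 ∧ |∑ c, qu c * x c * hh c| ≤ η ∧
    eps ^ 2 ≤ ∑ c, (qu c * x c) ^ 2

/-- Three colours have weight above `eps`. -/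
def Three {r : ℕ} (eps : ℝ) (qu : Fin r → ℝ) : Prop :=
  ∃ a b c, a ≠ b ∧ a ≠ c ∧ b ≠ c ∧ eps < qu a ∧ eps < qu b ∧ eps < qu c

/-- The weak test of a point, computed in its ball at constant levels from the state at the start
of the round: what a point that moves must satisfy. -/
def Sys.MayMove (S : Sys V r) (P : Par) (j : ℕ) (q : V → Fin r → ℝ) (u : V) : Prop :=
  S.Valid q (ball S.nb P.L u) (fun _ => P.level j + P.g / 4) ∧
    S.Res q (ball S.nb P.L u) (fun _ => P.level j + P.g / 4) u ≤ 2 * P.Lam ∧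
    S.Res q (ball S.nb P.L u) (fun _ => P.level j + P.g / 4) u -
      S.Res q (ball S.nb P.L u) (fun _ => P.level j + P.g / 2) u ≤ 2 * P.Lam * P.g

/-- The strong test, a closed condition: a point that satisfies it must move. -/
def Sys.MustMove (S : Sys V r) (P : Par) (j : ℕ) (q : V → Fin r → ℝ) (u : V) : Prop :=
  Three P.eps (q u) ∧
    (∀ T ⊆ ball S.nb P.L u, 0 ≤ S.F q T fun _ => P.level j + P.g / 8) ∧
    S.Res q (ball S.nb P.L u) (fun _ => P.level j + P.g / 4) u ≤ P.Lam ∧
    S.Res q (ball S.nb P.L u) (fun _ => P.level j + P.g / 4) u -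
      S.Res q (ball S.nb P.L u) (fun _ => P.level j + P.g / 2) u ≤ P.Lam * P.g

/-- A rule says, from the laws at the start of a round, which points move and in which
direction. -/
abbrev Rule (V : Type) (r : ℕ) : Type := ℕ → (V → Fin r → ℝ) → V → Option (Fin r → ℝ)

/-- The admissible rules. -/
def Sys.RuleOK (S : Sys V r) (P : Par) (η : ℝ) (rule : Rule V r) : Prop :=
  ∀ j q, (∀ U, LawOn q U) → ∀ u,
    (∀ x, rule j q u = some x → S.MayMove P j q u ∧
      DirOK P.eps η (q u) (S.hc q (ball S.nb P.L u) (fun _ => P.level j + P.g) u) x) ∧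
    (rule j q u = none → ¬ S.MustMove P j q u)

/-- A sign. -/
def sgn (b : Bool) : ℝ := if b then 1 else -1

/-- One round: the points with a coin move as the rule says, all at once. -/
noncomputable def next (P : Par) (rule : Rule V r) (j : ℕ) (q : V → Fin r → ℝ)
    (σ : V → Bool × Bool) (u : V) (c : Fin r) : ℝ :=
  if (σ u).1 = true then
    match rule j q u with
    | some x => q u c * (1 + sgn (σ u).2 * Real.sqrt P.h * x c)
    | none => q u c
  else q u c

/-- The laws after some rounds, as a function of the seeds. -/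
noncomputable def qAt (P : Par) (rule : Rule V r) (σ : ℕ → V → Bool × Bool) :
    ℕ → V → Fin r → ℝ
  | 0 => fun _ _ => 1 / r
  | j + 1 => next P rule j (qAt P rule σ j) (σ j)

/-- The final condition at a point. -/
def Sys.Good (S : Sys V r) (k₀ : ℕ) (Z : ℝ) (q : V → Fin r → ℝ) (v : V) : Prop :=
  S.Valid q (ball S.nb k₀ v) (fun _ => Z) ∧ ∀ u ∈ ball S.nb k₀ v, ∃ c, 1 / 3 ≤ q u c

/-- Seeds read off the cells of the points. -/
def seeds {m : ℕ} {X : Type} (cell : V → X) (σ : Fin m → X → Bool × Bool) (j : ℕ) (u : V) :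
    Bool × Bool :=
  if h : j < m then σ ⟨j, h⟩ (cell u) else (false, false)

/-- The start of the levels. -/
noncomputable def rootLevel (r : ℕ) : ℝ := (1 / Real.sqrt (2 * r) + Real.sqrt (1 / 2)) ^ 2

open Classical in
/-- Block C. For every admissible rule, every point whose neighbourhood is separated by the
cells, averaged over rounds and seeds, fails the final condition with small probability. -/
def CoreStatement : Prop :=
  ∀ (r d k₀ : ℕ) (γ δ : ℝ), 0 < r → 0 < γ → 0 < δ →
    ∃ (P : Par) (ρ : ℕ) (η : ℝ), 0 < P.m ∧ 0 < η ∧ 0 < P.g ∧ 0 < P.Lam ∧ 0 < P.eps ∧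
      0 ≤ P.h ∧ P.h ≤ 1 ∧
      ∀ (V : Type) [DecidableEq V] (S : Sys V r), (∀ v, (S.nb v).card ≤ d) →
        ∀ rule : Rule V r, S.RuleOK P η rule →
        ∀ (X : Type) [Fintype X] [DecidableEq X] (cell : V → X) (v : V),
          Set.InjOn cell (ball S.nb ρ v) →
          ∑ j : Fin P.m, ∑ σ : Fin P.m → X → Bool × Bool,
              (if S.Good k₀ (rootLevel r + 3 * γ) (qAt P rule (seeds cell σ) j) v then (0 : ℝ)
                else 1) ≤
            δ * P.m * Fintype.card (Fin P.m → X → Bool × Bool)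

/-- Elementary monotonicity facts. -/
structure Facts (S : Sys V r) : Prop where
  valid_mono : ∀ {w U z z'}, LawOn w U → S.Valid w U z → (∀ v ∈ U, z v ≤ z' v) →
    S.Valid w U z'
  res_anti : ∀ {w U z z' u}, LawOn w U → S.Valid w U z → (∀ v ∈ U, z v ≤ z' v) → u ∈ U →
    S.Res w U z' u ≤ S.Res w U z u
  res_window : ∀ {w U T z u}, LawOn w U → S.Valid w U z → T ⊆ U → u ∈ T →
    S.Res w T z u ≤ S.Res w U z u
  res_lower : ∀ {w U z u}, LawOn w U → S.Valid w U z → u ∈ U →
    1 / (z u - 1 / 2) ≤ S.Res w U z u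
  hc_ge : ∀ {w U z u}, LawOn w U → u ∈ U → S.Valid w (U.erase u) z → ∀ c,
    1 / 2 ≤ S.hc w U z u c
  hc_anti : ∀ {w U z z' u}, LawOn w U → u ∈ U → S.Valid w (U.erase u) z →
    (∀ v ∈ U, v ≠ u → z v ≤ z' v) → ∀ c, S.hc w U z' u c ≤ S.hc w U z u c
  hc_window : ∀ {w U T z u}, LawOn w U → T ⊆ U → u ∈ T → S.Valid w (U.erase u) z → ∀ c,
    S.hc w T z u c ≤ S.hc w U z u c
  hc_sum : ∀ {w U z u}, LawOn w U → u ∈ U → S.Valid w (U.erase u) z →
    ∑ c, w u c * S.hc w U z u c = z u - 1 / S.Res w U z u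

/-- Block B, the facts. -/
def FactsStatement : Prop := ∀ (V : Type) [DecidableEq V] (r : ℕ) (S : Sys V r), Facts S

/-- Block B, a visit: after a shift of the point that moves, every resolvent entry is a
supermartingale. -/
def VisitStatement : Prop :=
  ∀ (V : Type) [DecidableEq V] (r : ℕ) (S : Sys V r) (q : V → Fin r → ℝ) (U : Finset V)
    (z : V → ℝ) (u : V) (x : Fin r → ℝ) (ε : ℝ),
    LawOn q U → S.Valid q U z → u ∈ U → (∀ c, |x c| ≤ 1) → ∑ c, q u c * x c = 0 →
    0 ≤ ε → ε ≤ 1 → 2 * ε * z u * S.Res q U z u ≤ 1 →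
    let M := ∑ c, q u c * x c * S.hc q U z u c
    let z' := update z u (z u + 2 * ε ^ 2 * |M| * (|M| * S.Res q U z u + 1))
    let qp := update q u fun c => q u c * (1 + ε * x c)
    let qm := update q u fun c => q u c * (1 - ε * x c)
    S.Valid qp U z' ∧ S.Valid qm U z' ∧
      ∀ v ∈ U, S.Res qp U z' v + S.Res qm U z' v ≤ 2 * S.Res q U z v

/-- Block A, locality of resolvent entries. -/
def LocalityStatement : Prop :=
  ∀ (V : Type) [DecidableEq V] (r : ℕ) (S : Sys V r) (w : V → Fin r → ℝ) (U B : Finset V)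
    (z : V → ℝ) (u : V) (n : ℕ) (D t : ℝ),
    LawOn w U → S.Valid w U z → B ⊆ U → u ∈ B → ball S.nb n u ∩ U ⊆ B →
    (∀ v ∈ U, z v ≤ D) → 0 < t → t ≤ D →
    |S.Res w U (fun v => z v + t) u - S.Res w B (fun v => z v + t) u| ≤
      4 * Real.exp (-(n * Real.sqrt (t / D))) * S.Res w U (fun v => z v + t) u

open scoped ComplexOrder

/-- Hermitian windows with diagonal one half, consistent up to diagonal unitaries. -/
structure Kern (V : Type) [DecidableEq V] where
  /-- The neighbours. -/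
  nb : V → Finset V
  nb_symm : ∀ a b, b ∈ nb a → a ∈ nb b
  /-- The matrix of a window. -/
  mat : (U : Finset V) → Matrix U U ℂ
  posSemidef : ∀ U, (mat U).PosSemidef ∧ (1 - mat U).PosSemidef
  diag : ∀ U i, mat U i i = 1 / 2
  range_one : ∀ (U : Finset V) (i j : U), i ≠ j → (j : V) ∉ nb i → mat U i j = 0
  gauge : ∀ (T U : Finset V) (h : T ⊆ U), ∃ d : T → ℂ, (∀ i, ‖d i‖ = 1) ∧
    ∀ i j : T, mat T i j = star (d i) * mat U ⟨i, h i.2⟩ ⟨j, h j.2⟩ * d j

/-- The expected determinant of a window: each colour has probability one half on each side. -/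
noncomputable def Kern.F (K : Kern V) (w : V → Fin r → ℝ) (U : Finset V) (z : V → ℝ) : ℝ :=
  (Quad.Fdet (Quad.fam (r := r) (K.mat U) fun _ _ => false)
    (fun a s => w a (Quad.colour s) / 2) fun a => (z a : ℂ)).re

/-- Block A, the kernels give systems. -/
def SysStatement : Prop :=
  ∀ (V : Type) [DecidableEq V] (K : Kern V) (r : ℕ), 0 < r →
    ∃ S : Sys V r, S.nb = K.nb ∧ S.F = K.F

/-- The pinching of a window is within `b` of one half on both sides. -/
def PavedBy {ι : Type} [Fintype ι] [DecidableEq ι] {r : ℕ} (b : ℝ) (M : Matrix ι ι ℂ)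
    (κ : ι → Fin r) : Prop :=
  (((1 / 2 + b : ℝ) : ℂ) • (1 : Matrix ι ι ℂ) - Cartan.pinch M κ).PosSemidef ∧
    (((b - 1 / 2 : ℝ) : ℂ) • (1 : Matrix ι ι ℂ) + Cartan.pinch M κ).PosSemidef

/-- Block B, the end: a level above the roots and a heavy colour bound the pinched window. -/
def EndgameStatement : Prop :=
  ∀ (V : Type) [DecidableEq V] (K : Kern V) (r : ℕ) (w : V → Fin r → ℝ) (U : Finset V) (Z : ℝ)
    (κ : V → Fin r), 0 < r → LawOn w U → (∀ T ⊆ U, 0 < K.F w T fun _ => Z) →
    (∀ u ∈ U, 1 / 3 ≤ w u (κ u)) → PavedBy (6 * (Z - 1 / 2)) (K.mat U) fun u => κ u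

end Vale.Agent.P078.Any
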