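import Vale.Agent.P078.Cartan.OperatorDensity

/-!
A star-closed multiplicative space of operators is strongly dense, self-adjoint parts included, in
the operators commuting with its commutant.
-/

namespace Vale.Agent.P078.Any

open scoped InnerProductSpace
open ContinuousLinearMap Cartan

variable {G : Type} [NormedAddCommGroup G] [InnerProductSpace ℂ G] [CompleteSpace G] {κ : Type}
variable (W : Submodule ℂ (G →L[ℂ] G))

/-- An operator commuting with the commutant is a strong limit of the space. -/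
theorem exists_diag_near (h1 : (1 : G →L[ℂ] G) ∈ W) (hmul : ∀ a ∈ W, ∀ b ∈ W, a * b ∈ W)
    (hstar : ∀ a ∈ W, star a ∈ W) {T : G →L[ℂ] G}
    (hT : ∀ S : G →L[ℂ] G, (∀ a ∈ W, Commute S a) → Commute S T)
    (v : lp (fun _ : κ => G) 2) {e : ℝ} (he : 0 < e) :
    ∃ a ∈ W, ‖diagMul a v - diagMul T v‖ < e := by
  classical
  let ev : (G →L[ℂ] G) →ₗ[ℂ] lp (fun _ : κ => G) 2 :=
    { toFun := fun a => diagMul a v
      map_add' := fun a b => by ext i; rfl
      map_smul' := fun c a => by ext i; rfl }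
  obtain ⟨K, hK⟩ : ∃ K : Submodule ℂ (lp (fun _ : κ => G) 2),
      K = (W.map ev).topologicalClosure := ⟨_, rfl⟩
  have : CompleteSpace K := hK ▸ (Submodule.isClosed_topologicalClosure _).completeSpace_coe
  have hinv : ∀ b ∈ W, ∀ f ∈ K, diagMul b f ∈ K := by
    intro b hb f hf
    rw [hK] at hf ⊢
    refine map_mem_closure (diagMul b).continuous hf ?_
    rintro _ ⟨a, ha, rfl⟩
    exact ⟨b * a, hmul b hb a ha, by ext i; rfl⟩
  have hcomm : ∀ b ∈ W, ∀ f, K.starProjection (diagMul b f)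
      = diagMul b (K.starProjection f) := by
    intro b hb f
    refine Submodule.eq_starProjection_of_mem_of_inner_eq_zero
      (hinv b hb _ (Submodule.starProjection_apply_mem _ _)) fun w hw => ?_
    rw [← map_sub, ← inner_conj_symm, diagMul_inner, inner_conj_symm]
    exact Submodule.starProjection_inner_eq_zero f _ (hinv _ (hstar b hb) w hw)
  have hv : K.starProjection v = v := by
    rw [Submodule.starProjection_eq_self_iff, hK]
    exact Submodule.le_topologicalClosure _ ⟨1, h1, by ext i; rfl⟩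
  obtain ⟨S, hS⟩ : ∃ S : κ → κ → (G →L[ℂ] G), S = fun i j =>
      ((lp.evalCLM ℂ (fun _ : κ => G) 2 i).comp K.starProjection).comp
        (lp.singleContinuousLinearMap ℂ (fun _ : κ => G) 2 j) := ⟨_, rfl⟩
  have hSapp : ∀ i j x, S i j x = K.starProjection (lp.single 2 j x) i := fun i j x => by
    rw [hS]; rfl
  have hST : ∀ i j, Commute (S i j) T := fun i j => hT _ fun a ha => by
    show S i j * a = a * S i j
    ext x
    simp only [mul_apply', hSapp]
    have e1 : lp.single (E := fun _ : κ => G) 2 j (a x) = diagMul a (lp.single 2 j x) := by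
      refine lp.ext (funext fun k => ?_)
      rw [diagMul_apply]
      by_cases hk : k = j
      · subst hk; rw [lp.single_apply_self, lp.single_apply_self]
      · rw [lp.single_apply_ne 2 j _ hk, lp.single_apply_ne 2 j _ hk, map_zero]
    rw [e1, hcomm a ha, diagMul_apply]
  have hsum : ∀ f : lp (fun _ : κ => G) 2, ∀ i,
      HasSum (fun j => S i j (f j)) (K.starProjection f i) := by
    intro f i
    have := (lp.hasSum_single (by norm_num : (2 : ENNReal) ≠ ⊤) f).mapL
      ((lp.evalCLM ℂ (fun _ : κ => G) 2 i).comp K.starProjection)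
    simp only [hSapp]
    exact this
  have hP : K.starProjection (diagMul T v) = diagMul T v := by
    refine lp.ext (funext fun i => ?_)
    have h2 := (hsum v i).mapL T
    rw [hv] at h2
    have e2 : (fun j => T (S i j (v j))) = fun j => S i j (diagMul T v j) := by
      funext j
      exact (congrArg (fun X : G →L[ℂ] G => X (v j)) (hST i j).eq).symm
    rw [e2] at h2
    exact (hsum (diagMul T v) i).unique h2
  have hmem : diagMul T v ∈ K := Submodule.starProjection_eq_self_iff.1 hP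
  rw [hK] at hmem
  obtain ⟨_, ⟨a, ha, rfl⟩, hd⟩ := Metric.mem_closure_iff.1 hmem e he
  exact ⟨a, ha, by rw [← dist_eq_norm, dist_comm]; exact hd⟩

/-- A self-adjoint operator commuting with the commutant is a strong limit of self-adjoint
elements of the space. -/
theorem exists_sa_diag_near [Finite κ] (h1 : (1 : G →L[ℂ] G) ∈ W)
    (hmul : ∀ a ∈ W, ∀ b ∈ W, a * b ∈ W)
    (hstar : ∀ a ∈ W, star a ∈ W) {T : G →L[ℂ] G} (hTs : IsSelfAdjoint T)
    (hT : ∀ S : G →L[ℂ] G, (∀ a ∈ W, Commute S a) → Commute S T)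
    (v : lp (fun _ : κ => G) 2) {e : ℝ} (he : 0 < e) :
    ∃ a ∈ W, IsSelfAdjoint a ∧ ‖diagMul a v - diagMul T v‖ < e := by
  classical
  have := Fintype.ofFinite κ
  obtain ⟨C, hC⟩ : ∃ C : Set (lp (fun _ : κ => G) 2),
      C = closure {f | ∃ a ∈ W, IsSelfAdjoint a ∧ f = diagMul a v} := ⟨_, rfl⟩
  by_cases hmem : diagMul T v ∈ C
  · rw [hC] at hmem
    obtain ⟨_, ⟨a, ha, has, rfl⟩, hd⟩ := Metric.mem_closure_iff.1 hmem e he
    exact ⟨a, ha, has, by rwa [← dist_eq_norm, dist_comm]⟩
  exfalso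
  have hconv : Convex ℝ C := by
    rw [hC]
    refine Convex.closure ?_
    rintro _ ⟨a, ha, has, rfl⟩ _ ⟨b, hb, hbs, rfl⟩ s t _ _ _
    refine ⟨(s : ℂ) • a + (t : ℂ) • b, add_mem (W.smul_mem _ ha) (W.smul_mem _ hb), ?_, ?_⟩
    · rw [IsSelfAdjoint, star_add, star_smul, star_smul, has.star_eq, hbs.star_eq,
        RCLike.star_def, Complex.conj_ofReal, Complex.conj_ofReal]
    · ext i
      simp [diagMul_apply]
      rfl
  obtain ⟨f, u, hlt, hu⟩ := RCLike.geometric_hahn_banach_closed_point (𝕜 := ℂ) hconv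
    (hC ▸ isClosed_closure) hmem
  obtain ⟨w, hw⟩ : ∃ w, w = (InnerProductSpace.toDual ℂ (lp (fun _ : κ => G) 2)).symm f :=
    ⟨_, rfl⟩
  have hwf : ∀ g, f g = ⟪w, g⟫_ℂ := fun g => by
    rw [hw, InnerProductSpace.toDual_symm_apply]
  simp only [hwf] at hlt hu
  have hzero : ∀ a ∈ W, IsSelfAdjoint a → RCLike.re ⟪w, diagMul a v⟫_ℂ = 0 := by
    intro a ha has
    have key : ∀ t : ℝ, t * RCLike.re ⟪w, diagMul a v⟫_ℂ < u := fun t => by
      have hm : diagMul ((t : ℂ) • a) v ∈ C := hC ▸ subset_closure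
        ⟨_, W.smul_mem _ ha, by
          rw [IsSelfAdjoint, star_smul, has.star_eq, RCLike.star_def, Complex.conj_ofReal], rfl⟩
      have e1 : diagMul ((t : ℂ) • a) v = (t : ℂ) • diagMul a v := by
        ext i; simp [diagMul_apply]; rfl
      have := hlt _ hm
      rw [e1, inner_smul_right] at this
      simpa using this
    by_contra hne
    have := key ((u + 1) / RCLike.re ⟪w, diagMul a v⟫_ℂ)
    rw [div_mul_cancel₀ _ hne] at this
    linarith
  have hu0 : 0 < u := by
    have hm : diagMul (0 : G →L[ℂ] G) v ∈ C :=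
      hC ▸ subset_closure ⟨0, W.zero_mem, IsSelfAdjoint.zero _, rfl⟩
    have := hlt _ hm
    rwa [hzero 0 W.zero_mem (IsSelfAdjoint.zero _)] at this
  have hsmall : ∀ γ : ℝ, 0 < γ →
      2 * RCLike.re ⟪w, diagMul T v⟫_ℂ ≤ γ * (‖v‖ + ‖w‖) := by
    intro γ hγ
    let F : lp (fun _ : κ ⊕ κ => G) 2 := ⟨Sum.elim v w, memℓp_gen Summable.of_finite⟩
    obtain ⟨a, ha, hd⟩ := exists_diag_near W h1 hmul hstar hT F hγ
    have hcoord : ∀ X : G →L[ℂ] G, ‖diagMul X v‖ ^ 2 + ‖diagMul X w‖ ^ 2 = ‖diagMul X F‖ ^ 2 := by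
      intro X
      have hn : ∀ {κ' : Type} [Fintype κ'] (g : lp (fun _ : κ' => G) 2),
          ‖g‖ ^ 2 = ∑ i, ‖g i‖ ^ 2 := fun g => by
        simpa [tsum_fintype] using lp.norm_rpow_eq_tsum (p := 2) (by norm_num) g
      rw [hn, hn, hn, Fintype.sum_sum_type]
      rfl
    have hsub : ∀ {κ' : Type} (g : lp (fun _ : κ' => G) 2),
        diagMul a g - diagMul T g = diagMul (a - T) g := fun g => by ext i; rfl
    rw [hsub] at hd
    have h2 := hcoord (a - T)
    have hv' : ‖diagMul (a - T) v‖ ≤ γ := by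
      nlinarith [sq_nonneg ‖diagMul (a - T) w‖, norm_nonneg (diagMul (a - T) v),
        norm_nonneg (diagMul (a - T) F)]
    have hw' : ‖diagMul (a - T) w‖ ≤ γ := by
      nlinarith [sq_nonneg ‖diagMul (a - T) v‖, norm_nonneg (diagMul (a - T) w),
        norm_nonneg (diagMul (a - T) F)]
    have hz := hzero _ (W.smul_mem (1 / 2 : ℂ) (add_mem ha (hstar a ha))) (by
      rw [IsSelfAdjoint, star_smul, star_add, star_star, add_comm (star a) a]
      norm_num)
    have e1 : diagMul ((1 / 2 : ℂ) • (a + star a)) v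
        = (1 / 2 : ℂ) • (diagMul a v + diagMul (star a) v) := by
      ext i; simp [diagMul_apply]; rfl
    rw [e1, inner_smul_right, inner_add_right, diagMul_inner (star a), star_star] at hz
    have e2 : ⟪diagMul T w, v⟫_ℂ = ⟪w, diagMul T v⟫_ℂ := by
      rw [diagMul_inner, hTs.star_eq]
    have e3 : RCLike.re ⟪w, diagMul (a - T) v⟫_ℂ + RCLike.re ⟪diagMul (a - T) w, v⟫_ℂ
        = - (2 * RCLike.re ⟪w, diagMul T v⟫_ℂ) := by
      rw [← hsub, ← hsub, inner_sub_right, inner_sub_left, e2]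
      simp only [map_sub]
      norm_num [Complex.mul_re] at hz
      simp only [RCLike.re_to_complex] at hz ⊢
      linarith
    have b1 := (abs_le.1 ((RCLike.abs_re_le_norm _).trans
      (norm_inner_le_norm (𝕜 := ℂ) w (diagMul (a - T) v)))).1
    have b2 := (abs_le.1 ((RCLike.abs_re_le_norm _).trans
      (norm_inner_le_norm (𝕜 := ℂ) (diagMul (a - T) w) v))).1
    nlinarith [mul_le_mul_of_nonneg_left hv' (norm_nonneg w),
      mul_le_mul_of_nonneg_right hw' (norm_nonneg v)]
  have hpos : 0 < RCLike.re ⟪w, diagMul T v⟫_ℂ := hu0.trans hu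
  have := hsmall (RCLike.re ⟪w, diagMul T v⟫_ℂ / (‖v‖ + ‖w‖ + 1)) (by positivity)
  have h3 : RCLike.re ⟪w, diagMul T v⟫_ℂ / (‖v‖ + ‖w‖ + 1) * (‖v‖ + ‖w‖)
      ≤ RCLike.re ⟪w, diagMul T v⟫_ℂ := by
    rw [div_mul_eq_mul_div, div_le_iff₀ (by positivity)]
    nlinarith
  linarith

end Vale.Agent.P078.Any
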