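import Mathlib

/-!
Finite random programs: expectations by recursion, and moments of increasing processes by the
Garsia-Neveu inequality.
-/

namespace Vale.Agent.P078.Any

open Finset

/-- A family of random operations with three outcomes. -/
structure Prog (O St : Type*) where
  /-- The probability of an outcome. -/
  p : O → St → Fin 3 → ℝ
  /-- The state after an outcome. -/
  nx : O → St → Fin 3 → St
  p_nonneg : ∀ o s i, 0 ≤ p o s i
  p_sum : ∀ o s, ∑ i, p o s i = 1

namespace Prog

variable {O St : Type*} (C : Prog O St)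

/-- The expectation of a function of the final state. -/
def E : List O → (St → ℝ) → St → ℝ
  | [], f, s => f s
  | o :: l, f, s => ∑ i, C.p o s i * E l f (C.nx o s i)

@[simp] theorem E_nil (f : St → ℝ) (s : St) : C.E [] f s = f s := rfl

theorem E_cons (o : O) (l : List O) (f : St → ℝ) (s : St) :
    C.E (o :: l) f s = ∑ i, C.p o s i * C.E l f (C.nx o s i) := rfl

theorem E_append (l l' : List O) (f : St → ℝ) (s : St) :
    C.E (l ++ l') f s = C.E l (C.E l' f) s := by
  induction l generalizing s with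
  | nil => rfl
  | cons o l ih => simp [E_cons, ih]

theorem E_const (l : List O) (c : ℝ) (s : St) : C.E l (fun _ => c) s = c := by
  induction l generalizing s with
  | nil => rfl
  | cons o l ih => simp [E_cons, ih, ← Finset.sum_mul, C.p_sum]

theorem E_add (l : List O) (f f' : St → ℝ) (s : St) :
    C.E l (fun x => f x + f' x) s = C.E l f s + C.E l f' s := by
  induction l generalizing s with
  | nil => rfl
  | cons o l ih => simp [E_cons, ih, mul_add, Finset.sum_add_distrib]

theorem E_smul (l : List O) (c : ℝ) (f : St → ℝ) (s : St) :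
    C.E l (fun x => c * f x) s = c * C.E l f s := by
  induction l generalizing s with
  | nil => rfl
  | cons o l ih =>
    simp only [E_cons, ih, Finset.mul_sum]
    exact Finset.sum_congr rfl fun i _ => by ring

theorem E_sum {ι : Type*} (J : Finset ι) (l : List O) (f : ι → St → ℝ) (s : St) :
    C.E l (fun x => ∑ a ∈ J, f a x) s = ∑ a ∈ J, C.E l (f a) s := by
  classical
  induction J using Finset.induction with
  | empty => simpa using C.E_const l 0 s
  | insert a J ha ih => simp [Finset.sum_insert ha, E_add, ih]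

/-- An invariant of programs and states. -/
def Stable (Inv : List O → St → Prop) : Prop :=
  ∀ o l s i, Inv (o :: l) s → 0 < C.p o s i → Inv l (C.nx o s i)

variable {C} {Inv : List O → St → Prop}

theorem sum_le_of_pos (o : O) (s : St) {a b : Fin 3 → ℝ}
    (h : ∀ i, 0 < C.p o s i → a i ≤ b i) : ∑ i, C.p o s i * a i ≤ ∑ i, C.p o s i * b i := by
  refine Finset.sum_le_sum fun i _ => ?_
  rcases (C.p_nonneg o s i).eq_or_lt with h0 | h0
  · simp [← h0]
  · exact mul_le_mul_of_nonneg_left (h i h0) h0.le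

theorem E_le_E (hI : C.Stable Inv) {f f' : St → ℝ} (h : ∀ s, Inv [] s → f s ≤ f' s)
    {l : List O} {s : St} (hs : Inv l s) : C.E l f s ≤ C.E l f' s := by
  induction l generalizing s with
  | nil => exact h s hs
  | cons o l ih => exact sum_le_of_pos o s fun i hi => ih (hI o l s i hs hi)

theorem E_nonneg (hI : C.Stable Inv) {f : St → ℝ} (h : ∀ s, Inv [] s → 0 ≤ f s)
    {l : List O} {s : St} (hs : Inv l s) : 0 ≤ C.E l f s := by
  simpa [E_const] using E_le_E hI (f := fun _ => (0 : ℝ)) h hs

/-- A supermartingale. -/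
theorem E_le_of_super (hI : C.Stable Inv) {f : St → ℝ}
    (h : ∀ o l s, Inv (o :: l) s → ∑ i, C.p o s i * f (C.nx o s i) ≤ f s)
    {l : List O} {s : St} (hs : Inv l s) : C.E l f s ≤ f s := by
  induction l generalizing s with
  | nil => exact le_rfl
  | cons o l ih =>
    exact (sum_le_of_pos o s fun i hi => ih (hI o l s i hs hi)).trans (h o l s hs)

/-- An increasing function gets larger in expectation. -/
theorem le_E_of_mono (hI : C.Stable Inv) {f : St → ℝ}
    (h : ∀ o l s i, Inv (o :: l) s → 0 < C.p o s i → f s ≤ f (C.nx o s i))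
    {l : List O} {s : St} (hs : Inv l s) : f s ≤ C.E l f s := by
  induction l generalizing s with
  | nil => exact le_rfl
  | cons o l ih =>
    calc f s = ∑ i, C.p o s i * f s := by rw [← Finset.sum_mul, C.p_sum, one_mul]
      _ ≤ ∑ i, C.p o s i * C.E l f (C.nx o s i) :=
        sum_le_of_pos o s fun i hi => (h o l s i hs hi).trans (ih (hI o l s i hs hi))

theorem mul_pow_le_pow_add {a b : ℝ} (ha : 0 ≤ a) (hb : 0 ≤ b) :
    ∀ n : ℕ, (n + 1 : ℝ) * (a * b ^ n) ≤ a ^ (n + 1) + n * b ^ (n + 1)
  | 0 => by simp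
  | n + 1 => by
    have ih := mul_le_mul_of_nonneg_right (mul_pow_le_pow_add ha hb n) hb
    have key : 0 ≤ (a ^ (n + 1) - b ^ (n + 1)) * (a - b) := by
      rcases le_total a b with h | h
      · exact mul_nonneg_of_nonpos_of_nonpos
          (sub_nonpos.2 (pow_le_pow_left₀ ha h _)) (sub_nonpos.2 h)
      · exact mul_nonneg (sub_nonneg.2 (pow_le_pow_left₀ hb h _)) (sub_nonneg.2 h)
    push_cast
    rw [pow_succ' a (n + 1), pow_succ' b (n + 1), pow_succ b n] at *
    nlinarith [ih, key]

theorem pow_sub_pow_le {a b : ℝ} (ha : 0 ≤ a) (hb : 0 ≤ b) (n : ℕ) :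
    b ^ (n + 1) - a ^ (n + 1) ≤ (n + 1 : ℝ) * (b ^ n * (b - a)) := by
  have := mul_pow_le_pow_add ha hb n
  rw [pow_succ b n] at this ⊢
  nlinarith [this]

/-- The Garsia-Neveu inequality, in the form proved by induction on the program. -/
theorem garsia_neveu (hI : C.Stable Inv) {X Z : St → ℝ} (hX0 : ∀ l s, Inv l s → 0 ≤ X s)
    (hmono : ∀ o l s i, Inv (o :: l) s → 0 < C.p o s i → X s ≤ X (C.nx o s i))
    (hhyp : ∀ o l s i, Inv (o :: l) s → 0 < C.p o s i →
      C.E l X (C.nx o s i) - X s ≤ C.E l Z (C.nx o s i))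
    (n : ℕ) {l : List O} {s : St} (hs : Inv l s) :
    C.E l (fun x => X x ^ (n + 1)) s - X s ^ (n + 1) ≤
      (n + 1 : ℝ) * (C.E l (fun x => Z x * X x ^ n) s - X s ^ n * C.E l Z s) +
        (n + 1 : ℝ) * X s ^ n * (C.E l X s - X s) := by
  induction l generalizing s with
  | nil => simp [mul_comm]
  | cons o l ih =>
    set c : ℝ := (n + 1 : ℝ)
    have key : ∀ i, 0 < C.p o s i →
        C.E l (fun x => X x ^ (n + 1)) (C.nx o s i) - X s ^ (n + 1) ≤
          c * (C.E l (fun x => Z x * X x ^ n) (C.nx o s i) - X s ^ n * C.E l Z (C.nx o s i)) +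
            c * X s ^ n * (C.E l X (C.nx o s i) - X s) := by
      intro i hi
      have h0 := hX0 _ _ hs
      have hs' := hI o l s i hs hi
      have h1 := ih hs'
      have h2 := pow_sub_pow_le h0 (hX0 _ _ hs') n
      have h3 := hhyp o l s i hs hi
      have h4 := pow_le_pow_left₀ h0 (hmono o l s i hs hi) n
      have hc : 0 ≤ c := by positivity
      nlinarith [mul_le_mul_of_nonneg_left h3 (mul_nonneg hc (sub_nonneg.2 h4))]
    have hsum := sum_le_of_pos o s key
    have hone := C.p_sum o s
    simp only [E_cons]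
    simp only [mul_sub, mul_add, Finset.sum_sub_distrib, Finset.sum_add_distrib,
      mul_left_comm (C.p o s _), ← Finset.mul_sum, ← Finset.sum_mul, hone, one_mul] at hsum ⊢
    linarith

/-- Moments of a process whose increments are bounded by an increasing weight times increments
that have a bounded potential. -/
theorem moment_le (hI : C.Stable Inv) {X K : St → ℝ} {dA : O → St → Fin 3 → ℝ}
    {Pot : List O → St → ℝ} {B : ℝ}
    (hX0 : ∀ l s, Inv l s → 0 ≤ X s) (hK0 : ∀ l s, Inv l s → 0 ≤ K s)
    (hmono : ∀ o l s i, Inv (o :: l) s → 0 < C.p o s i →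
      X s ≤ X (C.nx o s i) ∧ K s ≤ K (C.nx o s i))
    (hinc : ∀ o l s i, Inv (o :: l) s → 0 < C.p o s i →
      X (C.nx o s i) - X s ≤ K s * dA o s i ∧ dA o s i ≤ B)
    (hpot : ∀ l s, Inv l s → 0 ≤ Pot l s ∧ Pot l s ≤ B)
    (hstep : ∀ o l s, Inv (o :: l) s →
      ∑ i, C.p o s i * (dA o s i + Pot l (C.nx o s i)) ≤ Pot (o :: l) s)
    (n : ℕ) {l : List O} {s : St} (hs : Inv l s) (hX : X s = 0) :
    C.E l (fun x => X x ^ (n + 1)) s ≤
      (2 * (n + 1) * B) ^ (n + 1) * C.E l (fun x => K x ^ (n + 1)) s := by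
  have hKE : ∀ {l s}, Inv l s → K s ≤ C.E l K s := fun h =>
    le_E_of_mono hI (fun o l s i a b => (hmono o l s i a b).2) h
  have hB : 0 ≤ B := (hpot l s hs).1.trans (hpot l s hs).2
  have claim : ∀ l s, Inv l s → C.E l X s - X s ≤ B * C.E l K s - (B - Pot l s) * K s := by
    intro l
    induction l with
    | nil =>
      intro s h
      simp only [E_nil, sub_self]
      nlinarith [mul_nonneg (hpot [] s h).1 (hK0 [] s h)]
    | cons o l ih =>
      intro s h
      have key : ∀ i, 0 < C.p o s i → C.E l X (C.nx o s i) - X s ≤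
          B * C.E l K (C.nx o s i) - B * K s + K s * (dA o s i + Pot l (C.nx o s i)) := by
        intro i hi
        have h' := hI o l s i h hi
        have h1 := ih _ h'
        have h2 := (hinc o l s i h hi).1
        have h3 := mul_le_mul_of_nonneg_left (hmono o l s i h hi).2
          (sub_nonneg.2 (hpot _ _ h').2)
        linarith
      have hsum := sum_le_of_pos o s key
      have hone := C.p_sum o s
      have hst := mul_le_mul_of_nonneg_left (hstep o l s h) (hK0 _ _ h)
      simp only [E_cons]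
      simp only [mul_sub, mul_add, Finset.sum_sub_distrib, Finset.sum_add_distrib,
        mul_left_comm (C.p o s _), ← Finset.mul_sum, ← Finset.sum_mul, hone,
        one_mul] at hsum hst ⊢
      linarith
  have hyp : ∀ o l s i, Inv (o :: l) s → 0 < C.p o s i →
      C.E l X (C.nx o s i) - X s ≤ C.E l (fun x => 2 * B * K x) (C.nx o s i) := by
    intro o l s i h hi
    have h' := hI o l s i h hi
    have h1 := claim _ _ h'
    obtain ⟨h2, h3⟩ := hinc o l s i h hi
    have h4 := mul_le_mul_of_nonneg_left h3 (hK0 _ _ h)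
    have h5 := mul_nonneg (sub_nonneg.2 (hpot _ _ h').2) (hK0 _ _ h')
    have h6 := mul_le_mul_of_nonneg_left ((hmono o l s i h hi).2.trans (hKE h')) hB
    rw [E_smul]
    linarith
  have gn := garsia_neveu hI hX0 (fun o l s i a b => (hmono o l s i a b).1) hyp n hs
  have base : C.E l (fun x => X x ^ (n + 1)) s ≤
      (n + 1 : ℝ) * C.E l (fun x => 2 * B * K x * X x ^ n) s := by
    rcases n.eq_zero_or_pos with rfl | hn
    · have := claim l s hs
      rw [hX] at this
      have h5 := mul_nonneg (sub_nonneg.2 (hpot _ _ hs).2) (hK0 _ _ hs)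
      have h7 := mul_nonneg hB (E_nonneg hI (fun s h => hK0 [] s h) hs)
      simp only [pow_zero, mul_one, zero_add, pow_one, Nat.cast_zero, E_smul]
      linarith
    · simpa [hX, zero_pow (Nat.pos_iff_ne_zero.1 hn)] using gn
  have young := mul_le_mul_of_nonneg_left
    (E_le_E hI (f := fun x => (n + 1 : ℝ) * (((n + 1 : ℝ) * (2 * B * K x)) * X x ^ n))
      (f' := fun x => ((n + 1 : ℝ) * (2 * B * K x)) ^ (n + 1) + n * X x ^ (n + 1))
      (fun x hx => mul_pow_le_pow_add (by have := hK0 _ _ hx; positivity) (hX0 _ _ hx) n) hs)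
    (zero_le_one' ℝ)
  rw [E_add, E_smul, E_smul] at young
  have e1 : C.E l (fun x => ((n + 1 : ℝ) * (2 * B * K x)) * X x ^ n) s =
      (n + 1 : ℝ) * C.E l (fun x => 2 * B * K x * X x ^ n) s := by
    rw [← E_smul]; congr 1; funext x; ring
  have e2 : C.E l (fun x => ((n + 1 : ℝ) * (2 * B * K x)) ^ (n + 1)) s =
      (2 * (n + 1) * B) ^ (n + 1) * C.E l (fun x => K x ^ (n + 1)) s := by
    rw [← E_smul]; congr 1; funext x; rw [← mul_pow]; ring
  rw [e1, e2] at young
  have hn : (0 : ℝ) ≤ n + 1 := by positivity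
  nlinarith [mul_le_mul_of_nonneg_left base hn]

/-- A sum has small moments if its terms do. -/
theorem moment_sum_le {ι : Type*} (hI : C.Stable Inv) (J : Finset ι) {f : ι → St → ℝ}
    {c : ι → ℝ} (hc : ∀ a ∈ J, 0 < c a) (hf : ∀ a ∈ J, ∀ s, Inv [] s → 0 ≤ f a s) (n : ℕ)
    {l : List O} {s : St} (hs : Inv l s)
    (h : ∀ a ∈ J, C.E l (fun x => f a x ^ (n + 1)) s ≤ c a ^ (n + 1)) :
    C.E l (fun x => (∑ a ∈ J, f a x) ^ (n + 1)) s ≤ (∑ a ∈ J, c a) ^ (n + 1) := by
  rcases J.eq_empty_or_nonempty with rfl | hJ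
  · simp [E_const]
  set T := ∑ a ∈ J, c a
  have hT : 0 < T := Finset.sum_pos hc hJ
  have key : ∀ x, Inv [] x → (∑ a ∈ J, f a x) ^ (n + 1) ≤
      ∑ a ∈ J, T ^ (n + 1) * (c a / T) / c a ^ (n + 1) * f a x ^ (n + 1) := by
    intro x hx
    have hj := Real.pow_arith_mean_le_arith_mean_pow J (fun a => c a / T)
      (fun a => f a x / c a) (fun a ha => div_nonneg (hc a ha).le hT.le)
      (by rw [← Finset.sum_div, div_self hT.ne'])
      (fun a ha => div_nonneg (hf a ha x hx) (hc a ha).le) (n + 1)
    have e : ∑ a ∈ J, c a / T * (f a x / c a) = (∑ a ∈ J, f a x) / T := by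
      rw [Finset.sum_div]
      refine Finset.sum_congr rfl fun a ha => ?_
      have := (hc a ha).ne'
      field_simp
    rw [e, div_pow, div_le_iff₀ (pow_pos hT _)] at hj
    refine hj.trans (le_of_eq ?_)
    rw [Finset.sum_mul]
    exact Finset.sum_congr rfl fun a _ => by rw [div_pow]; ring
  refine (E_le_E hI key hs).trans ?_
  rw [E_sum]
  calc ∑ a ∈ J, C.E l (fun x => T ^ (n + 1) * (c a / T) / c a ^ (n + 1) * f a x ^ (n + 1)) s
      ≤ ∑ a ∈ J, T ^ (n + 1) * (c a / T) := by
        refine Finset.sum_le_sum fun a ha => ?_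
        rw [E_smul]
        refine (mul_le_mul_of_nonneg_left (h a ha) ?_).trans (le_of_eq ?_)
        · have := hc a ha; positivity
        · exact div_mul_cancel₀ _ (pow_ne_zero _ (hc a ha).ne')
    _ = T ^ (n + 1) := by rw [← Finset.mul_sum, ← Finset.sum_div, div_self hT.ne', mul_one]

end Prog

end Vale.Agent.P078.Any
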