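import Vale.Agent.P078.Any.Point

/-!
The reciprocal ratio of a vertex and the conditional values of its states.
-/

namespace Vale.Agent.P078.Any

open Matrix Function
open Vale.Agent.P078.Cartan (ofR dirac mask isLaw_dirac_update)
open Vale.Agent.P078.Quad (Fdet maskF maskEF lead rest IsLaw decF decF_apply isHermitian_decF)
open scoped ComplexOrder

set_option linter.unusedSectionVars false

variable {ι : Type*} [Fintype ι] [DecidableEq ι] {R : ℕ}

/-- The ratio of the window without `u` to the window. -/
noncomputable def res (G : Fin R → Matrix ι ι ℂ) (w : ι → Fin R → ℝ) (z : ι → ℝ)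
    (U : Finset ι) (u : ι) : ℝ :=
  win G w z (U.erase u) / win G w z U

/-- The value of the state `c` at `u`: the window with `u` in that state vanishes at
`z u = childH`. -/
noncomputable def childH (G : Fin R → Matrix ι ι ℂ) (w : ι → Fin R → ℝ) (z : ι → ℝ)
    (U : Finset ι) (u : ι) (c : Fin R) : ℝ :=
  z u - win G (update w u (dirac c)) z U / win G w z (U.erase u)

variable {G : Fin R → Matrix ι ι ℂ} {w : ι → Fin R → ℝ} {z : ι → ℝ} {U : Finset ι} {u v : ι}

theorem Valid.win_pos (h : Valid G w z U) : 0 < win G w z U := h U subset_rfl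

theorem Valid.erase_pos (h : Valid G w z U) (u : ι) : 0 < win G w z (U.erase u) :=
  h _ (Finset.erase_subset _ _)

theorem win_res_pos (h : Valid G w z U) (u : ι) : 0 < res G w z U u :=
  div_pos (h.erase_pos u) h.win_pos

theorem win_erase_law (hw : IsLaw w) (c : Fin R) :
    win G (update w u (dirac c)) z (U.erase u) = win G w z (U.erase u) :=
  win_dirac_of_notMem hw (Finset.notMem_erase u U) c

theorem win_child (h : Valid G w z U) (u : ι) (c : Fin R) :
    win G (update w u (dirac c)) z U =
      win G w z (U.erase u) * (z u - childH G w z U u c) := by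
  unfold childH
  field_simp [(h.erase_pos u).ne']
  ring

/-- Raising the own coordinate. -/
theorem res_update_self (h : Valid G w z U) (hu : u ∈ U) (k : ℝ) :
    res G w (update z u (z u + k)) U u = res G w z U u / (1 + k * res G w z U u) := by
  unfold res
  rw [win_update _ _ _ hu, win_update_of_notMem (Finset.notMem_erase u U)]
  field_simp [h.win_pos.ne']
  ring

theorem res_erase_le (hG : ∀ c, (G c).IsHermitian) (hw : IsLaw w) (h : Valid G w z U)
    (hu : u ∈ U) (hv : v ∈ U) (huv : u ≠ v) :
    res G w z (U.erase v) u ≤ res G w z U u := by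
  unfold res
  rw [div_le_div_iff₀ (h.erase_pos v) h.win_pos, Finset.erase_right_comm]
  linarith [win_rayleigh (z := z) hG hw hu hv huv]

/-- The ratio decreases when vertices are deleted. -/
theorem res_subset (hG : ∀ c, (G c).IsHermitian) (hw : IsLaw w) (h : Valid G w z U)
    {V : Finset ι} (hV : V ⊆ U) (hu : u ∈ V) : res G w z V u ≤ res G w z U u := by
  have key : ∀ S : Finset ι, u ∉ S → res G w z (U \ S) u ≤ res G w z U u := by
    intro S
    induction S using Finset.induction with
    | empty => simp
    | @insert v S hv ih =>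
      intro huS
      rw [Finset.mem_insert, not_or] at huS
      refine le_trans ?_ (ih huS.2)
      rw [Finset.sdiff_insert]
      by_cases hvU : v ∈ U \ S
      · exact res_erase_le hG hw (h.mono Finset.sdiff_subset)
          (Finset.mem_sdiff.2 ⟨hV hu, huS.2⟩) hvU huS.1
      · rw [Finset.erase_eq_of_notMem hvU]
  have := key (U \ V) fun hh => (Finset.mem_sdiff.1 hh).2 hu
  rwa [Finset.sdiff_sdiff_eq_self hV] at this

theorem res_update_le (hG : ∀ c, (G c).IsHermitian) (hw : IsLaw w) (h : Valid G w z U)
    (hu : u ∈ U) {t : ℝ} (ht : z v ≤ t) : res G w (update z v t) U u ≤ res G w z U u := by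
  rcases eq_or_ne u v with rfl | huv
  · have e : t = z u + (t - z u) := by ring
    rw [e, res_update_self h hu]
    exact div_le_self (win_res_pos h u).le
      (le_add_of_nonneg_right (mul_nonneg (sub_nonneg.2 ht) (win_res_pos h u).le))
  by_cases hv : v ∈ U
  · unfold res
    have h' := (h.update_le ht).win_pos
    rw [div_le_div_iff₀ h' h.win_pos, win_update _ _ _ hv,
      win_update _ _ _ (Finset.mem_erase.2 ⟨huv.symm, hv⟩)]
    nlinarith [mul_le_mul_of_nonneg_left (win_rayleigh (z := z) hG hw hu hv huv)
      (sub_nonneg.2 ht)]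
  · rw [res, res, win_update_of_notMem hv,
      win_update_of_notMem fun hh => hv (Finset.mem_of_mem_erase hh)]

/-- The ratio decreases in every coordinate. -/
theorem res_le (hG : ∀ c, (G c).IsHermitian) (hw : IsLaw w) (h : Valid G w z U) (hu : u ∈ U)
    {z' : ι → ℝ} (hz : ∀ i ∈ U, z i ≤ z' i) : res G w z' U u ≤ res G w z U u := by
  have key : ∀ S ⊆ U, res G w (S.piecewise z' z) U u ≤ res G w z U u := by
    intro S
    induction S using Finset.induction with
    | empty => intro _; simp
    | @insert i S hi ih =>
      intro hS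
      rw [Finset.insert_subset_iff] at hS
      rw [Finset.piecewise_insert]
      refine le_trans (res_update_le hG hw (h.le fun j hj => ?_) hu ?_) (ih hS.2)
      · by_cases hjS : j ∈ S <;> simp [hjS, hz j hj]
      · simpa [hi] using hz i hS.1
  have := key U subset_rfl
  unfold res at this ⊢
  rwa [win_congr (U := U) (z := U.piecewise z' z) (z' := z') fun i hi => by simp [hi],
    win_congr (U := U.erase u) (z := U.piecewise z' z) (z' := z')
      fun i hi => by simp [Finset.mem_of_mem_erase hi]] at this

/-- The conditional values do not depend on the own coordinate. -/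
theorem childH_update_self (hw : IsLaw w) (h : Valid G w z U) (hu : u ∈ U) (t : ℝ) (c : Fin R) :
    childH G w (update z u t) U u c = childH G w z U u c := by
  unfold childH
  rw [win_update _ _ _ hu, win_update_of_notMem (Finset.notMem_erase u U), win_erase_law hw,
    update_self]
  field_simp [(h.erase_pos u).ne']
  ring

theorem childH_erase_le (hG : ∀ c, (G c).IsHermitian) (hw : IsLaw w) (h : Valid G w z U)
    (hu : u ∈ U) (hv : v ∈ U) (huv : u ≠ v) (c : Fin R) :
    childH G w z (U.erase v) u c ≤ childH G w z U u c := by
  have key := win_rayleigh (z := z) hG (isLaw_dirac_update hw u c) hu hv huv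
  rw [win_erase_law hw, Finset.erase_right_comm, win_erase_law hw] at key
  unfold childH
  rw [sub_le_sub_iff_left, div_le_div_iff₀ (h.erase_pos u) ((h.mono
    (Finset.erase_subset v U)).erase_pos u)]
  linarith

/-- The conditional values grow with the window. -/
theorem childH_subset (hG : ∀ c, (G c).IsHermitian) (hw : IsLaw w) (h : Valid G w z U)
    {V : Finset ι} (hV : V ⊆ U) (hu : u ∈ V) (c : Fin R) :
    childH G w z V u c ≤ childH G w z U u c := by
  have key : ∀ S : Finset ι, u ∉ S → childH G w z (U \ S) u c ≤ childH G w z U u c := by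
    intro S
    induction S using Finset.induction with
    | empty => simp
    | @insert v S hv ih =>
      intro huS
      rw [Finset.mem_insert, not_or] at huS
      refine le_trans ?_ (ih huS.2)
      rw [Finset.sdiff_insert]
      by_cases hvU : v ∈ U \ S
      · exact childH_erase_le hG hw (h.mono Finset.sdiff_subset)
          (Finset.mem_sdiff.2 ⟨hV hu, huS.2⟩) hvU huS.1 c
      · rw [Finset.erase_eq_of_notMem hvU]
  have := key (U \ V) fun hh => (Finset.mem_sdiff.1 hh).2 hu
  rwa [Finset.sdiff_sdiff_eq_self hV] at this

theorem childH_update_le (hG : ∀ c, (G c).IsHermitian) (hw : IsLaw w) (h : Valid G w z U)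
    (hu : u ∈ U) {t : ℝ} (ht : z v ≤ t) (c : Fin R) :
    childH G w (update z v t) U u c ≤ childH G w z U u c := by
  rcases eq_or_ne u v with rfl | huv
  · exact (childH_update_self hw h hu t c).le
  by_cases hv : v ∈ U
  · have h' := (h.update_le ht).erase_pos u
    have hr := win_rayleigh (z := z) hG (isLaw_dirac_update hw u c) hu hv huv
    rw [win_erase_law hw, Finset.erase_right_comm, win_erase_law hw,
      Finset.erase_right_comm] at hr
    unfold childH
    rw [update_of_ne huv, sub_le_sub_iff_left, div_le_div_iff₀ (h.erase_pos u) h',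
      win_update _ _ _ hv, win_update _ _ _ (Finset.mem_erase.2 ⟨huv.symm, hv⟩)]
    nlinarith [mul_le_mul_of_nonneg_left hr (sub_nonneg.2 ht)]
  · rw [childH, childH, win_update_of_notMem hv,
      win_update_of_notMem fun hh => hv (Finset.mem_of_mem_erase hh), update_of_ne huv]

/-- The conditional values decrease in every coordinate. -/
theorem childH_le (hG : ∀ c, (G c).IsHermitian) (hw : IsLaw w) (h : Valid G w z U) (hu : u ∈ U)
    {z' : ι → ℝ} (hz : ∀ i ∈ U, z i ≤ z' i) (c : Fin R) :
    childH G w z' U u c ≤ childH G w z U u c := by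
  have key : ∀ S ⊆ U, childH G w (S.piecewise z' z) U u c ≤ childH G w z U u c := by
    intro S
    induction S using Finset.induction with
    | empty => intro _; simp
    | @insert i S hi ih =>
      intro hS
      rw [Finset.insert_subset_iff] at hS
      rw [Finset.piecewise_insert]
      refine le_trans (childH_update_le hG hw (h.le fun j hj => ?_) hu ?_ c) (ih hS.2)
      · by_cases hjS : j ∈ S <;> simp [hjS, hz j hj]
      · simpa [hi] using hz i hS.1
  have := key U subset_rfl
  unfold childH at this ⊢
  rwa [win_congr (U := U) (z := U.piecewise z' z) (z' := z') fun i hi => by simp [hi],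
    win_congr (U := U.erase u) (z := U.piecewise z' z) (z' := z')
      fun i hi => by simp [Finset.mem_of_mem_erase hi],
    Finset.piecewise_eq_of_mem _ _ _ hu] at this

theorem maskF_decF (G : Fin R → Matrix ι ι ℂ) (u : ι) (Z : Finset (Fin R)) (U : Finset ι) :
    maskF (decF G u Z) U = decF (maskF G U) u Z := by
  funext c
  ext i j
  simp only [maskF, mask, Matrix.of_apply, decF_apply]
  split_ifs <;> rfl

theorem win_decF_of_notMem (G : Fin R → Matrix ι ι ℂ) (Z : Finset (Fin R)) (hu : u ∉ U) :
    win (decF G u Z) w z U = win G w z U := by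
  have : maskF (decF G u Z) U = maskF G U := by
    funext c
    ext i j
    simp only [maskF, mask, Matrix.of_apply, decF_apply]
    split_ifs with h1 h2
    · rcases h2.2.2 with rfl | rfl
      exacts [absurd h1.1 hu, absurd h1.2 hu]
    · rfl
    · rfl
  rw [win, win, this]

theorem win_child_affine (G : Fin R → Matrix ι ι ℂ) (hw : IsLaw w) (hu : u ∈ U) (c : Fin R) :
    win G (update w u (dirac c)) z U = z u * win G w z (U.erase u) +
      (rest (maskF G U) (update w u (dirac c)) u (ofR (U.piecewise z 1))).re := by
  conv_lhs => rw [win, ← update_eq_self u z, ofR_update_piecewise hu, Quad.Fdet_affine,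
    Complex.add_re, Complex.re_ofReal_mul, lead_maskF hu]
  rw [← win_erase_law hw c]
  rfl

theorem win_decF_child (G : Fin R → Matrix ι ι ℂ) (hw : IsLaw w) (Z : Finset (Fin R))
    (hu : u ∈ U) {c : Fin R} (hd : G c u u = 1 / 2) :
    win (decF G u Z) (update w u (dirac c)) z U =
      if c ∈ Z then (z u - 1 / 2) * win G w z (U.erase u)
      else win G (update w u (dirac c)) z U := by
  rw [win_child_affine _ hw hu, maskF_decF, win_decF_of_notMem _ _ (Finset.notMem_erase u U)]
  split_ifs with hc
  · have : maskF G U c u u = (((1 / 2 : ℝ)) : ℂ) := by simp [maskF, mask, hu, hd]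
    rw [Quad.rest_decF_of_mem _ _ _ _ _ hc, this, ← Complex.ofReal_neg, Complex.re_ofReal_mul,
      lead_maskF hu]
    show _ + -(1 / 2) * win G (update w u (dirac c)) z (U.erase u) = _
    rw [win_erase_law hw]
    ring
  · rw [Quad.rest_decF_of_notMem _ _ _ _ _ hc, ← win_child_affine _ hw hu]

theorem childH_singleton (hw : IsLaw w) (h : Valid G w z U) {c : Fin R} (hu : u ∈ U)
    (hd : G c u u = 1 / 2) : childH G w z {u} u c = 1 / 2 := by
  have e : win G (update w u (dirac c)) z {u} =
      win (decF G u {c}) (update w u (dirac c)) z {u} := by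
    have hmask : maskF G {u} = maskF (decF G u {c}) {u} := by
      funext c'
      ext i j
      simp only [maskF, mask, Matrix.of_apply, decF_apply, Finset.mem_singleton]
      split_ifs <;> first | rfl | (exfalso; aesop)
    rw [win, win, hmask]
  have hs : ({u} : Finset ι) ⊆ U := Finset.singleton_subset_iff.2 hu
  have hpos := (h.mono hs).erase_pos u
  rw [childH, e, win_decF_child G hw _ (Finset.mem_singleton_self u) hd,
    if_pos (Finset.mem_singleton_self c)]
  field_simp [hpos.ne']
  ring

theorem half_le_childH (hG : ∀ c, (G c).IsHermitian) (hw : IsLaw w) (h : Valid G w z U)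
    (hu : u ∈ U) {c : Fin R} (hd : G c u u = 1 / 2) : 1 / 2 ≤ childH G w z U u c := by
  rw [← childH_singleton hw h hu hd]
  exact childH_subset hG hw h (Finset.singleton_subset_iff.2 hu) (Finset.mem_singleton_self u) c

/-- The mean of the conditional values. -/
theorem sum_childH (hw : IsLaw w) (h : Valid G w z U) (u : ι) :
    ∑ c, w u c * childH G w z U u c = z u - 1 / res G w z U u := by
  have e : ∀ c, w u c * childH G w z U u c = w u c * z u -
      w u c * win G (update w u (dirac c)) z U / win G w z (U.erase u) := fun c => by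
    rw [childH]; ring
  simp only [e, Finset.sum_sub_distrib, ← Finset.sum_mul, (hw u).2, one_mul, ← Finset.sum_div,
    ← win_split G w z U u, res, one_div_div]

/-- A combination of increments of the conditional values with small coefficients is bounded
by the increment of the mean. -/
theorem abs_sum_sub_le (hw : IsLaw w) (u : ι) {y a b : Fin R → ℝ}
    (hy : ∀ c, |y c| ≤ w u c) (hab : ∀ c, b c ≤ a c) :
    |∑ c, y c * a c - ∑ c, y c * b c| ≤ ∑ c, w u c * a c - ∑ c, w u c * b c := by
  simp only [← Finset.sum_sub_distrib, ← mul_sub]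
  refine (Finset.abs_sum_le_sum_abs _ _).trans (Finset.sum_le_sum fun c _ => ?_)
  rw [abs_mul, abs_of_nonneg (sub_nonneg.2 (hab c))]
  exact mul_le_mul_of_nonneg_right (hy c) (sub_nonneg.2 (hab c))

theorem abs_sum_childH_le (hG : ∀ c, (G c).IsHermitian) (hw : IsLaw w) (h : Valid G w z U)
    (hu : u ∈ U) (hd : ∀ c, G c u u = 1 / 2) {y : Fin R → ℝ} (hy : ∀ c, |y c| ≤ w u c) :
    |∑ c, y c * childH G w z U u c| ≤ z u - 1 / res G w z U u := by
  rw [← sum_childH hw h u]
  refine (Finset.abs_sum_le_sum_abs _ _).trans (Finset.sum_le_sum fun c _ => ?_)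
  have h0 : 0 ≤ childH G w z U u c :=
    le_trans (by norm_num) (half_le_childH hG hw h hu (hd c))
  rw [abs_mul, abs_of_nonneg h0]
  exact mul_le_mul_of_nonneg_right (hy c) h0

end Vale.Agent.P078.Any
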