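import Vale.Agent.P078.Any.Stable

/-!
The laws at the ends of the rounds of the scheme have the distribution of the rule with fair seeds.
-/

namespace Vale.Agent.P078.Any

open Finset Function

set_option linter.unusedSectionVars false

variable {V X : Type} [DecidableEq V] [Fintype X] [DecidableEq X] {r : ℕ}

/-- The seed as it is seen: the sign of a coin that is not thrown is not used. -/
def seenOf (p : Bool × Bool) : Option Bool := if p.1 = true then some p.2 else none

/-- The law of what is seen at the end, when a coin not yet found stays so with probability `p`. -/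
noncomputable def seenWeight (p : ℝ) : Option Bool → Option Bool → ℝ
  | some b, v => if v = some b then 1 else 0
  | none, none => p
  | none, some _ => (1 - p) / 2

theorem sum_seenWeight_half (G : (X → Option Bool) → ℝ) :
    (∑ σ : X → Option Bool, (∏ x, seenWeight (1 / 2) none (σ x)) * G σ) *
        Fintype.card (X → Bool × Bool) =
      ∑ τ : X → Bool × Bool, G fun x => seenOf (τ x) := by
  have h1 : ∀ v : Option Bool, seenWeight (1 / 2) none v * 4 =
      ∑ p : Bool × Bool, if seenOf p = v then (1 : ℝ) else 0 := by
    intro v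
    rw [Fintype.sum_prod_type]
    rcases v with _ | b
    · simp only [seenWeight, seenOf, Fintype.sum_bool, Bool.false_eq_true, reduceCtorEq,
        if_true, if_false]
      norm_num
    · cases b <;> simp only [seenWeight, seenOf, Fintype.sum_bool, Bool.false_eq_true,
        Bool.true_eq_false, Option.some.injEq, reduceCtorEq, if_true, if_false] <;> norm_num
  have h2 : ∀ σ : X → Option Bool,
      (∏ x, seenWeight (1 / 2) none (σ x)) * Fintype.card (X → Bool × Bool) =
        ∑ τ : X → Bool × Bool, if (fun x => seenOf (τ x)) = σ then (1 : ℝ) else 0 := by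
    intro σ
    have e : ((Fintype.card (X → Bool × Bool) : ℕ) : ℝ) = ∏ _x : X, (4 : ℝ) := by simp
    rw [e, ← Finset.prod_mul_distrib]
    simp only [h1, Fintype.prod_sum, Fintype.prod_boole, funext_iff]
  rw [Finset.sum_mul]
  simp only [mul_right_comm _ (G _), h2, Finset.sum_mul]
  rw [Finset.sum_comm]
  simp

/-- Forgetting the unused signs does not change a round. -/
theorem next_seenOf (P : Par) (rule : Rule V r) (j : ℕ) (q : V → Fin r → ℝ) (cell : V → X)
    (τ : X → Bool × Bool) :
    next P rule j q (fun u => seedOf (seenOf (τ (cell u)))) =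
      next P rule j q fun u => τ (cell u) := by
  funext u c
  unfold next seenOf
  by_cases h : (τ (cell u)).1 = true <;> simp [h, seedOf]

namespace Cfg

variable (C : Cfg V X r)

/-- The probability that a coin is still not found after some operations. -/
noncomputable def stay : List (Op X) → X → ℝ
  | [], _ => 1
  | .visit _ t y :: l, x => (if y = x then 1 - C.haz t else 1) * stay l x
  | .start _ :: l, x => stay l x
  | .rise _ :: l, x => stay l x
  | .fin _ :: l, x => stay l x

theorem stay_append (l l' : List (Op X)) (x : X) :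
    C.stay (l ++ l') x = C.stay l x * C.stay l' x := by
  induction l with
  | nil => simp [stay]
  | cons o l ih => cases o <;> simp [stay, ih, mul_assoc]

theorem stay_visits (j t : ℕ) (x : X) : ∀ l : List X, l.Nodup →
    C.stay (l.map (Op.visit j t)) x = if x ∈ l then 1 - C.haz t else 1
  | [], _ => by simp [stay]
  | y :: l, h => by
    rw [List.nodup_cons] at h
    rw [List.map_cons, stay, stay_visits j t x l h.2]
    rcases eq_or_ne y x with rfl | hne
    · simp [h.1]
    · simp [hne, List.mem_cons, hne.symm]

theorem stay_slots (j : ℕ) (x : X) : ∀ t n : ℕ, t + n ≤ C.K → 0 < C.K →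
    C.stay (slots j t n) x = ((2 * C.K - t - n : ℕ) : ℝ) / ((2 * C.K - t : ℕ) : ℝ)
  | t, 0, h, hK => by
    have : ((2 * C.K - t : ℕ) : ℝ) ≠ 0 := Nat.cast_ne_zero.2 (by omega)
    simp [slots, stay, div_self this]
  | t, n + 1, h, hK => by
    rw [slots, stay, stay_append, C.stay_visits j t x _ (Finset.nodup_toList _),
      if_pos (Finset.mem_toList.2 (Finset.mem_univ x)), stay_slots j x (t + 1) n (by omega) hK]
    have e1 : 2 * C.K - t = (2 * C.K - (t + 1)) + 1 := by omega
    have e2 : 2 * C.K - t - (n + 1) = 2 * C.K - (t + 1) - n := by omega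
    have h1 : ((2 * C.K - (t + 1) : ℕ) : ℝ) ≠ 0 := Nat.cast_ne_zero.2 (by omega)
    have h2 : ((2 * C.K - (t + 1) : ℕ) : ℝ) + 1 ≠ 0 := by positivity
    rw [haz, e2, e1]
    push_cast
    field_simp
    ring

/-- The operations without an end of a round. -/
def NoFin : List (Op X) → Prop
  | [] => True
  | .fin _ :: _ => False
  | .start _ :: l => NoFin l
  | .rise _ :: l => NoFin l
  | .visit .. :: l => NoFin l

theorem noFin_append {l l' : List (Op X)} (h : NoFin l) (h' : NoFin l') : NoFin (l ++ l') := by
  induction l with
  | nil => exact h'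
  | cons o l ih => cases o <;> first | exact ih h | exact h.elim

theorem noFin_slots (j : ℕ) : ∀ t n : ℕ, NoFin (slots (X := X) j t n)
  | _, 0 => trivial
  | t, n + 1 => by
    refine noFin_append ?_ (noFin_slots j (t + 1) n)
    induction (Finset.univ : Finset X).toList with
    | nil => trivial
    | cons y l ih => exact ih

/-- The distribution of what is seen, inside a round. -/
theorem E_seen : ∀ (l : List (Op X)), NoFin l → ∀ (g : (V → Fin r → ℝ) → (X → Option Bool) → ℝ)
    (s : St V X r), C.prog'.E l (fun s' => g s'.q0 s'.seen) s =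
      ∑ σ : X → Option Bool, (∏ x, seenWeight (C.stay l x) (s.seen x) (σ x)) * g s.q0 σ := by
  intro l
  induction l with
  | nil =>
    intro _ g s
    have : ∀ (a v : Option Bool), seenWeight 1 a v = if a = v then 1 else 0 := fun a v => by
      rcases a with _ | b <;> rcases v with _ | b' <;> simp [seenWeight, eq_comm]
    simp only [Prog.E_nil, stay, this, Fintype.prod_boole, ← funext_iff]
    simp
  | cons o l ih =>
    intro hl g s
    rw [Prog.E_cons]
    cases o with
    | fin j => exact hl.elim
    | start j =>
      change ∑ i, C.pr (Op.start j) s i * C.prog'.E l (fun s' => g s'.q0 s'.seen)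
        (C.nx (Op.start j) s i) = _
      simp only [Fin.sum_univ_three, pr, nx, stay]
      simpa using ih hl g { s with T := s.T + C.P.rise / 4, dirty := false }
    | rise j =>
      change ∑ i, C.pr (Op.rise j) s i * C.prog'.E l (fun s' => g s'.q0 s'.seen)
        (C.nx (Op.rise j) s i) = _
      simp only [Fin.sum_univ_three, pr, nx, stay]
      simpa using ih hl g { s with T := s.T + C.P.rise / (4 * C.K), dirty := false }
    | visit j t x =>
      have hnx : ∀ b, (C.hit j x b s).seen = update s.seen x (some b) ∧
          (C.hit j x b s).q0 = s.q0 := fun b => ⟨rfl, rfl⟩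
      change ∑ i, C.pr (Op.visit j t x) s i * C.prog'.E l (fun s' => g s'.q0 s'.seen)
        (C.nx (Op.visit j t x) s i) = _
      simp only [Fin.sum_univ_three, pr, nx]
      simp only [Fin.reduceEq, if_true, if_false, ih hl g, (hnx true).1, (hnx true).2,
        (hnx false).1, (hnx false).2, Finset.mul_sum, ← Finset.sum_add_distrib, ← mul_assoc,
        ← add_mul]
      refine Finset.sum_congr rfl fun σ _ => ?_
      congr 1
      simp only [← Finset.mul_prod_erase _ _ (Finset.mem_univ x), update_self, stay, if_true]
      set P' := ∏ y ∈ Finset.univ.erase x, seenWeight (C.stay l y) (s.seen y) (σ y)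
      have e1 : ∀ b, ∏ y ∈ Finset.univ.erase x,
          seenWeight (C.stay l y) (update s.seen x (some b) y) (σ y) = P' := fun b =>
        Finset.prod_congr rfl fun y hy => by rw [update_of_ne (Finset.ne_of_mem_erase hy)]
      have e2 : ∏ y ∈ Finset.univ.erase x, seenWeight
          ((if x = y then 1 - C.haz t else 1) * C.stay l y) (s.seen y) (σ y) = P' :=
        Finset.prod_congr rfl fun y hy => by
          rw [if_neg (Finset.ne_of_mem_erase hy).symm, one_mul]
      rw [e1, e1, e2]
      rcases hs : s.seen x with _ | b <;> rcases σ x with _ | b'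
      · simp [seenWeight]; ring
      · cases b' <;> simp [seenWeight] <;> ring
      · simp [seenWeight]
      · simp [seenWeight]

theorem round_marginal_of (hK : 0 < C.K) (j : ℕ) (s : St V X r) (hs : s.seen = fun _ => none)
    (f : (V → Fin r → ℝ) → ℝ) (F : St V X r → ℝ)
    (hF : ∀ s' : St V X r, (s'.seen = fun _ => none) → F s' = f s'.q0) :
    C.prog'.E (C.round j) F s * Fintype.card (X → Bool × Bool) =
      ∑ τ : X → Bool × Bool, f (next C.P C.rule j s.q0 fun u => τ (C.cell u)) := by
  have hfin : ∀ s' : St V X r, C.prog'.E [Op.fin j] F s' =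
      f (next C.P C.rule j s'.q0 fun u => seedOf (s'.seen (C.cell u))) := fun s' => by
    rw [Prog.E_cons]
    simp only [prog', pr, Fin.sum_univ_three, Prog.E_nil]
    simp only [Fin.reduceEq, if_true, if_false, zero_mul, add_zero, one_mul]
    exact hF (C.nx (.fin j) s' 0) rfl
  have hl : NoFin (Op.start j :: slots (X := X) j 0 C.K) := noFin_slots j 0 C.K
  have hstay : ∀ x, C.stay (Op.start j :: slots j 0 C.K) x = 1 / 2 := fun x => by
    have hK' : (C.K : ℝ) ≠ 0 := Nat.cast_ne_zero.2 hK.ne'
    rw [stay, C.stay_slots j x 0 C.K (by omega) hK,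
      show 2 * C.K - 0 - C.K = C.K by omega, Nat.sub_zero]
    push_cast
    field_simp
  have e : C.round j = (Op.start j :: slots j 0 C.K) ++ [Op.fin j] := rfl
  rw [e, Prog.E_append,
    show C.prog'.E [Op.fin j] F = fun s' =>
      (fun q σ => f (next C.P C.rule j q fun u => seedOf (σ (C.cell u)))) s'.q0 s'.seen from
      funext hfin,
    C.E_seen _ hl (fun q σ => f (next C.P C.rule j q fun u => seedOf (σ (C.cell u)))) s]
  simp only [hstay, hs]
  rw [sum_seenWeight_half]
  simp only [next_seenOf]

/-- One round of the scheme is one round of the rule with fair seeds. -/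
theorem round_marginal (hK : 0 < C.K) (j : ℕ) (s : St V X r) (hs : s.seen = fun _ => none)
    (f : (V → Fin r → ℝ) → ℝ) :
    C.prog'.E (C.round j) (fun s' => f s'.q0) s * Fintype.card (X → Bool × Bool) =
      ∑ τ : X → Bool × Bool, f (next C.P C.rule j s.q0 fun u => τ (C.cell u)) :=
  C.round_marginal_of hK j s hs f _ fun _ _ => rfl

theorem rounds_snoc : ∀ i n : ℕ, C.rounds i (n + 1) = C.rounds i n ++ C.round (i + n)
  | i, 0 => by simp [rounds]
  | i, n + 1 => by
    rw [rounds, rounds_snoc (i + 1) n, show i + 1 + n = i + (n + 1) by omega, rounds,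
      List.append_assoc]

theorem qAt_congr (P : Par) (rule : Rule V r) {σ σ' : ℕ → V → Bool × Bool} :
    ∀ j, (∀ i < j, σ i = σ' i) → qAt P rule σ j = qAt P rule σ' j
  | 0, _ => rfl
  | j + 1, h => by
    rw [qAt, qAt, qAt_congr P rule j fun i hi => h i (by omega), h j (by omega)]

theorem marginal_of (hK : 0 < C.K) {m : ℕ} : ∀ {j : ℕ}, j ≤ m → ∀ (s : St V X r),
    (s.seen = fun _ => none) → (s.q0 = fun _ _ => 1 / (r : ℝ)) →
    ∀ (f : (V → Fin r → ℝ) → ℝ) (F : St V X r → ℝ),
    (∀ s' : St V X r, (s'.seen = fun _ => none) → F s' = f s'.q0) →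
    C.prog'.E (C.rounds 0 j) F s * Fintype.card (Fin m → X → Bool × Bool) =
      ∑ σ : Fin m → X → Bool × Bool, f (qAt C.P C.rule (seeds C.cell σ) j) := by
  intro j
  induction j with
  | zero =>
    intro _ s hs hq f F hF
    simp [rounds, hF s hs, hq, qAt, mul_comm]
  | succ j ih =>
    intro hj s hs hq f F hF
    set N : ℝ := (Fintype.card (X → Bool × Bool) : ℝ)
    have hN : N ≠ 0 := Nat.cast_ne_zero.2 Fintype.card_ne_zero
    set Φ : (V → Fin r → ℝ) → ℝ := fun q =>
      (∑ τ : X → Bool × Bool, f (next C.P C.rule j q fun u => τ (C.cell u))) / N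
    have hstep : ∀ s' : St V X r, (s'.seen = fun _ => none) →
        C.prog'.E (C.round j) F s' = Φ s'.q0 := fun s' hs' => by
      rw [eq_div_iff hN]
      exact C.round_marginal_of hK j s' hs' f F hF
    rw [rounds_snoc, zero_add, Prog.E_append, ih (by omega) s hs hq Φ _ hstep]
    simp only [Φ, ← Finset.sum_div]
    rw [div_eq_iff hN, Finset.sum_mul, ← Fintype.sum_prod_type']
    set jj : Fin m := ⟨j, by omega⟩
    set φ : (Fin m → X → Bool × Bool) × (X → Bool × Bool) →
        (Fin m → X → Bool × Bool) × (X → Bool × Bool) := fun p => (update p.1 jj p.2, p.1 jj)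
    have hinv : Involutive φ := fun p => by simp [φ]
    refine (Fintype.sum_equiv hinv.toPerm _
      (fun p => f (qAt C.P C.rule (seeds C.cell p.1) (j + 1))) fun p => ?_).trans ?_
    · simp only [Involutive.coe_toPerm, φ, qAt]
      congr 1
      have h1 : seeds C.cell (update p.1 jj p.2) j = fun u => p.2 (C.cell u) := by
        funext u
        simp [seeds, jj, show j < m by omega]
      rw [h1, qAt_congr C.P C.rule (σ := seeds C.cell (update p.1 jj p.2))
        (σ' := seeds C.cell p.1) j fun i hi => ?_]
      funext u
      simp only [seeds]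
      split_ifs with him
      · rw [update_of_ne]
        simp only [jj, ne_eq, Fin.mk.injEq]
        omega
      · rfl
    · rw [Fintype.sum_prod_type]
      simp [N, mul_comm]

/-- The laws at the start of round `j`, averaged, are those of the rule. -/
theorem marginal (hK : 0 < C.K) {m j : ℕ} (hj : j ≤ m) (s : St V X r)
    (hs : s.seen = fun _ => none) (hq : s.q0 = fun _ _ => 1 / (r : ℝ))
    (f : (V → Fin r → ℝ) → ℝ) :
    C.prog'.E (C.rounds 0 j) (fun s' => f s'.q0) s * Fintype.card (Fin m → X → Bool × Bool) =
      ∑ σ : Fin m → X → Bool × Bool, f (qAt C.P C.rule (seeds C.cell σ) j) :=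
  C.marginal_of hK hj s hs hq f _ fun _ _ => rfl

end Cfg

end Vale.Agent.P078.Any
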