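import Vale.Agent.P078.Any.CoreMain
import Vale.Agent.P078.Any.Marginal

/-!
Block C: for every point, the rule fails on average with small probability.
-/

namespace Vale.Agent.P078.Any

/-- The marginals of the scheme are the seeds of the rule. -/
theorem marginalStatement : MarginalStatement := fun _ _ _ _ _ _ C hK =>
  ⟨fun _ _ hj f => C.marginal hK hj C.init rfl rfl f,
    fun j s hs f => C.round_marginal hK j s hs f⟩

/-- Block C. -/
theorem coreStatement : CoreStatement := coreStatement_of_marginal marginalStatement

end Vale.Agent.P078.Any
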