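import Vale.Agent.P078.Any.LocalityExpand
import Mathlib.Analysis.SpecialFunctions.Trigonometric.Chebyshev.RootsExtrema

/-!
Locality of resolvent entries: equal moments and a Chebyshev interpolation of the Cauchy kernel.
-/

namespace Vale.Agent.P078.Any

open Filter Topology Polynomial
open scoped Real

/-- A signed Cauchy sum of small order at infinity has vanishing moments. -/
theorem moments_zero {ι : Type*} [Fintype ι] (n : ℕ) (a x : ι → ℝ) (hx : ∀ i, 0 < x i)
    (C : ℝ) (h : ∀ t, 1 ≤ t → |∑ i, a i / (t + x i)| * t ^ (n + 2) ≤ C) :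
    ∀ k ≤ n, ∑ i, a i * x i ^ k = 0 := by
  have step : ∀ (b : ι → ℝ) (t : ℝ), 1 ≤ t →
      t * ∑ i, b i / (t + x i) = (∑ i, b i) - ∑ i, b i * x i / (t + x i) := fun b t ht => by
    rw [Finset.mul_sum, ← Finset.sum_sub_distrib]
    refine Finset.sum_congr rfl fun i _ => ?_
    have : t + x i ≠ 0 := by linarith [hx i]
    field_simp
    ring
  have zero : ∀ (b : ι → ℝ) (C : ℝ),
      (∀ t, 1 ≤ t → |∑ i, b i / (t + x i)| * t ^ 2 ≤ C) → ∑ i, b i = 0 := by
    intro b C hb
    set K := ∑ i, |b i * x i|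
    by_contra hne
    have hp : 0 < |∑ i, b i| := abs_pos.2 hne
    set t := max 1 ((K + C + 1) / |∑ i, b i|)
    have ht : 1 ≤ t := le_max_left _ _
    have ht' : K + C + 1 ≤ |∑ i, b i| * t := by
      rw [mul_comm, ← div_le_iff₀ hp]
      exact le_max_right _ _
    have hb' := hb t ht
    have hrem : |∑ i, b i * x i / (t + x i)| * t ≤ K := by
      rw [show |∑ i, b i * x i / (t + x i)| * t = |(∑ i, b i * x i / (t + x i)) * t| by
        rw [abs_mul, abs_of_nonneg (by linarith : 0 ≤ t)], Finset.sum_mul]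
      refine (Finset.abs_sum_le_sum_abs _ _).trans (Finset.sum_le_sum fun i _ => ?_)
      rw [abs_mul, abs_div, abs_of_pos (by linarith [hx i] : 0 < t + x i),
        abs_of_nonneg (by linarith : 0 ≤ t), div_mul_eq_mul_div]
      exact (div_le_iff₀ (by linarith [hx i])).2
        (mul_le_mul_of_nonneg_left (by linarith [hx i]) (abs_nonneg _))
    have e := step b t ht
    have h1 : |∑ i, b i| ≤ t * |∑ i, b i / (t + x i)| + |∑ i, b i * x i / (t + x i)| := by
      have := abs_add_le (t * ∑ i, b i / (t + x i)) (∑ i, b i * x i / (t + x i))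
      rw [e, sub_add_cancel, ← e, abs_mul, abs_of_nonneg (by linarith : 0 ≤ t)] at this
      exact this
    nlinarith [mul_le_mul_of_nonneg_left h1 (by linarith : 0 ≤ t)]
  induction n generalizing a C with
  | zero =>
    intro k hk
    obtain rfl : k = 0 := by omega
    simpa using zero a C fun t ht => h t ht
  | succ n ih =>
    have ha : ∑ i, a i = 0 := zero a C fun t ht => le_trans
      (mul_le_mul_of_nonneg_left (pow_le_pow_right₀ ht (by omega)) (abs_nonneg _)) (h t ht)
    intro k hk
    cases k with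
    | zero => simpa using ha
    | succ k =>
      refine Eq.trans (Finset.sum_congr rfl fun i _ => ?_)
        (ih (fun i => a i * x i) C (fun t ht => ?_) k (by omega))
      · rw [pow_succ']; ring
      · have e : ∑ i, a i * x i / (t + x i) = -(t * ∑ i, a i / (t + x i)) := by
          rw [step a t ht, ha]; ring
        rw [e, abs_neg, abs_mul, abs_of_nonneg (by linarith : 0 ≤ t)]
        calc t * |∑ i, a i / (t + x i)| * t ^ (n + 2)
            = |∑ i, a i / (t + x i)| * t ^ (n + 1 + 2) := by ring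
          _ ≤ C := h t ht

/-- A polynomial close to the Cauchy kernel on `[0, D]`. -/
theorem exists_interpolation (n : ℕ) {D t : ℝ} (ht : 0 < t) (htD : t ≤ D) :
    ∃ q : ℝ[X], q.natDegree ≤ n ∧ ∀ x ∈ Set.Icc 0 D,
      |1 / (t + x) - q.eval x| ≤ 2 * Real.exp (-(n * Real.sqrt (t / D))) / (t + x) := by
  have hD : 0 < D := lt_of_lt_of_le ht htD
  set s := t / D with hs
  have hs0 : 0 < s := div_pos ht hD
  have hs1 : s ≤ 1 := (div_le_one hD).2 htD
  set a := Real.arcosh (1 + 2 * s)
  have ha : Real.cosh a = 1 + 2 * s := Real.cosh_arcosh (by linarith)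
  have ha0 : 0 ≤ a := Real.arcosh_nonneg (by linarith)
  have has : Real.sqrt s ≤ a := by
    have h1 : Real.cosh (Real.sqrt s) ≤ Real.cosh a := by
      refine (Real.cosh_le_exp_half_sq _).trans ?_
      rw [Real.sq_sqrt hs0.le, ha]
      refine (Real.exp_bound_div_one_sub_of_interval (by linarith) (by linarith)).trans ?_
      rw [div_le_iff₀ (by linarith)]
      nlinarith
    have := (Real.cosh_le_cosh (x := Real.sqrt s) (y := a)).1 h1
    rwa [abs_of_nonneg (Real.sqrt_nonneg s), abs_of_nonneg ha0] at this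
  set N : ℕ := n + 1
  set T := Chebyshev.T ℝ (N : ℤ)
  set p : ℝ[X] := T.comp (C (-(2 / D)) * X + C 1)
  have hval : p.eval (-t) = Real.cosh (N * a) := by
    have e : (C (-(2 / D)) * X + C 1 : ℝ[X]).eval (-t) = 1 + 2 * s := by
      simp [hs]; ring
    rw [eval_comp, e, ← ha, Chebyshev.T_real_cosh]
    push_cast
    rfl
  set P := p.eval (-t)
  have hP : Real.exp (n * Real.sqrt s) ≤ 2 * P := by
    rw [hval, Real.cosh_eq]
    have h1 : (n : ℝ) * Real.sqrt s ≤ N * a :=
      mul_le_mul (by simp [N]) has (Real.sqrt_nonneg s) (by positivity)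
    linarith [Real.exp_le_exp.2 h1, Real.exp_pos (-((N : ℝ) * a))]
  have hP0 : 0 < P := by linarith [Real.exp_pos ((n : ℝ) * Real.sqrt s)]
  set k : ℝ[X] := 1 - C (1 / P) * p
  have hroot : k.IsRoot (-t) := by
    simp [k, IsRoot, P, hP0.ne']
  refine ⟨k /ₘ (X - C (-t)), ?_, fun x hx => ?_⟩
  · rw [natDegree_divByMonic _ (monic_X_sub_C _), natDegree_X_sub_C]
    have hpd : p.natDegree ≤ N := by
      refine natDegree_comp_le.trans ?_
      have h1 : T.natDegree = N := by simp [T, Chebyshev.natDegree_T]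
      have h2 : (C (-(2 / D)) * X + C 1 : ℝ[X]).natDegree ≤ 1 := natDegree_linear_le
      calc _ ≤ T.natDegree * 1 := Nat.mul_le_mul_left _ h2
        _ = N := by omega
    have : k.natDegree ≤ N := (natDegree_sub_le _ _).trans
      (max_le (by simp) ((natDegree_C_mul_le _ _).trans hpd))
    omega
  · have hk := congrArg (Polynomial.eval x) (mul_divByMonic_eq_iff_isRoot.2 hroot)
    simp only [eval_mul, eval_sub, eval_X, eval_C, sub_neg_eq_add] at hk
    have hpos : 0 < t + x := by linarith [hx.1]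
    have e : 1 / (t + x) - (k /ₘ (X - C (-t))).eval x = p.eval x / P / (t + x) := by
      have hk' : k.eval x = 1 - p.eval x / P := by simp [k]; ring
      rw [hk', add_comm x t] at hk
      rw [eq_div_iff hpos.ne', sub_mul, one_div_mul_cancel hpos.ne']
      linarith
    rw [e, abs_div, abs_of_pos hpos]
    refine div_le_div_of_nonneg_right ?_ hpos.le
    rw [abs_div, abs_of_pos hP0, Real.exp_neg, div_le_iff₀ hP0]
    have hy : |1 - 2 * x / D| ≤ 1 := by
      have := hx.1
      have := (div_le_one hD).2 hx.2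
      rw [abs_le, mul_div_assoc]
      constructor <;> nlinarith [div_nonneg hx.1 hD.le]
    have hT : |p.eval x| ≤ 1 := by
      have e' : (C (-(2 / D)) * X + C 1 : ℝ[X]).eval x = 1 - 2 * x / D := by
        simp; ring
      rw [eval_comp, e']
      exact Chebyshev.abs_eval_T_real_le_one _ hy
    refine hT.trans ?_
    rw [← div_eq_mul_inv, div_mul_eq_mul_div, le_div_iff₀ (Real.exp_pos _), one_mul]
    exact hP

/-- Block A: locality. -/
theorem localityStatement : LocalityStatement := by
  intro V _ r S w U B z u n D t hw hv hB hu hball hD ht htD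
  have huU : u ∈ U := hB hu
  obtain ⟨nU, mU, dU, hmU, -, hdU, hDU, hRU⟩ := S.stieltjes w U z hw hv u huU
  obtain ⟨nB, mB, dB, hmB, -, hdB, hDB, hRB⟩ :=
    S.stieltjes w B z (hw.mono hB) (fun T hT => hv T (hT.trans hB)) u hu
  set x : Fin nU ⊕ Fin nB → ℝ := Sum.elim dU dB
  set c : Fin nU ⊕ Fin nB → ℝ := Sum.elim mU fun i => -mB i
  have hx : ∀ i, 0 < x i := by rintro (i | i) <;> simp [x, hdU, hdB]
  have hxD : ∀ i, x i ≤ D := by
    rintro (i | i)
    exacts [hDU D hD i, hDB D (fun v hv => hD v (hB hv)) i]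
  have hdiff : ∀ τ, 0 ≤ τ →
      S.Res w U (fun v => z v + τ) u - S.Res w B (fun v => z v + τ) u =
        ∑ i, c i / (τ + x i) := fun τ hτ => by
    rw [Sys.Res, Sys.Res, hRU τ hτ, hRB τ hτ, Fintype.sum_sum_type]
    simp [c, x, neg_div, Finset.sum_neg_distrib, sub_eq_add_neg]
  obtain ⟨C, hC0, hC⟩ := S.cross_bound hw hB hu n hball z
  have hmom : ∀ k ≤ n, ∑ i, c i * x i ^ k = 0 := by
    refine moments_zero n c x hx C fun τ hτ => ?_
    have h1 := S.pow_card_le hw hv (t := τ) (by linarith)
    have h2 := S.pow_card_le (hw.mono hB) (fun T hT => hv T (hT.trans hB)) (t := τ) (by linarith)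
    have hp : (0 : ℝ) < τ ^ U.card := pow_pos (by linarith) _
    have hq : (0 : ℝ) < τ ^ B.card := pow_pos (by linarith) _
    rw [← hdiff τ (by linarith), Sys.Res, Sys.Res,
      div_sub_div _ _ (hp.trans_le h1).ne' (hq.trans_le h2).ne', abs_div,
      abs_of_pos (mul_pos (hp.trans_le h1) (hq.trans_le h2)), div_mul_eq_mul_div,
      div_le_iff₀ (mul_pos (hp.trans_le h1) (hq.trans_le h2))]
    rw [mul_comm (S.F w U fun v => z v + τ) (S.F w (B.erase u) fun v => z v + τ)]
    refine (hC τ hτ).trans ?_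
    rw [pow_add]
    exact mul_le_mul_of_nonneg_left (mul_le_mul h1 h2 hq.le (hp.trans_le h1).le) hC0
  obtain ⟨q, hq, happ⟩ := exists_interpolation n ht htD
  have hzero : ∑ i, c i * q.eval (x i) = 0 := by
    simp only [eval_eq_sum_range, Finset.mul_sum]
    rw [Finset.sum_comm]
    refine Finset.sum_eq_zero fun k hk => ?_
    rw [Finset.mem_range] at hk
    have : ∀ i, c i * (q.coeff k * x i ^ k) = q.coeff k * (c i * x i ^ k) := fun i => by ring
    simp only [this, ← Finset.mul_sum, hmom k (by omega), mul_zero]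
  set E := 2 * Real.exp (-(n * Real.sqrt (t / D)))
  have hb : |∑ i, c i / (t + x i)| ≤ E * ∑ i, |c i| / (t + x i) := by
    have : ∑ i, c i / (t + x i) = ∑ i, c i * (1 / (t + x i) - q.eval (x i)) := by
      simp only [mul_sub, Finset.sum_sub_distrib, hzero, sub_zero, mul_one_div]
    rw [this, Finset.mul_sum]
    refine (Finset.abs_sum_le_sum_abs _ _).trans (Finset.sum_le_sum fun i _ => ?_)
    rw [abs_mul]
    refine (mul_le_mul_of_nonneg_left (happ _ ⟨(hx i).le, hxD i⟩) (abs_nonneg _)).trans (le_of_eq ?_)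
    ring
  rw [hdiff t ht.le]
  refine hb.trans ?_
  have hsum : ∑ i, |c i| / (t + x i) =
      S.Res w U (fun v => z v + t) u + S.Res w B (fun v => z v + t) u := by
    rw [Sys.Res, Sys.Res, hRU t ht.le, hRB t ht.le, Fintype.sum_sum_type]
    simp [c, x, abs_of_nonneg (hmU _), abs_of_nonneg (hmB _)]
  have hle : S.Res w B (fun v => z v + t) u ≤ S.Res w U (fun v => z v + t) u :=
    S.facts.res_window hw (S.facts.valid_mono hw hv fun v _ => by linarith) hB hu
  rw [hsum]
  calc E * (S.Res w U (fun v => z v + t) u + S.Res w B (fun v => z v + t) u)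
      ≤ E * (2 * S.Res w U (fun v => z v + t) u) :=
        mul_le_mul_of_nonneg_left (by linarith) (by positivity)
    _ = 4 * Real.exp (-(n * Real.sqrt (t / D))) * S.Res w U (fun v => z v + t) u := by
        simp only [E]; ring

end Vale.Agent.P078.Any
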