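import Vale.Agent.P078.Any.Params
import Vale.Agent.P078.Any.Locality

/-!
The core statement, from the marginals of the scheme.
-/

namespace Vale.Agent.P078.Any

open Finset Function

set_option linter.unusedSectionVars false

namespace Cfg

variable {V X : Type} [DecidableEq V] [Fintype X] [DecidableEq X] {r : ℕ} (C : Cfg V X r)

/-- The marginal of the first rounds, as a hypothesis. -/
def Marginal : Prop :=
  ∀ (m j : ℕ), j ≤ m → ∀ f : (V → Fin r → ℝ) → ℝ,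
    C.prog'.E (C.rounds 0 j) (fun s' => f s'.q0) C.init *
        Fintype.card (Fin m → X → Bool × Bool) =
      ∑ σ : Fin m → X → Bool × Bool, f (qAt C.P C.rule (seeds C.cell σ) j)

variable {C} {d : ℕ} {e₀ η R₀ : ℝ}

open Classical in
/-- The bound for given parameters. -/
theorem bad_sum_le (hC : C.OK d e₀ η) (hS : C.Start R₀) (hM : C.Marginal) (hM1 : C.RoundMarginal)
    (hloc : locErr C.P.g C.P.L * C.Lam2 ≤ C.P.Lam * C.P.g / 2) {γ : ℝ} (hgγ : C.P.g / 16 ≤ γ)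
    (heps : C.P.eps * r ≤ 1 / 3) (heps0 : 0 < C.P.eps) (hR₀ : 0 ≤ R₀)
    (hθ : C.θ * (d + 1) ≤ 1 / 4) {κ : ℝ} (hκ : (16 * C.bK d C.P.m / C.P.g) ^ C.P.L ≤ κ)
    {Z : ℝ} (hZ : C.P.T0 + C.P.m * C.P.rise + γ ≤ Z) :
    ∑ j : Fin C.P.m, ∑ σ : Fin C.P.m → X → Bool × Bool,
        (if C.S.Good C.k₀ Z (qAt C.P C.rule (seeds C.cell σ) j) C.v then (0 : ℝ) else 1) ≤
      (ball C.S.nb C.k₀ C.v).card *
          (2 / (C.P.h * C.P.eps ^ 2) + C.P.m * κ + C.P.m * (R₀ / C.P.Lam) +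
            4 / (C.P.rise * C.P.Lam) * R₀) *
        Fintype.card (Fin C.P.m → X → Bool × Bool) := by
  obtain ⟨n, hn⟩ : ∃ n, C.P.L = n + 1 := ⟨C.P.L - 1, by have := hS.L_pos; omega⟩
  have hj : ∀ j : Fin C.P.m, ∑ σ : Fin C.P.m → X → Bool × Bool,
      (if C.S.Good C.k₀ Z (qAt C.P C.rule (seeds C.cell σ) j) C.v then (0 : ℝ) else 1) =
      C.prog'.E (C.rounds 0 j) (fun s => if C.S.Good C.k₀ Z s.q0 C.v then (0 : ℝ) else 1) C.init *
        Fintype.card (Fin C.P.m → X → Bool × Bool) := fun j =>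
    (hM C.P.m j j.2.le fun q => if C.S.Good C.k₀ Z q C.v then (0 : ℝ) else 1).symm
  rw [Finset.sum_congr rfl fun j _ => hj j, ← Finset.sum_mul]
  refine mul_le_mul_of_nonneg_right ?_ (Nat.cast_nonneg _)
  rw [Fin.sum_univ_eq_sum_range fun i =>
    C.prog'.E (C.rounds 0 i) (fun s => if C.S.Good C.k₀ Z s.q0 C.v then (0 : ℝ) else 1) C.init]
  refine (fail_sum hC hS hloc hgγ heps heps0.le hR₀ hθ hn (κ := κ) (by rw [← hn]; exact hκ)
    hZ).trans ?_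
  refine (Finset.sum_le_card_nsmul _ _ _ fun u _ => ?_).trans (le_of_eq (nsmul_eq_mul _ _))
  exact add_le_add (add_le_add (add_le_add (moves_le hC hS hM1 heps0 u) le_rfl) le_rfl) le_rfl

end Cfg

/-- The marginals of all configurations. -/
def MarginalStatement : Prop :=
  ∀ (V X : Type) [DecidableEq V] [Fintype X] [DecidableEq X] (r : ℕ) (C : Cfg V X r),
    0 < C.K → C.Marginal ∧ C.RoundMarginal

/-- A choice of the parameters. -/
structure Pars (r d : ℕ) (γ₀ δ₀ : ℝ) where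
  /-- The exponent of the gap. -/
  N : ℕ
  /-- The number of rounds. -/
  m : ℕ
  /-- The slack above the roots. -/
  γ : ℝ
  /-- The smallest weight that moves. -/
  eps : ℝ
  /-- The bound of the test. -/
  Lam : ℝ
  r_pos : 0 < r
  δ₀_pos : 0 < δ₀
  γ_pos : 0 < γ
  γ_le : γ ≤ 1 / 24
  γ_le₀ : γ ≤ γ₀
  eps_pos : 0 < eps
  eps_le : eps * r ≤ 1 / 3
  eps_δ : 2 * eps ≤ δ₀
  Lam_le : 1 ≤ Lam
  Lam_R : 2 / γ / Lam ≤ δ₀
  Lam_drop : 4 * (2 / γ) / (γ * Lam) ≤ δ₀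
  gap : Gap ((N : ℝ) + 2) Lam (γ / (eps ^ 3)⁻¹) γ δ₀ (2 / γ)
    ((1 + 5 * Lam / (γ / (eps ^ 3)⁻¹ / (5600 * Lam))) * (32 * Lam)) (700 * Lam)
    (6500 * Lam ^ 2) (Real.exp (2 * (eps ^ 3)⁻¹ * (6500 * Lam ^ 2) * ((d : ℝ) + 2))) d
  rounds : Rounds m (eps ^ 3)⁻¹ γ (((N : ℝ) + 2) ^ 8)⁻¹ (γ / (eps ^ 3)⁻¹) Lam
    (lipErr (ballCard d ((N + 2) ^ 5)) (((N : ℝ) + 2) ^ 8)⁻¹ 1)
    ((ballCard d ((N + 2) ^ 5) : ℕ) * fBound (ballCard d ((N + 2) ^ 5)))
    (((((N : ℝ) + 2) ^ 8)⁻¹ / 4) ^ ballCard d ((N + 2) ^ 5) / 2) (((N : ℝ) + 2) ^ 16)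
    (700 * Lam * (1 + 1 / (((N : ℝ) + 2) ^ 8)⁻¹) * ((N : ℝ) + 2) ^ 16 + 6500 * Lam ^ 2)
    (700 * Lam) ((((N : ℝ) + 2) ^ 15)⁻¹)

theorem exists_pars {r : ℕ} (hr : 0 < r) (d : ℕ) {γ₀ δ₀ : ℝ} (hγ₀ : 0 < γ₀) (hδ₀ : 0 < δ₀) :
    Nonempty (Pars r d γ₀ δ₀) := by
  have hrR : (0 : ℝ) < r := Nat.cast_pos.2 hr
  obtain ⟨γ, hγ, hγle, hγ0⟩ : ∃ γ : ℝ, 0 < γ ∧ γ ≤ 1 / 24 ∧ γ ≤ γ₀ :=
    ⟨min γ₀ (1 / 24), lt_min hγ₀ (by norm_num), min_le_right _ _, min_le_left _ _⟩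
  obtain ⟨eps, heps, he1, he2⟩ : ∃ eps : ℝ, 0 < eps ∧ eps * r ≤ 1 / 3 ∧ 2 * eps ≤ δ₀ := by
    refine ⟨min (1 / (3 * (r : ℝ))) (δ₀ / 2), lt_min (by positivity) (by positivity), ?_,
      by linarith [min_le_right (1 / (3 * (r : ℝ))) (δ₀ / 2)]⟩
    calc min (1 / (3 * (r : ℝ))) (δ₀ / 2) * r ≤ 1 / (3 * (r : ℝ)) * r :=
          mul_le_mul_of_nonneg_right (min_le_left _ _) hrR.le
      _ = 1 / 3 := by field_simp
  obtain ⟨Lam, hL1, hL2, hL3⟩ : ∃ Lam : ℝ, 1 ≤ Lam ∧ 2 / γ / Lam ≤ δ₀ ∧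
      4 * (2 / γ) / (γ * Lam) ≤ δ₀ := by
    refine ⟨max 1 (max (2 / γ / δ₀) (4 * (2 / γ) / (γ * δ₀))), le_max_left _ _, ?_, ?_⟩
    · rw [div_le_iff₀ (lt_max_of_lt_left one_pos), ← div_le_iff₀' hδ₀]
      exact (le_max_left _ _).trans (le_max_right _ _)
    · rw [div_le_iff₀ (mul_pos hγ (lt_max_of_lt_left one_pos)), ← mul_assoc,
        ← div_le_iff₀' (mul_pos hδ₀ hγ), mul_comm δ₀ γ]
      exact (le_max_right _ _).trans (le_max_right _ _)
  have hw : 0 < γ / (eps ^ 3)⁻¹ := by positivity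
  obtain ⟨N, hN⟩ := exists_gap Lam
    ((1 + 5 * Lam / (γ / (eps ^ 3)⁻¹ / (5600 * Lam))) * (32 * Lam)) (700 * Lam)
    (6500 * Lam ^ 2) (Real.exp (2 * (eps ^ 3)⁻¹ * (6500 * Lam ^ 2) * ((d : ℝ) + 2)))
    (2 / γ) d hw hγ hδ₀
  obtain ⟨m, hm⟩ := exists_rounds (eps ^ 3)⁻¹ γ Lam
    (lipErr (ballCard d ((N + 2) ^ 5)) (((N : ℝ) + 2) ^ 8)⁻¹ 1)
    ((ballCard d ((N + 2) ^ 5) : ℕ) * fBound (ballCard d ((N + 2) ^ 5)))
    (((N : ℝ) + 2) ^ 16)
    (700 * Lam * (1 + 1 / (((N : ℝ) + 2) ^ 8)⁻¹) * ((N : ℝ) + 2) ^ 16 + 6500 * Lam ^ 2)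
    (700 * Lam) (g := (((N : ℝ) + 2) ^ 8)⁻¹) (w := γ / (eps ^ 3)⁻¹)
    (bnd₁ := ((((N : ℝ) + 2) ^ 8)⁻¹ / 4) ^ ballCard d ((N + 2) ^ 5) / 2)
    (small := (((N : ℝ) + 2) ^ 15)⁻¹) (by positivity) hw (by positivity) (by positivity)
    (by linarith)
  exact ⟨⟨N, m, γ, eps, Lam, hr, hδ₀, hγ, hγle, hγ0, heps, he1, he2, hL1, hL2, hL3, hN, hm⟩⟩

namespace Pars

variable {r d : ℕ} {γ₀ δ₀ : ℝ} (p : Pars r d γ₀ δ₀)

/-- The total time. -/
noncomputable def S : ℝ := (p.eps ^ 3)⁻¹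

/-- The speed of the rise. -/
noncomputable def w : ℝ := p.γ / p.S

/-- The parameters of the rule. -/
noncomputable def par : Par :=
  ⟨p.m, (p.N + 2) ^ 5, rootLevel r + p.γ, p.γ / p.m, p.S / p.m, (((p.N : ℝ) + 2) ^ 8)⁻¹, p.Lam,
    p.eps⟩

/-- The threshold of an absorbed drop. -/
noncomputable def e₀ : ℝ := p.w / (5600 * p.Lam)

/-- The tolerated unbalance. -/
noncomputable def η : ℝ := p.w / (416 * p.Lam)

/-- The absorbed part of a visit. -/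
noncomputable def α : ℝ :=
  700 * p.Lam * p.e₀ + 700 * p.Lam * (locErr p.par.g p.par.L * ((p.N : ℝ) + 2) ^ 16) +
    6500 * p.Lam ^ 2 * p.par.rise +
    26 * p.Lam * (lipErr (ballCard d p.par.L) p.par.g (Real.sqrt p.par.h) + p.η)

theorem w_pos : 0 < p.w := by
  have := p.γ_pos; have := p.eps_pos
  unfold w S; positivity

theorem Lam_pos : 0 < p.Lam := by linarith [p.Lam_le]

theorem four_le : 4 ≤ (p.N : ℝ) + 2 := p.gap.four

theorem m_pos : (0 : ℝ) < p.m := Nat.cast_pos.2 p.rounds.pos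

theorem g_pos : 0 < p.par.g := by unfold par; positivity

theorem g_le_inv : p.par.g ≤ ((p.N : ℝ) + 2)⁻¹ :=
  inv_anti₀ (by positivity) (le_self_pow₀ (by linarith [p.four_le]) (by norm_num))

theorem g_le : p.par.g ≤ 1 / 4 :=
  p.g_le_inv.trans (by rw [one_div]; exact inv_anti₀ (by norm_num) p.four_le)

theorem le_Lam2 : (p.N : ℝ) + 2 ≤ ((p.N : ℝ) + 2) ^ 16 :=
  le_self_pow₀ (by linarith [p.four_le]) (by norm_num)

theorem loc_le : 0 ≤ locErr p.par.g p.par.L * ((p.N : ℝ) + 2) ^ 16 ∧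
    locErr p.par.g p.par.L * ((p.N : ℝ) + 2) ^ 16 ≤ p.par.g / 2 := by
  refine ⟨by unfold locErr; positivity, ?_⟩
  simp only [par, locErr]
  set x := (p.N : ℝ) + 2 with hx
  have hx0 : 0 < x := by positivity
  rw [show (x ^ 8)⁻¹ / 2 / 5 = ((x ^ 4)⁻¹) ^ 2 / 10 by field_simp; ring,
    Real.sqrt_div (sq_nonneg _), Real.sqrt_sq (by positivity), Nat.cast_pow, Nat.cast_add,
    Nat.cast_two, ← hx,
    show x ^ 5 * ((x ^ 4)⁻¹ / Real.sqrt 10) = x / Real.sqrt 10 by field_simp]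
  calc 4 * Real.exp (-(x / Real.sqrt 10)) * x ^ 16
      = 4 * (x ^ 24 * Real.exp (-(x / Real.sqrt 10))) * (x ^ 8)⁻¹ := by field_simp
    _ ≤ 1 / 2 * (x ^ 8)⁻¹ := mul_le_mul_of_nonneg_right p.gap.expo (by positivity)
    _ = (x ^ 8)⁻¹ / 2 := by ring

theorem lip_eq : lipErr (ballCard d p.par.L) p.par.g (Real.sqrt p.par.h) =
    Real.sqrt (p.S / p.m) * lipErr (ballCard d p.par.L) p.par.g 1 := by
  simp only [lipErr, par]; ring

theorem α_nonneg : 0 ≤ p.α := by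
  have := p.w_pos; have := p.Lam_pos; have := p.γ_pos; have := p.loc_le.1
  have := fBound_nonneg (ballCard d p.par.L); have := p.g_pos
  have h0 : 0 ≤ p.par.rise := by unfold par; positivity
  have h1 : 0 ≤ lipErr (ballCard d p.par.L) p.par.g (Real.sqrt p.par.h) := by
    unfold lipErr; positivity
  unfold α e₀ η
  positivity

theorem α_le : p.α ≤ p.w / 2 := by
  have hL := p.Lam_pos
  have a1 : 700 * p.Lam * p.e₀ = p.w / 8 := by unfold e₀; field_simp; ring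
  have a2 : 26 * p.Lam * p.η = p.w / 16 := by unfold η; field_simp; ring
  have a3 : 6500 * p.Lam ^ 2 * p.par.rise ≤ p.w / 16 := p.rounds.rise_w
  have a4 : 26 * p.Lam * lipErr (ballCard d p.par.L) p.par.g (Real.sqrt p.par.h) ≤ p.w / 16 := by
    rw [p.lip_eq]; exact p.rounds.lip_w
  have a5 : 700 * p.Lam * (locErr p.par.g p.par.L * ((p.N : ℝ) + 2) ^ 16) ≤ p.w / 8 := by
    refine (mul_le_mul_of_nonneg_left (p.loc_le.2.trans ((half_le_self p.g_pos.le).trans p.g_le_inv))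
      (by positivity)).trans ?_
    rw [← div_eq_mul_inv, div_le_iff₀ (by positivity)]
    have := p.gap.lam
    change 5600 * p.Lam ≤ ((p.N : ℝ) + 2) * p.w at this
    linarith
  unfold α
  linarith [p.w_pos]

theorem rise_eq : p.par.rise = p.w * p.par.h := by
  have := p.eps_pos
  simp only [par, w, S]
  field_simp

theorem rise_total : (p.par.m : ℝ) * p.par.rise = p.γ := by
  have := p.m_pos
  simp only [par]
  field_simp

variable {V X : Type} [DecidableEq V] [Fintype X] [DecidableEq X]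

/-- The configuration of a system, a rule and cells. -/
noncomputable def cfg (Sy : Sys V r) (rule : Rule V r) (cell : V → X) (v : V) (k₀ : ℕ) :
    Cfg V X r :=
  ⟨Sy, p.par, rule, cell, v, k₀, 2 * (p.m + 1) * Fintype.card X + 1, ((p.N : ℝ) + 2) ^ 16, p.α,
    (1 + 5 * p.Lam / p.e₀) * (32 * p.Lam), 700 * p.Lam, 6500 * p.Lam ^ 2⟩

variable {Sy : Sys V r} {rule : Rule V r} {cell : V → X} {v : V} {k₀ : ℕ}

theorem ok (hdeg : ∀ u, (Sy.nb u).card ≤ d) (hrule : Sy.RuleOK p.par p.η rule)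
    (hinj : Set.InjOn cell (ball Sy.nb (k₀ + p.par.m * p.par.L) v)) :
    (p.cfg Sy rule cell v k₀).OK d p.e₀ p.η where
  deg := hdeg
  rule := hrule
  loc := localityStatement
  inj := hinj
  g_pos := p.g_pos
  g_le := p.g_le
  Lam_le := p.Lam_le
  Lam2_le := p.four_le.trans p.le_Lam2
  T0_nonneg := add_nonneg (rootLevel_nonneg r) p.γ_pos.le
  h_nonneg := by
    have := p.eps_pos
    show 0 ≤ (p.eps ^ 3)⁻¹ / (p.m : ℝ)
    positivity
  h_le := p.rounds.h_le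
  rise_nonneg := div_nonneg p.γ_pos.le (Nat.cast_nonneg _)
  top := by
    show rootLevel r + p.γ + (p.par.m : ℝ) * p.par.rise ≤ 7 / 2
    rw [p.rise_total]
    linarith [rootLevel_le p.r_pos, p.γ_le]
  rise_le := p.rounds.rise_g
  absorb := by
    show p.par.h * p.α ≤ p.par.rise / 2
    rw [p.rise_eq]
    have h0 : 0 ≤ p.par.h := by
      have := p.eps_pos
      show 0 ≤ (p.eps ^ 3)⁻¹ / (p.m : ℝ)
      positivity
    have := mul_le_mul_of_nonneg_left p.α_le h0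
    linarith
  loc_small := by
    show locErr p.par.g p.par.L * ((p.N : ℝ) + 2) ^ 16 ≤ p.Lam * p.par.g
    nlinarith [p.loc_le.2, p.g_pos, p.Lam_le]
  lip_small := by
    show lipErr (ballCard d p.par.L) p.par.g (Real.sqrt p.par.h) ≤ p.Lam * p.par.g / 4
    rw [p.lip_eq]
    exact p.rounds.lip_g
  lip_dom := by
    show (ballCard d p.par.L : ℝ) * (Real.sqrt (p.S / p.m) * fBound (ballCard d p.par.L)) ≤ _
    rw [mul_left_comm]
    exact p.rounds.dom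
  sign_small := p.rounds.sign
  jump := p.rounds.jump
  K_pos := Nat.succ_pos _
  e₀_pos := div_pos p.w_pos (mul_pos (by norm_num) p.Lam_pos)
  α_eq := rfl
  α_nonneg := p.α_nonneg
  cA_eq := rfl
  cRep_eq := rfl
  cLin_eq := rfl

theorem start : (p.cfg Sy rule cell v k₀).Start (2 / p.γ) := by
  have hγ := p.γ_pos
  have hrR : (0 : ℝ) < r := Nat.cast_pos.2 p.r_pos
  have hlaw : ∀ U : Finset V, LawOn (fun _ (_ : Fin r) => (1 : ℝ) / r) U := fun U u _ =>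
    ⟨fun _ => by positivity, by simp [Finset.sum_const, hrR.ne']⟩
  have hhalf : ∀ U : Finset V, Sy.Valid (fun _ _ => 1 / r) U fun _ => rootLevel r + p.γ / 2 :=
    fun U T _ => Sy.init T _ fun _ _ => lt_add_of_pos_right (rootLevel r) (half_pos hγ)
  refine ⟨p.r_pos, Sy.facts.valid_mono (hlaw _) (hhalf _) fun _ _ => ?_, fun u hu => ?_,
    p.gap.start.trans p.le_Lam2, ?_, div_pos hγ p.m_pos, ?_, ?_⟩
  · show rootLevel r + p.γ / 2 ≤ rootLevel r + p.γ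
    linarith
  · obtain ⟨q⟩ := exists_rep (hlaw _) (hhalf _) hu
    have e : shift (fun _ : V => rootLevel r + p.γ / 2) (p.γ / 2) =
        fun _ => rootLevel r + p.γ := by funext; simp [shift]; ring
    have h := q.eq (p.γ / 2) (by linarith)
    rw [e] at h
    refine le_of_eq_of_le h ?_
    calc ∑ i, q.m i / (p.γ / 2 + q.d i) ≤ ∑ i, q.m i / (p.γ / 2) :=
          Finset.sum_le_sum fun i _ => div_le_div_of_nonneg_left (q.m_nonneg i) (by linarith)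
            (by linarith [q.d_pos i])
      _ = 2 / p.γ := by rw [← Finset.sum_div, q.m_sum, one_div_div]
  · show 0 < (p.N + 2) ^ 5
    positivity
  · have := p.eps_pos; have := p.m_pos
    show 0 < (p.eps ^ 3)⁻¹ / (p.m : ℝ)
    positivity
  · show (p.m + 1) * (2 * (p.m + 1) * Fintype.card X + 1 + 1) * Fintype.card X ≤
      (2 * (p.m + 1) * Fintype.card X + 1) ^ 2
    set K := 2 * (p.m + 1) * Fintype.card X + 1 with hK
    calc (p.m + 1) * (K + 1) * Fintype.card X ≤ (p.m + 1) * (K + K) * Fintype.card X := by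
          gcongr; exact Nat.succ_pos _
      _ = K * (2 * (p.m + 1) * Fintype.card X) := by ring
      _ ≤ K ^ 2 := by rw [sq]; exact Nat.mul_le_mul_left _ (by omega)

open Classical in
theorem core_bound (hmarg : MarginalStatement) (hdeg : ∀ u, (Sy.nb u).card ≤ d)
    (hrule : Sy.RuleOK p.par p.η rule)
    (hinj : Set.InjOn cell (ball Sy.nb (k₀ + p.par.m * p.par.L) v)) :
    ∑ j : Fin p.par.m, ∑ σ : Fin p.par.m → X → Bool × Bool,
        (if Sy.Good k₀ (rootLevel r + 3 * γ₀) (qAt p.par rule (seeds cell σ) j) v then (0 : ℝ)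
          else 1) ≤
      (ballCard d k₀ : ℕ) * (4 * δ₀) * p.par.m *
        Fintype.card (Fin p.par.m → X → Bool × Bool) := by
  set C := p.cfg Sy rule cell v k₀ with hC'
  have hC : C.OK d p.e₀ p.η := p.ok hdeg hrule hinj
  have hS : C.Start (2 / p.γ) := p.start
  have hL := p.Lam_pos
  have hw := p.w_pos
  have hh : 0 < C.P.h := hS.h_pos
  have hm := p.m_pos
  obtain ⟨hθ, hK⟩ := C.const_bounds (x := (p.N : ℝ) + 2) (w := p.w) (δ₀ := δ₀) (S := p.S) (d := d)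
    (G := Real.exp (2 * p.S * (6500 * p.Lam ^ 2) * ((d : ℝ) + 2))) (Lam := p.Lam) (γ := p.γ)
    (R₀ := 2 / p.γ) rfl rfl (by show (((p.N + 2) ^ 5 : ℕ) : ℝ) = _; push_cast; rfl)
    p.rise_eq hh hw (by show p.S / (p.m : ℝ) * p.m = p.S; field_simp)
    le_rfl
    (by
      show 0 ≤ (1 + 5 * p.Lam / p.e₀) * (32 * p.Lam)
      have : 0 < p.e₀ := hC.e₀_pos
      positivity)
    (by show 0 ≤ 700 * p.Lam; positivity) (by show 0 ≤ 6500 * p.Lam ^ 2; positivity)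
    p.gap p.rounds.jump_small p.rounds.rep
  obtain ⟨hM, hM1⟩ := hmarg V X r C (Nat.succ_pos _)
  obtain ⟨-, hQ, -, hD, hgr⟩ := Cfg.consts_pos (d := d) hC hS
  have hg := hC.g_pos
  have hK0 : 0 ≤ 16 * C.bK d C.P.m / C.P.g := by unfold Cfg.bK; positivity
  have hκ : (16 * C.bK d C.P.m / C.P.g) ^ C.P.L ≤ δ₀ :=
    (pow_le_of_le_one hK0 (hK.trans (min_le_left _ _))
      (Nat.pos_iff_ne_zero.1 hS.L_pos)).trans (hK.trans (min_le_right _ _))
  have hloc : locErr C.P.g C.P.L * C.Lam2 ≤ C.P.Lam * C.P.g / 2 := by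
    have := p.loc_le.2
    have := mul_le_mul_of_nonneg_right p.Lam_le p.g_pos.le
    show locErr p.par.g p.par.L * ((p.N : ℝ) + 2) ^ 16 ≤ p.Lam * p.par.g / 2
    linarith
  have hgγ : C.P.g / 16 ≤ p.γ := by
    have h1 : ((p.N : ℝ) + 2)⁻¹ ≤ p.γ := by
      rw [inv_eq_one_div, div_le_iff₀ (by positivity), mul_comm]
      exact p.gap.gam
    have := p.g_le_inv
    show p.par.g / 16 ≤ p.γ
    linarith [p.g_pos]
  have hZ : C.P.T0 + C.P.m * C.P.rise + p.γ ≤ rootLevel r + 3 * γ₀ := by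
    show rootLevel r + p.γ + (p.par.m : ℝ) * p.par.rise + p.γ ≤ _
    rw [p.rise_total]
    linarith [p.γ_le₀]
  refine (Cfg.bad_sum_le hC hS hM hM1 hloc hgγ p.eps_le p.eps_pos (by have := p.γ_pos; positivity)
    hθ hκ hZ).trans (mul_le_mul_of_nonneg_right ?_ (Nat.cast_nonneg _))
  have hball : ((ball Sy.nb k₀ v).card : ℝ) ≤ (ballCard d k₀ : ℕ) :=
    Nat.cast_le.2 (card_ball_le _ hdeg _ _)
  have heps := p.eps_pos
  have hγ := p.γ_pos
  show ((ball Sy.nb k₀ v).card : ℝ) * (2 / (p.par.h * p.eps ^ 2) + p.par.m * δ₀ +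
    p.par.m * (2 / p.γ / p.Lam) + 4 / (p.par.rise * p.Lam) * (2 / p.γ)) ≤ _
  have hδ := p.δ₀_pos
  have b1 : 2 / (p.par.h * p.eps ^ 2) = p.par.m * (2 * p.eps) := by
    simp only [par, S]; field_simp
  have b4 : 4 / (p.par.rise * p.Lam) * (2 / p.γ) = p.par.m * (4 * (2 / p.γ) / (p.γ * p.Lam)) := by
    simp only [par]; field_simp
  rw [b1, b4]
  calc ((ball Sy.nb k₀ v).card : ℝ) * (p.par.m * (2 * p.eps) + p.par.m * δ₀ +
        p.par.m * (2 / p.γ / p.Lam) + p.par.m * (4 * (2 / p.γ) / (p.γ * p.Lam)))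
      ≤ (ballCard d k₀ : ℕ) * (p.par.m * δ₀ + p.par.m * δ₀ + p.par.m * δ₀ + p.par.m * δ₀) := by
        refine mul_le_mul hball ?_ (by positivity) (Nat.cast_nonneg _)
        have := p.eps_δ
        have := p.Lam_R
        have := p.Lam_drop
        gcongr
    _ = _ := by ring

end Pars

/-- Block C from the marginals. -/
theorem coreStatement_of_marginal (hmarg : MarginalStatement) : CoreStatement := by
  classical
  intro r d k₀ γ δ hr hγ hδ
  have hb : (0 : ℝ) < (ballCard d k₀ : ℕ) := by rw [ballCard]; push_cast; positivity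
  obtain ⟨p⟩ := exists_pars hr d hγ (show 0 < δ / (4 * (ballCard d k₀ : ℕ)) by positivity)
  refine ⟨p.par, k₀ + p.par.m * p.par.L, p.η, p.rounds.pos,
    div_pos p.w_pos (mul_pos (by norm_num) p.Lam_pos), p.g_pos, p.Lam_pos, p.eps_pos, ?_,
    p.rounds.h_le, ?_⟩
  · have := p.eps_pos
    show 0 ≤ (p.eps ^ 3)⁻¹ / (p.m : ℝ)
    positivity
  · intro V _ Sy hdeg rule hrule X _ _ cell v hinj
    refine (p.core_bound hmarg hdeg hrule hinj).trans (le_of_eq ?_)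
    rw [show ((ballCard d k₀ : ℕ) : ℝ) * (4 * (δ / (4 * (ballCard d k₀ : ℕ)))) = δ by field_simp]

end Vale.Agent.P078.Any
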