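import Vale.Agent.P078.Any.SysWindow
import Vale.Agent.P078.Cartan.Quad.Phi

/-!
The resolvent entry along the diagonal is a Stieltjes sum; bounds and signs.
-/

namespace Vale.Agent.P078.Any

open Matrix Function Polynomial
open Vale.Agent.P078.Cartan (ofR rootProd den PickLike RealPoly realPoly_of_eval_im pickLike_decomp
  sum_weight)
open Vale.Agent.P078.Quad (Fdet maskF maskEF pinch IsLaw weight echar roots)
open scoped ComplexOrder

set_option linter.unusedSectionVars false

variable {ι : Type*} [Fintype ι] [DecidableEq ι] {R : ℕ}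

theorem eval_root {G : Fin R → Matrix ι ι ℂ} (hG : ∀ c, (G c).IsHermitian) {w : ι → Fin R → ℝ}
    (hw : IsLaw w) {ρ : ℝ} (h : ρ ∈ roots G w) : (echar G w).eval (ρ : ℂ) = 0 := by
  rw [Quad.echar_eval_eq hG hw]
  exact Multiset.prod_eq_zero (Multiset.mem_map.2 ⟨ρ, h, sub_self _⟩)

theorem pos_of_roots_lt {G : Fin R → Matrix ι ι ℂ} (hG : ∀ c, (G c).IsHermitian)
    {w : ι → Fin R → ℝ} (hw : IsLaw w) (x : ℝ) (h : ∀ ρ ∈ roots G w, ρ < x) :
    0 < ((echar G w).eval (x : ℂ)).re := by
  rw [Quad.echar_eval_eq hG hw]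
  have e : rootProd (roots G w) (x : ℂ) = (((roots G w).map fun ρ => x - ρ).prod : ℝ) := by
    rw [rootProd]
    induction roots G w using Multiset.induction_on with
    | empty => simp
    | cons a s ih => simp [ih]
  rw [e, Complex.ofReal_re]
  refine Multiset.prod_pos ?_
  intro y hy
  obtain ⟨ρ, hρ, rfl⟩ := Multiset.mem_map.1 hy
  linarith [h ρ hρ]

theorem Fdet_norm_le {G : Fin R → Matrix ι ι ℂ} {w : ι → Fin R → ℝ} (hw : IsLaw w)
    (hent : ∀ c i j, ‖G c i j‖ ≤ 1) {x : ι → ℂ} (hx : ∀ i, ‖x i‖ ≤ 5) :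
    ‖Fdet G w x‖ ≤ 8 ^ Fintype.card ι * (Nat.factorial (Fintype.card ι) : ℝ) := by
  have hdet : ∀ s : ι → Fin R, ‖(diagonal x - pinch G s).det‖ ≤
      8 ^ Fintype.card ι * (Nat.factorial (Fintype.card ι) : ℝ) := fun s => by
    rw [det_apply]
    refine (norm_sum_le _ _).trans ((Finset.sum_le_sum (g := fun _ => (8 : ℝ) ^ Fintype.card ι)
      fun σ _ => ?_).trans (le_of_eq ?_))
    · rw [Units.smul_def, zsmul_eq_mul, norm_mul]
      have h1 : ‖((Equiv.Perm.sign σ : ℤ) : ℂ)‖ = 1 := by
        rcases Int.units_eq_one_or (Equiv.Perm.sign σ) with h | h <;> simp [h]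
      rw [h1, one_mul, norm_prod]
      refine (Finset.prod_le_prod (g := fun _ => (8 : ℝ)) (fun i _ => norm_nonneg _)
        fun i _ => ?_).trans (le_of_eq (by simp))
      refine (norm_sub_le _ _).trans ?_
      have hd : ‖diagonal x (σ i) i‖ ≤ 5 := by
        rw [diagonal_apply]
        split_ifs
        · exact hx _
        · simp
      have hp : ‖pinch G s (σ i) i‖ ≤ 1 := by
        simp only [pinch, Matrix.of_apply]
        split_ifs
        · exact hent _ _ _
        · simp
      linarith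
    · rw [Finset.sum_const, Finset.card_univ, Fintype.card_perm, nsmul_eq_mul, mul_comm]
  unfold Fdet
  refine (norm_sum_le _ _).trans ((Finset.sum_le_sum (g := fun s => (∏ i, w i (s i)) *
      (8 ^ Fintype.card ι * (Nat.factorial (Fintype.card ι) : ℝ))) fun s _ => ?_).trans
    (le_of_eq ?_))
  · rw [norm_mul, show ‖weight w s‖ = ∏ i, w i (s i) by
      simp [Cartan.weight, abs_of_nonneg ((hw _).1 _)]]
    exact mul_le_mul_of_nonneg_left (hdet s) (Finset.prod_nonneg fun i _ => (hw i).1 _)
  · rw [← Finset.sum_mul, ← Fintype.prod_sum fun i c => w i c,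
      Finset.prod_eq_one fun i _ => (hw i).2, one_mul]

/-- A window of positive matrices has no zero where all variables are negative. -/
theorem Fdet_neg_ne_zero {G : Fin R → Matrix ι ι ℂ} (hG : ∀ c, (G c).PosSemidef)
    {w : ι → Fin R → ℝ} (hw : IsLaw w) {x : ι → ℝ} (hx : ∀ i, x i < 0) :
    Fdet G w (ofR x) ≠ 0 := by
  set n := Fintype.card ι
  have hP : ∀ s : ι → Fin R, 0 < (diagonal (fun i => ((-x i : ℝ) : ℂ)) + pinch G s).det := fun s =>
    ((Matrix.PosDef.diagonal fun i => by
      rw [Complex.zero_lt_real]; linarith [hx i]).add_posSemidef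
        (Quad.posSemidef_pinch hG s)).det_pos
  have hneg : ∀ s : ι → Fin R, (diagonal (ofR x) - pinch G s).det =
      (-1) ^ n * (diagonal (fun i => ((-x i : ℝ) : ℂ)) + pinch G s).det := fun s => by
    rw [← det_neg]
    congr 1
    ext i j
    rcases eq_or_ne i j with rfl | h
    · simp [ofR]; ring
    · simp [h]
  intro h0
  simp only [Fdet, hneg, mul_left_comm _ ((-1 : ℂ) ^ n), ← Finset.mul_sum] at h0
  rcases mul_eq_zero.1 h0 with h | h
  · exact absurd h (pow_ne_zero _ (by norm_num))
  have hre := congrArg Complex.re h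
  obtain ⟨s₁, hs₁⟩ : ∃ s₁ : ι → Fin R, 0 < ∏ i, w i (s₁ i) := by
    by_contra hcon
    push Not at hcon
    have hsum : ∑ s : ι → Fin R, ∏ i, w i (s i) = 1 := by
      rw [← Fintype.prod_sum fun i c => w i c]
      exact Finset.prod_eq_one fun i _ => (hw i).2
    linarith [Finset.sum_nonpos fun s (_ : s ∈ Finset.univ) => hcon s]
  have hW : ∀ s : ι → Fin R, weight w s = ((∏ i, w i (s i) : ℝ) : ℂ) := fun s => by
    simp [Cartan.weight]
  simp only [Complex.re_sum, hW, Complex.re_ofReal_mul, Complex.zero_re] at hre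
  refine (Finset.sum_pos' (fun s _ => mul_nonneg (Finset.prod_nonneg fun i _ => (hw i).1 _)
    (Complex.lt_def.1 (hP s)).1.le) ⟨s₁, Finset.mem_univ _, mul_pos hs₁ ?_⟩).ne' hre
  exact (Complex.lt_def.1 (hP s₁)).1

/-- The resolvent entry of a valid window along the diagonal. -/
theorem stieltjes_window {G : Fin R → Matrix ι ι ℂ} (hG : ∀ c, (G c).PosSemidef)
    {w : ι → Fin R → ℝ} (hw : IsLaw w) {z : ι → ℝ} (hv : Valid G w z Finset.univ) (u : ι) :
    ∃ (n : ℕ) (m d : Fin n → ℝ), (∀ i, 0 ≤ m i) ∧ ∑ i, m i = 1 ∧ (∀ i, 0 < d i) ∧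
      (∀ D, (∀ v ∈ (Finset.univ : Finset ι), z v ≤ D) → ∀ i, d i ≤ D) ∧
      ∀ t, 0 ≤ t →
        win G w (fun v => z v + t) (Finset.univ.erase u) /
          win G w (fun v => z v + t) Finset.univ = ∑ i, m i / (t + d i) := by
  classical
  set a : ι → ℂ := fun i => ((z i - 1 : ℝ) : ℂ)
  set G' : Fin R → Matrix ι ι ℂ := fun c => G c - diagonal a
  have hG' : ∀ c, (G' c).IsHermitian := fun c =>
    (hG c).1.sub (isHermitian_diagonal_of_self_adjoint _ (funext fun i => by simp [a]))
  have hm' : ∀ c, (maskEF G' u c).IsHermitian := fun c => Cartan.isHermitian_mask (hG' c) _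
  have hfull : maskF G (Finset.univ : Finset ι) = G := by
    funext c; ext i j; simp [maskF, Cartan.mask]
  have hPval : ∀ t : ℝ, (echar G' w).eval ((t + 1 : ℝ) : ℂ) =
      (win G w (fun v => z v + t) Finset.univ : ℂ) := fun t => by
    rw [Quad.echar_eval, Fdet_shift, win, hfull, Finset.piecewise_univ]
    rw [show ((fun _ => ((t + 1 : ℝ) : ℂ)) + a : ι → ℂ) = ofR fun v => z v + t by
      funext i; simp [a, ofR]; ring]
    exact Complex.ext (by simp) (by simpa using Fdet_real (fun c => (hG c).1) w _)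
  have hMval : ∀ t : ℝ, 0 ≤ t → (Quad.minor G' w u).eval ((t + 1 : ℝ) : ℂ) =
      (win G w (fun v => z v + t) (Finset.univ.erase u) : ℂ) := fun t ht => by
    have h1 : ((t + 1 : ℝ) : ℂ) ≠ 0 := by exact_mod_cast (by linarith : t + 1 ≠ 0)
    have h2 := congrArg (Polynomial.eval ((t + 1 : ℝ) : ℂ)) (Quad.X_mul_minor G' w u)
    rw [eval_mul, eval_X, Quad.echar_eval, Quad.Fdet_maskE] at h2
    rw [mul_left_cancel₀ h1 h2, Quad.lead, maskEF_shift, Fdet_shift]
    rw [show update (fun _ => ((t + 1 : ℝ) : ℂ)) u 1 + update a u 0 =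
      ofR ((Finset.univ.erase u).piecewise (fun v => z v + t) 1) by
      funext i
      rcases eq_or_ne i u with rfl | h
      · simp [ofR]
      · simp [a, ofR, h]; ring]
    have him := Fdet_real (G := maskEF G u)
      (fun c => Cartan.isHermitian_mask (hG c).1 _) w
      ((Finset.univ.erase u).piecewise (fun v => z v + t) 1)
    exact Complex.ext rfl (by simpa using him)
  obtain ⟨n, τ, hτ⟩ : ∃ (n : ℕ) (τ : Fin n → ℝ), Finset.univ.val.map τ = roots G' w :=
    ⟨(roots G' w).toList.length, (roots G' w).toList.get, by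
      rw [Fin.univ_val_map, List.ofFn_get, Multiset.coe_toList]⟩
  have hn : n = Fintype.card ι := by
    rw [← Quad.card_roots G' hw, ← hτ]
    simp
  have hP : echar G' w = ∏ l, (X - C (τ l : ℂ)) := by
    refine Polynomial.funext fun x => ?_
    rw [Quad.echar_eval_eq hG' hw, rootProd, ← hτ, Multiset.map_map, eval_prod]
    simp [List.prod_ofFn]
  have hden : den (roots G' w) = echar G' w := by
    rw [hP, ← hτ, den, Multiset.map_map]; rfl
  have hreal : RealPoly (Quad.minor G' w u) := by
    refine mul_left_cancel₀ (X_ne_zero : (X : ℂ[X]) ≠ 0) ?_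
    conv_lhs => rw [show (X : ℂ[X]) = (X : ℂ[X]).map (starRingEnd ℂ) by simp, ← Polynomial.map_mul]
    rw [Quad.X_mul_minor]
    exact realPoly_of_eval_im fun x => by
      rw [Quad.echar_eval_eq hm' hw, rootProd]
      induction roots (maskEF G' u) w using Multiset.induction_on with
      | empty => simp
      | cons a s ih => simp [Multiset.map_cons, Complex.mul_im, ih]
  have hpick : PickLike (roots G' w) (Quad.minor G' w u) := by
    refine ⟨0, fun x hx => ?_⟩
    have hx0 : x ≠ 0 := fun e => by simp [e] at hx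
    have h : 0 < (x * (echar G' w).eval x / (echar (maskEF G' u) w).eval x).im := by
      rw [Quad.echar_eval, Quad.echar_eval]
      exact Quad.ratio_pos hG' hw u fun _ => hx
    rw [← Quad.X_mul_minor, eval_mul, eval_X, mul_div_mul_left _ _ hx0] at h
    rw [hden, ← inv_div, Complex.inv_im]
    exact div_nonpos_of_nonpos_of_nonneg (by linarith) (Complex.normSq_nonneg _)
  have hdeg : (Quad.minor G' w u).degree < n := by
    refine (degree_lt_iff_coeff_zero _ _).2 fun k hk => ?_
    rw [Quad.minor, coeff_divX]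
    exact coeff_eq_zero_of_natDegree_lt (by rw [Quad.echar_natDegree _ hw]; omega)
  obtain ⟨ρ, hρ, hres⟩ := Cartan.PickLike.residues τ (Quad.minor G' w u)
    (hτ ▸ pickLike_decomp _ _ hreal hpick) hdeg
  have hsum : ∑ i, ρ i = 1 := by
    have h := Quad.Phi_one G' hw u
    rw [Quad.Phi, hres, Finset.mul_sum, Quad.rem_sum, hP, Complex.re_sum] at h
    rw [← h]
    refine Finset.sum_congr rfl fun k _ => ?_
    rw [mul_left_comm, Quad.rem_C_mul, Quad.rem_erase]
    simp
  have hτmem : ∀ i, τ i ∈ roots G' w := fun i =>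
    hτ ▸ Multiset.mem_map_of_mem τ (Finset.mem_univ i)
  have hzero : ∀ i, win G w (fun v => z v + (τ i - 1)) Finset.univ = 0 := fun i => by
    have h := eval_root hG' hw (hτmem i)
    have := hPval (τ i - 1)
    rw [sub_add_cancel, h] at this
    exact_mod_cast this.symm
  have hτ1 : ∀ i, τ i < 1 := fun i => by
    by_contra h
    push Not at h
    exact ((hv.le (z' := fun v => z v + (τ i - 1)) fun v _ => by linarith) _ subset_rfl).ne'
      (hzero i)
  refine ⟨n, ρ, fun i => 1 - τ i, hρ, hsum, fun i => by linarith [hτ1 i], fun D hD i => ?_,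
    fun t ht => ?_⟩
  · by_contra h
    push Not at h
    refine Fdet_neg_ne_zero hG hw (x := fun v => z v + (τ i - 1))
      (fun v => by linarith [hD v (Finset.mem_univ v)]) ?_
    have := hzero i
    rw [win, hfull, Finset.piecewise_univ] at this
    exact Complex.ext (by simpa using this) (by simpa using Fdet_real (fun c => (hG c).1) w _)
  · have e1 := hPval t
    have e2 := hMval t ht
    rw [hP, eval_prod] at e1
    rw [hres, eval_finsetSum] at e2
    simp only [eval_mul, eval_C, eval_prod, eval_sub, eval_X, ← Complex.ofReal_sub,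
      ← Complex.ofReal_prod, ← Complex.ofReal_mul, ← Complex.ofReal_sum,
      Complex.ofReal_inj] at e1 e2
    rw [← e1, ← e2, Finset.sum_div]
    refine Finset.sum_congr rfl fun k _ => ?_
    have hne : ∀ l, t + 1 - τ l ≠ 0 := fun l => by linarith [hτ1 l]
    rw [← Finset.mul_prod_erase _ _ (Finset.mem_univ k),
      mul_div_mul_right _ _ (Finset.prod_ne_zero_iff.2 fun l _ => hne l)]
    ring_nf

end Vale.Agent.P078.Any
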