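import Vale.Agent.P078.Any.Basic
import Vale.Agent.P078.Any.SysStieltjes
import Vale.Agent.P078.Cartan.Quad.RootBound
import Vale.Agent.P078.Cartan.Quad.SetFun

/-!
Kernels give systems of expected determinants.
-/

namespace Vale.Agent.P078.Any

open Matrix Function
open Vale.Agent.P078.Cartan (ofR dirac)
open Vale.Agent.P078.Quad (Fdet maskF IsLaw fam colour side base)
open scoped ComplexOrder

set_option linter.unusedSectionVars false

variable {V : Type} [DecidableEq V] {r : ℕ}

/-- The family of the states on a window. -/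
noncomputable def Kern.winFam (K : Kern V) (r : ℕ) (U : Finset V) :
    Fin (r * 2) → Matrix U U ℂ :=
  fam (K.mat U) fun _ _ => false

/-- The laws of the states on a window. -/
noncomputable def stateLaw (U : Finset V) (w : V → Fin r → ℝ) : U → Fin (r * 2) → ℝ :=
  fun a s => w a (colour s) / 2

variable (K : Kern V) {w : V → Fin r → ℝ} {U T : Finset V} {z : V → ℝ}

theorem isLaw_stateLaw (hw : LawOn w U) : IsLaw (stateLaw U w) := fun a => by
  refine ⟨fun s => div_nonneg ((hw a a.2).1 _) two_pos.le, ?_⟩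
  rw [Quad.sum_state]
  simp only [stateLaw, Quad.colour_state, Fin.sum_univ_two, add_halves]
  exact (hw a a.2).2

theorem Kern.fam_psd (U : Finset V) (s : Fin (r * 2)) :
    (K.winFam r U s).PosSemidef ∧ (1 - K.winFam r U s).PosSemidef :=
  Quad.posSemidef_fam (K.posSemidef U).1 (K.posSemidef U).2 (K.diag U) _ s

theorem Kern.fam_herm (U : Finset V) (s : Fin (r * 2)) : (K.winFam r U s).IsHermitian :=
  (K.fam_psd U s).1.1

theorem Kern.winFam_diag (U : Finset V) (s : Fin (r * 2)) (i : U) :
    K.winFam r U s i i = 1 / 2 := by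
  rw [Kern.winFam, Quad.fam_diag, base]
  split_ifs
  · exact K.diag U i
  · rw [Matrix.sub_apply, Matrix.one_apply_eq, K.diag]; norm_num

theorem Kern.F_univ (w : V → Fin r → ℝ) (U : Finset V) (z : V → ℝ) :
    K.F w U z = win (K.winFam r U) (stateLaw U w) (fun a => z a) Finset.univ := by
  have : maskF (K.winFam r U) Finset.univ = K.winFam r U := by
    funext c; ext i j; simp [maskF, Cartan.mask]
  rw [win, this, Kern.F, Finset.piecewise_univ]
  rfl

/-- Subwindows inside a window. -/
theorem Kern.F_eq (hw : LawOn w U) (h : T ⊆ U) (z : V → ℝ) :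
    K.F w T z = win (K.winFam r U) (stateLaw U w) (fun a => z a) (T.subtype (· ∈ U)) := by
  rw [win_window_eq _ (isLaw_stateLaw hw)]
  let e : T ≃ ↥(T.subtype (· ∈ U)) :=
    { toFun := fun a => ⟨⟨a, h a.2⟩, Finset.mem_subtype.2 a.2⟩
      invFun := fun a => ⟨a.1.1, Finset.mem_subtype.1 a.2⟩
      left_inv := fun _ => rfl
      right_inv := fun _ => rfl }
  obtain ⟨d, hd, hmat⟩ := K.gauge T U h
  rw [← Fdet_equiv_conj _ _ _ e d hd, Kern.F]
  congr 2
  funext c
  have hm : K.mat T = Matrix.of fun i j => star (d i) *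
      ((K.mat U).submatrix (fun a : T => (⟨a, h a.2⟩ : U)) fun a : T => ⟨a, h a.2⟩) i j * d j := by
    ext i j; exact hmat i j
  rw [hm, Quad.fam_conj _ d hd]
  have hs := Quad.fam_submatrix (r := r) (K.mat U) (fun _ _ => false)
    (g := fun a : T => (⟨a, h a.2⟩ : U)) fun a b hab => Subtype.ext (congrArg (fun x : U => (x : V)) hab)
  rw [hs]
  rfl

theorem subtype_erase (U T : Finset V) (u : U) :
    (T.erase u).subtype (· ∈ U) = (T.subtype (· ∈ U)).erase u := by
  ext ⟨a, ha⟩
  simp [Subtype.ext_iff]

theorem restrict_update (U : Finset V) (z : V → ℝ) (u : U) (a : ℝ) :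
    (fun b : U => update z u a b) = update (fun b : U => z b) u a := by
  funext b
  rcases eq_or_ne b u with rfl | h
  · simp
  · rw [update_of_ne h, update_of_ne fun e => h (Subtype.ext e)]

theorem stateLaw_update (U : Finset V) (w : V → Fin r → ℝ) (u : U) (f : Fin r → ℝ) :
    stateLaw U (update w u f) = update (stateLaw U w) u fun s => f (colour s) / 2 := by
  funext b s
  simp only [stateLaw, update_apply, Subtype.ext_iff]
  split_ifs <;> rfl

theorem Kern.norm_entry_le (U : Finset V) (s : Fin (r * 2)) (i j : U) :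
    ‖K.winFam r U s i j‖ ≤ 1 := by
  set M := K.winFam r U s with hM
  rcases eq_or_ne i j with rfl | hij
  · rw [hM, K.winFam_diag]; norm_num
  have hp := ((K.fam_psd (r := r) U s).1.submatrix ![i, j]).det_nonneg
  rw [det_fin_two] at hp
  have hji : M j i = star (M i j) := ((K.fam_herm U s).apply j i).symm
  simp only [submatrix_apply, cons_val_zero, cons_val_one, ← hM] at hp
  rw [hM, K.winFam_diag, K.winFam_diag, ← hM, hji, RCLike.star_def, Complex.mul_conj] at hp
  have h2 := (Complex.le_def.1 hp).1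
  simp at h2
  norm_num at h2
  nlinarith [norm_nonneg (M i j), Complex.normSq_eq_norm_sq (M i j)]

theorem Kern.valid (hw : LawOn w U) (h : ∀ T ⊆ U, 0 < K.F w T z) :
    Valid (K.winFam r U) (stateLaw U w) (fun a => z a) Finset.univ := by
  intro A _
  have hA : A.map (Embedding.subtype _) ⊆ U := fun a ha => by
    obtain ⟨b, -, rfl⟩ := Finset.mem_map.1 ha
    exact b.2
  have := h _ hA
  rw [K.F_eq hw hA] at this
  convert this using 2
  ext ⟨a, ha⟩
  simp [ha]

/-- A kernel as a system. -/
theorem Kern.uniform_ne_zero (hr : 0 < r) (T : Finset V) {x : ℝ}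
    (hx : (1 / Real.sqrt (2 * r) + Real.sqrt (1 / 2)) ^ 2 < x) :
    (Quad.echar (K.winFam r T) (stateLaw T fun _ _ => 1 / r)).eval (x : ℂ) ≠ 0 := by
  set e := (Fintype.equivFin T).symm
  have hu : stateLaw T (fun (_ : V) (_ : Fin r) => (1 : ℝ) / r) ∘ e =
      Cartan.uniformLaw (Fin (Fintype.card T)) (r * 2) := by
    funext i s
    simp [stateLaw, Cartan.uniformLaw]
    ring
  have := Quad.familyRootBound (Fintype.card T) (r * 2) (by omega)
    (fun c => (K.winFam r T c).submatrix e e) (1 / 2) (by norm_num)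
    (fun c => (K.fam_psd T c).1.submatrix e)
    (fun c => by
      have := (K.fam_psd (r := r) T c).2.submatrix e
      convert this using 1
      ext i j
      simp [Matrix.one_apply, e.injective.eq_iff])
    (fun c i => by simp [K.winFam_diag]) x (by push_cast; rwa [mul_comm (r : ℝ) 2])
  rwa [← hu, Quad.echar_reindex] at this

theorem Kern.init_pos (hr : 0 < r) (U : Finset V) (z : V → ℝ)
    (hz : ∀ v ∈ U, (1 / Real.sqrt (2 * r) + Real.sqrt (1 / 2)) ^ 2 < z v) :
    0 < K.F (fun (_ : V) (_ : Fin r) => (1 : ℝ) / r) U z := by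
  have hl : ∀ T : Finset V, LawOn (fun (_ : V) (_ : Fin r) => (1 : ℝ) / r) T := fun T a _ =>
    ⟨fun _ => by positivity, by simp [Finset.sum_const, hr.ne']⟩
  obtain ⟨x, hx, hxz⟩ : ∃ x, (1 / Real.sqrt (2 * r) + Real.sqrt (1 / 2)) ^ 2 < x ∧
      ∀ v ∈ U, x ≤ z v := by
    rcases U.eq_empty_or_nonempty with rfl | hne
    · exact ⟨_, lt_add_one _, by simp⟩
    · exact ⟨U.inf' hne z, (Finset.lt_inf'_iff _).2 hz, fun v hv => Finset.inf'_le _ hv⟩
  have hv := K.valid (hl U) (z := fun _ => x) fun T _ => by
    have e : K.F (fun (_ : V) (_ : Fin r) => (1 : ℝ) / r) T (fun _ => x) =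
        ((Quad.echar (K.winFam r T) (stateLaw T fun _ _ => 1 / r)).eval (x : ℂ)).re := by
      rw [Quad.echar_eval]; rfl
    rw [e]
    refine pos_of_roots_lt (fun c => K.fam_herm T c) (isLaw_stateLaw (hl T)) x fun ρ hρ => ?_
    by_contra hle
    push Not at hle
    exact K.uniform_ne_zero hr T (hx.trans_le hle)
      (eval_root (fun c => K.fam_herm T c) (isLaw_stateLaw (hl T)) hρ)
  have := (hv.le (z' := fun a : U => z a) fun a _ => hxz a a.2) Finset.univ subset_rfl
  rwa [← K.F_univ] at this

/-- Block A: kernels give systems. -/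
theorem sysStatement : SysStatement := by
  intro V _ K r hr
  refine ⟨{ nb := K.nb, nb_symm := K.nb_symm, F := K.F, congr := ?_, empty := ?_, single := ?_,
            affine := ?_, split := ?_, mult := ?_, rayleigh := ?_, bound := ?_, stieltjes := ?_,
            init := ?_ }, rfl, rfl⟩
  · intro w w' U z z' h1 h2
    unfold Kern.F
    congr 2
    · funext a s; rw [h1 a a.2]
    · funext a; rw [h2 a a.2]
  · intro w z
    simp [Kern.F, Fdet, Cartan.weight]
  · intro w z u hw
    rw [Kern.F]
    show (Fdet (K.winFam r {u}) (stateLaw {u} w) _).re = _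
    have : ∀ s : ({u} : Finset V) → Fin (r * 2),
        (diagonal (fun a : ({u} : Finset V) => (z a : ℂ)) - Quad.pinch (K.winFam r {u}) s).det =
          (z u : ℂ) - 1 / 2 := fun s => by
      rw [det_unique]
      simp only [Matrix.sub_apply, diagonal_apply_eq, Quad.pinch, Matrix.of_apply, if_true,
        K.winFam_diag]
      rfl
    unfold Fdet
    simp only [this, ← Finset.sum_mul, Cartan.sum_weight (isLaw_stateLaw hw), one_mul]
    simp
  · intro w U z hw u hu a
    rw [K.F_univ, K.F_univ, K.F_eq hw (Finset.erase_subset u U), subtype_erase U U ⟨u, hu⟩,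
      restrict_update U z ⟨u, hu⟩, win_update _ _ _ (Finset.mem_univ (⟨u, hu⟩ : U))]
    congr 3
    ext x; simp [x.2]
  · intro w U z u hu
    simp only [K.F_univ]
    rw [win_split _ (stateLaw U w) _ _ ⟨u, hu⟩, Quad.sum_state]
    refine Finset.sum_congr rfl fun c _ => ?_
    rw [stateLaw_update U w ⟨u, hu⟩, win_split _ (update (stateLaw U w) _ _) _ _ ⟨u, hu⟩,
      Quad.sum_state]
    simp only [update_self, update_idem, Quad.colour_state, Fin.sum_univ_two, stateLaw,
      Pi.single_apply]
    rw [Finset.sum_eq_single c (fun b _ hb => by simp [hb]) (by simp), if_pos rfl]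
    ring
  · intro w A B z hw hd hgap
    rw [K.F_eq hw subset_rfl, K.F_eq hw Finset.subset_union_left,
      K.F_eq hw Finset.subset_union_right]
    rw [← win_union (fun c => K.fam_herm _ c) (isLaw_stateLaw hw)]
    · congr 1
      ext a; simpa using Finset.mem_union.1 a.2
    · exact Finset.disjoint_left.2 fun a ha hb =>
        Finset.disjoint_left.1 hd (Finset.mem_subtype.1 ha) (Finset.mem_subtype.1 hb)
    · intro c a ha b hb
      rw [Finset.mem_subtype] at ha hb
      have hab : a ≠ b := fun e => Finset.disjoint_left.1 hd ha (e ▸ hb)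
      have h1 : (b : V) ∉ K.nb a := hgap a ha b hb
      have h2 : (a : V) ∉ K.nb b := fun h => h1 (K.nb_symm _ _ h)
      exact ⟨Quad.fam_apply_eq_zero _ c hab (K.range_one _ a b hab h1),
        Quad.fam_apply_eq_zero _ c hab.symm (K.range_one _ b a hab.symm h2)⟩
  · intro w U z hw u hu v hv huv
    have key := win_rayleigh (G := K.winFam r U) (z := fun a => z a) (fun c => K.fam_herm U c)
      (isLaw_stateLaw hw) (Finset.mem_univ (⟨u, hu⟩ : U)) (Finset.mem_univ (⟨v, hv⟩ : U))
      fun e => huv (congrArg Subtype.val e)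
    have eU : U.subtype (· ∈ U) = Finset.univ := by ext x; simp [x.2]
    rw [K.F_eq hw subset_rfl, K.F_eq hw (Finset.erase_subset u U),
      K.F_eq hw (Finset.erase_subset v U),
      K.F_eq hw ((Finset.erase_subset v _).trans (Finset.erase_subset u U)),
      subtype_erase U (U.erase u) ⟨v, hv⟩, subtype_erase U U ⟨u, hu⟩, subtype_erase U U ⟨v, hv⟩,
      eU]
    exact key
  · intro w U z hw hz
    rw [Kern.F]
    show |(Fdet (K.winFam r U) (stateLaw U w) _).re| ≤ _
    refine (Complex.abs_re_le_norm _).trans ((Fdet_norm_le (isLaw_stateLaw hw)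
      (fun c => K.norm_entry_le U c) fun a => (Complex.norm_real _).trans_le (hz a a.2)).trans
      (le_of_eq ?_))
    simp
  · intro w U z hw hv u hu
    obtain ⟨n, m, d, hm, hsum, hd, hD, hR⟩ := stieltjes_window (fun c => (K.fam_psd U c).1)
      (isLaw_stateLaw hw) (K.valid hw hv) ⟨u, hu⟩
    refine ⟨n, m, d, hm, hsum, hd, fun D hD' => hD D fun a _ => hD' a a.2, fun t ht => ?_⟩
    rw [K.F_eq hw (Finset.erase_subset u U), K.F_univ w U, subtype_erase U U ⟨u, hu⟩,
      show U.subtype (· ∈ U) = Finset.univ by ext x; simp [x.2]]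
    exact hR t ht
  · exact fun U z hz => K.init_pos hr U z hz

end Vale.Agent.P078.Any
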