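import Vale.Agent.P078.Any.Child
import Vale.Agent.P078.Any.SysKern

/-!
The end of the colouring: decoupling every point in all states but one keeps a level above the
roots, and the expected determinant is then one determinant, so the pinched window lies below
that level over the weight of the state.
-/

namespace Vale.Agent.P078.Any

open Matrix Function
open Vale.Agent.P078.Cartan (ofR dirac)
open Vale.Agent.P078.Quad (Fdet pinch IsLaw weight decF decF_apply maskF mask isHermitian_decF)
open scoped ComplexOrder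

set_option linter.unusedSectionVars false

variable {ι : Type*} [Fintype ι] [DecidableEq ι] {R : ℕ}

/-- The family in which the points of `S` are decoupled outside their state `σ`. -/
def decAll (G : Fin R → Matrix ι ι ℂ) (σ : ι → Fin R) (S : Finset ι) : Fin R → Matrix ι ι ℂ :=
  fun s => Matrix.of fun i j =>
    if i ≠ j ∧ ((i ∈ S ∧ s ≠ σ i) ∨ (j ∈ S ∧ s ≠ σ j)) then 0 else G s i j

/-- The matrix left at the end: entries between points in the same state. -/
def endMat (G : Fin R → Matrix ι ι ℂ) (σ : ι → Fin R) : Matrix ι ι ℂ :=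
  Matrix.of fun i j => if i ≠ j ∧ σ i = σ j then G (σ i) i j else 0

theorem decAll_empty (G : Fin R → Matrix ι ι ℂ) (σ : ι → Fin R) : decAll G σ ∅ = G := by
  funext s; ext i j; simp [decAll]

theorem decAll_insert (G : Fin R → Matrix ι ι ℂ) (σ : ι → Fin R) (S : Finset ι) (u : ι) :
    decAll G σ (insert u S) =
      decF (decAll G σ S) u (Finset.univ.filter fun s => s ≠ σ u) := by
  funext s
  ext i j
  simp only [decAll, decF_apply, Matrix.of_apply, Finset.mem_filter, Finset.mem_univ, true_and,
    Finset.mem_insert]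
  by_cases hij : i = j
  · subst hij; simp
  · simp only [ne_eq, hij, not_false_eq_true, true_and]
    split_ifs <;> first | rfl | aesop

theorem decAll_diag (G : Fin R → Matrix ι ι ℂ) (σ : ι → Fin R) (S : Finset ι) (s : Fin R)
    (i : ι) : decAll G σ S s i i = G s i i := by
  simp [decAll]

theorem isHermitian_decAll {G : Fin R → Matrix ι ι ℂ} (hG : ∀ c, (G c).IsHermitian)
    (σ : ι → Fin R) (S : Finset ι) : ∀ c, (decAll G σ S c).IsHermitian := by
  induction S using Finset.induction with
  | empty => rw [decAll_empty]; exact hG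
  | @insert u S _ ih => rw [decAll_insert]; exact isHermitian_decF ih u _

theorem isHermitian_endMat {G : Fin R → Matrix ι ι ℂ} (hG : ∀ c, (G c).IsHermitian)
    (σ : ι → Fin R) : (endMat G σ).IsHermitian := by
  ext i j
  simp only [conjTranspose_apply, endMat, Matrix.of_apply]
  by_cases h : i ≠ j ∧ σ i = σ j
  · rw [if_pos h, if_pos ⟨h.1.symm, h.2.symm⟩, h.2]
    exact (hG _).apply i j
  · rw [if_neg h, if_neg fun h' => h ⟨h'.1.symm, h'.2.symm⟩, star_zero]

/-- Decoupling keeps a level above the roots. -/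
theorem Valid.decF {G : Fin R → Matrix ι ι ℂ} {w : ι → Fin R → ℝ} {z : ι → ℝ} {U : Finset ι}
    (hG : ∀ c, (G c).IsHermitian) (hd : ∀ c i, G c i i = 1 / 2) (hw : IsLaw w)
    (h : Valid G w z U) (u : ι) (Z : Finset (Fin R)) : Valid (decF G u Z) w z U := by
  intro T hT
  by_cases hu : u ∈ T
  · refine lt_of_lt_of_le (h T hT) ?_
    rw [win_split G w z T u, win_split (Quad.decF G u Z) w z T u]
    refine Finset.sum_le_sum fun c _ => mul_le_mul_of_nonneg_left ?_ ((hw u).1 c)
    rw [win_decF_child G hw Z hu (hd c u)]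
    split_ifs
    · rw [win_child (h.mono hT) u c, mul_comm (z u - 1 / 2)]
      exact mul_le_mul_of_nonneg_left
        (by linarith [half_le_childH hG hw (h.mono hT) hu (hd c u)])
        ((h.mono hT).erase_pos u).le
    · exact le_rfl
  · rw [win_decF_of_notMem G Z hu]
    exact h T hT

theorem Valid.decAll {G : Fin R → Matrix ι ι ℂ} {w : ι → Fin R → ℝ} {z : ι → ℝ} {U : Finset ι}
    (hG : ∀ c, (G c).IsHermitian) (hd : ∀ c i, G c i i = 1 / 2) (hw : IsLaw w)
    (h : Valid G w z U) (σ : ι → Fin R) (S : Finset ι) : Valid (decAll G σ S) w z U := by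
  induction S using Finset.induction with
  | empty => rw [decAll_empty]; exact h
  | @insert u S _ ih =>
    rw [decAll_insert]
    exact ih.decF (isHermitian_decAll hG σ S) (fun c i => by rw [decAll_diag]; exact hd c i) hw u _

/-- A determinant that is affine in independent rows averages to the determinant of the means. -/
theorem sum_weight_det (w : ι → Fin R → ℝ) (f : ι → Fin R → ι → ℂ) :
    ∑ s : ι → Fin R, weight w s * (Matrix.of fun i => f i (s i)).det =
      (Matrix.of fun i => ∑ c, (w i c : ℂ) • f i c).det := by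
  classical
  have key := (Matrix.detRowAlternating (n := ι) (R := ℂ)).toMultilinearMap.map_sum
    (fun i c => (w i c : ℂ) • f i c)
  refine Eq.trans ?_ key.symm
  refine Finset.sum_congr rfl fun s _ => ?_
  exact ((Matrix.detRowAlternating (n := ι) (R := ℂ)).toMultilinearMap.map_smul_univ
    (fun i => (w i (s i) : ℂ)) (fun i => f i (s i))).symm

theorem det_scalar_sub_comm (A B : Matrix ι ι ℂ) (y : ℂ) :
    (scalar ι y - A * B).det = (scalar ι y - B * A).det := by
  rw [← eval_charpoly, ← eval_charpoly, charpoly_mul_comm]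

/-- The expected determinant of the decoupled family is one determinant. -/
theorem Fdet_decAll {G : Fin R → Matrix ι ι ℂ} (hd : ∀ c i, G c i i = 1 / 2)
    {w : ι → Fin R → ℝ} (hw : IsLaw w) (σ : ι → Fin R) (y : ℝ) :
    Fdet (decAll G σ Finset.univ) w (fun _ => ((y : ℂ) + 1 / 2)) =
      (scalar ι (y : ℂ) - diagonal (fun i => (w i (σ i) : ℂ)) * endMat G σ).det := by
  set B := endMat G σ with hB
  have step : ∀ s : ι → Fin R,
      (diagonal (fun _ => (y : ℂ) + 1 / 2) - pinch (decAll G σ Finset.univ) s).det =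
        (Matrix.of fun i => fun j => (scalar ι (y : ℂ)) i j -
          (if s i = σ i then (1 : ℂ) else 0) * B i j).det := by
    intro s
    set P : Matrix ι ι ℂ := diagonal fun i => if s i = σ i then (1 : ℂ) else 0 with hP
    have e1 : diagonal (fun _ => (y : ℂ) + 1 / 2) - pinch (decAll G σ Finset.univ) s =
        scalar ι (y : ℂ) - (P * B) * P := by
      ext i j
      simp only [Matrix.sub_apply, diagonal_apply, pinch, Matrix.of_apply, hP, mul_diagonal,
        diagonal_mul, Matrix.scalar_apply, hB, endMat, decAll, Finset.mem_univ, true_and]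
      rcases eq_or_ne i j with rfl | hij
      · simp [hd]
      · by_cases hi : s i = σ i <;> by_cases hj : s j = σ j <;>
          simp [hij, hi, hj] <;> aesop
    have e2 : P * (P * B) = P * B := by
      rw [← Matrix.mul_assoc, hP, diagonal_mul_diagonal]
      congr 2
      funext i
      split_ifs <;> simp
    rw [e1, det_scalar_sub_comm, e2]
    congr 1
    ext i j
    simp [hP, diagonal_mul]
  unfold Fdet
  simp only [step]
  rw [sum_weight_det w fun i c j => (scalar ι (y : ℂ)) i j -
    (if c = σ i then (1 : ℂ) else 0) * B i j]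
  congr 1
  ext i j
  simp only [Matrix.of_apply, Finset.sum_apply, Pi.smul_apply, smul_eq_mul, mul_sub,
    Finset.sum_sub_distrib, Matrix.sub_apply, diagonal_mul]
  congr 1
  · rw [← Finset.sum_mul, ← Complex.ofReal_sum, (hw i).2, Complex.ofReal_one, one_mul]
  · rw [Finset.sum_eq_single (σ i) (fun c _ hc => by simp [hc])
      (fun h => absurd (Finset.mem_univ _) h)]
    simp

/-- A bound on the eigenvalues bounds a Hermitian matrix. -/
theorem posSemidef_real_smul_one_sub {K : Matrix ι ι ℂ} (hK : K.IsHermitian) {c : ℝ}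
    (h : ∀ i, hK.eigenvalues i ≤ c) : (c • (1 : Matrix ι ι ℂ) - K).PosSemidef := by
  set U : Matrix ι ι ℂ := (hK.eigenvectorUnitary : Matrix ι ι ℂ) with hU
  have hUU : U * Uᴴ = 1 := Unitary.coe_mul_star_self hK.eigenvectorUnitary
  have hKU : K = U * diagonal (fun i => ((hK.eigenvalues i : ℝ) : ℂ)) * Uᴴ := by
    conv_lhs => rw [hK.spectral_theorem]
    rfl
  have e : c • (1 : Matrix ι ι ℂ) - K =
      U * diagonal (fun i => ((c - hK.eigenvalues i : ℝ) : ℂ)) * Uᴴ := by
    have e1 : c • (1 : Matrix ι ι ℂ) = U * diagonal (fun _ => (c : ℂ)) * Uᴴ := by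
      rw [← smul_one_eq_diagonal, Matrix.mul_smul, Matrix.mul_one, Matrix.smul_mul, hUU,
        Complex.coe_smul]
    rw [e1]
    conv_lhs => arg 2; rw [hKU]
    rw [← Matrix.sub_mul, ← Matrix.mul_sub, diagonal_sub]
    simp
  rw [e]
  exact (PosSemidef.diagonal fun i => Complex.zero_le_real.2 (sub_nonneg.2 (h i))
    ).mul_mul_conjTranspose_same U

/-- The bound at the end: the final matrix is below the level over the weight. -/
theorem endMat_le {G : Fin R → Matrix ι ι ℂ} (hG : ∀ c, (G c).IsHermitian)
    (hd : ∀ c i, G c i i = 1 / 2) {w : ι → Fin R → ℝ} (hw : IsLaw w) {Z : ℝ}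
    (h : Valid G w (fun _ => Z) Finset.univ) (σ : ι → Fin R) {a : ℝ} (ha : 0 < a)
    (hwa : ∀ i, a ≤ w i (σ i)) (hZ : 1 / 2 ≤ Z) :
    (((Z - 1 / 2) / a : ℝ) • (1 : Matrix ι ι ℂ) - endMat G σ).PosSemidef := by
  set B := endMat G σ with hB
  set D : Matrix ι ι ℂ := diagonal fun i => ((Real.sqrt (w i (σ i)) : ℝ) : ℂ) with hD
  set K : Matrix ι ι ℂ := D * B * D with hKdef
  have hpos : ∀ i, 0 < w i (σ i) := fun i => lt_of_lt_of_le ha (hwa i)
  have hDD : D * D = diagonal fun i => (w i (σ i) : ℂ) := by
    rw [hD, diagonal_mul_diagonal]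
    congr 1
    funext i
    rw [← Complex.ofReal_mul, Real.mul_self_sqrt (hpos i).le]
  have hDh : D.IsHermitian := isHermitian_diagonal_of_self_adjoint _
    (funext fun i => by simp)
  have hK : K.IsHermitian := by
    have := isHermitian_conjTranspose_mul_mul D (isHermitian_endMat hG σ)
    rwa [hDh.eq] at this
  have hv := h.decAll hG hd hw σ Finset.univ
  have hdet : ∀ y : ℝ, Z - 1 / 2 ≤ y → (scalar ι (y : ℂ) - K).det ≠ 0 := by
    intro y hy
    have hvy : Valid (decAll G σ Finset.univ) w (fun _ => y + 1 / 2) Finset.univ :=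
      hv.le fun i _ => by linarith
    have h1 := hvy Finset.univ subset_rfl
    have e0 : maskF (decAll G σ Finset.univ) Finset.univ = decAll G σ Finset.univ := by
      funext c; ext i j; simp [maskF, Cartan.mask]
    rw [win, e0, Finset.piecewise_univ] at h1
    have e1 : ofR (fun _ : ι => y + 1 / 2) = fun _ => ((y : ℂ) + 1 / 2) := by
      funext i; simp [ofR]
    rw [e1, Fdet_decAll hd hw σ y] at h1
    have e2 : (scalar ι (y : ℂ) - diagonal (fun i => (w i (σ i) : ℂ)) * B).det =
        (scalar ι (y : ℂ) - K).det := by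
      rw [← hDD, Matrix.mul_assoc, det_scalar_sub_comm]
    rw [← hB, e2] at h1
    intro h0
    rw [h0] at h1
    simp at h1
  have heig : ∀ i, hK.eigenvalues i ≤ Z - 1 / 2 := by
    intro i
    by_contra hi
    push Not at hi
    apply hdet _ hi.le
    rw [← eval_charpoly, hK.charpoly_eq, Polynomial.eval_prod]
    exact Finset.prod_eq_zero (Finset.mem_univ i) (by simp)
  refine PosSemidef.of_dotProduct_mulVec_nonneg ?_ fun x => ?_
  · exact (IsHermitian.smul isHermitian_one (IsSelfAdjoint.all _)).sub (isHermitian_endMat hG σ)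
  set v : ι → ℂ := fun i => x i / ((Real.sqrt (w i (σ i)) : ℝ) : ℂ) with hv'
  have hDv : D *ᵥ v = x := by
    funext i
    have : ((Real.sqrt (w i (σ i)) : ℝ) : ℂ) ≠ 0 :=
      Complex.ofReal_ne_zero.2 (Real.sqrt_pos.2 (hpos i)).ne'
    simp [hD, hv', mulVec_diagonal, mul_div_cancel₀ _ this]
  have hps : (((Z - 1 / 2 : ℝ)) • (1 : Matrix ι ι ℂ) - K).PosSemidef := by
    refine posSemidef_real_smul_one_sub hK heig
  have h2 := hps.dotProduct_mulVec_nonneg v
  have e3 : star v ⬝ᵥ (K *ᵥ v) = star x ⬝ᵥ (B *ᵥ x) := by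
    rw [hKdef, ← mulVec_mulVec, ← mulVec_mulVec, hDv, dotProduct_mulVec, ← hDh.eq,
      ← star_mulVec, hDv]
  simp only [sub_mulVec, smul_mulVec, one_mulVec, dotProduct_sub, dotProduct_smul] at h2 ⊢
  rw [e3] at h2
  refine le_trans h2 (sub_le_sub_right ?_ _)
  simp only [dotProduct, Pi.star_apply, RCLike.star_def, ← Complex.normSq_eq_conj_mul_self,
    ← Complex.ofReal_sum, Complex.real_smul, ← Complex.ofReal_mul]
  rw [Complex.real_le_real, div_mul_eq_mul_div, mul_div_assoc]
  refine mul_le_mul_of_nonneg_left ?_ (sub_nonneg.2 hZ)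
  rw [Finset.sum_div]
  refine Finset.sum_le_sum fun i _ => ?_
  rw [hv']
  simp only [map_div₀, Complex.normSq_ofReal]
  rw [Real.mul_self_sqrt (hpos i).le]
  exact div_le_div_of_nonneg_left (Complex.normSq_nonneg _) ha (hwa i)

/-- The end: a valid level and a colour of weight one third pave the window. -/
theorem endgameStatement : EndgameStatement := by
  intro V _ K r w U Z κ hr hw hpos hκ
  set M := K.mat U with hM
  set G : Fin (r * 2) → Matrix U U ℂ := K.winFam r U with hGdef
  set w' : U → Fin (r * 2) → ℝ := stateLaw U w with hw'def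
  have hw' : IsLaw w' := isLaw_stateLaw hw
  have hd : ∀ c i, G c i i = 1 / 2 := K.winFam_diag U
  have hG : ∀ c, (G c).IsHermitian := K.fam_herm U
  have hvalid : Valid G w' (fun _ => Z) Finset.univ := K.valid (z := fun _ => Z) hw hpos
  rcases isEmpty_or_nonempty U with hU | ⟨⟨u⟩⟩
  · have h0 : ∀ A : Matrix U U ℂ, A.PosSemidef := fun A => by
      rw [Subsingleton.elim A 0]
      exact PosSemidef.zero
    exact ⟨h0 _, h0 _⟩
  have hZ : 1 / 2 ≤ Z := by
    have h := hvalid {u} (Finset.subset_univ _)
    have : Subsingleton ({u} : Finset U) :=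
      ⟨fun a b => Subtype.ext ((Finset.mem_singleton.1 a.2).trans (Finset.mem_singleton.1 b.2).symm)⟩
    let u' : ({u} : Finset U) := ⟨u, Finset.mem_singleton_self u⟩
    rw [win_window_eq G hw', Fdet] at h
    have e1 : ∀ s : ({u} : Finset U) → Fin (r * 2),
        (diagonal (fun _ : ({u} : Finset U) => (Z : ℂ)) -
          pinch (fun c => (G c).submatrix (fun i : ({u} : Finset U) => (i : U))
            fun i : ({u} : Finset U) => (i : U)) s).det = (Z : ℂ) - 1 / 2 := fun s => by
      rw [det_eq_elem_of_subsingleton _ u']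
      simp [pinch, hd]
    simp only [e1, ← Finset.sum_mul, Cartan.sum_weight (fun i : ({u} : Finset U) => hw' i),
      one_mul, Complex.sub_re, Complex.ofReal_re] at h
    norm_num at h
    linarith
  have hend : ∀ b : Fin 2, (((6 * (Z - 1 / 2) : ℝ)) • (1 : Matrix U U ℂ) -
      endMat G fun a : U => Quad.state (κ a) b).PosSemidef := fun b => by
    have := endMat_le hG hd hw' hvalid (fun a : U => Quad.state (κ a) b) (a := 1 / 6)
      (by norm_num) (fun a => by
        simp only [hw'def, stateLaw, Quad.colour_state]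
        linarith [hκ a a.2]) hZ
    rwa [show (Z - 1 / 2) / (1 / 6) = 6 * (Z - 1 / 2) by ring] at this
  have hiff : ∀ (b : Fin 2) (i j : U),
      Quad.state (κ i) b = Quad.state (κ j) b ↔ κ i = κ j := fun b i j =>
    ⟨fun h => by simpa [Quad.colour_state] using congrArg Quad.colour h, fun h => by rw [h]⟩
  have hd2 := fun i => K.diag U i
  constructor
  · convert hend 0 using 1
    ext i j
    rcases eq_or_ne i j with rfl | hij
    · simp [endMat, Cartan.pinch, hd2, hM, Complex.real_smul]
    · simp [endMat, Cartan.pinch, hij, hiff, hGdef, Kern.winFam, Quad.fam, Quad.base, Quad.side_state, hM]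
  · convert hend 1 using 1
    ext i j
    rcases eq_or_ne i j with rfl | hij
    · simp [endMat, Cartan.pinch, hd2, hM, Complex.real_smul]
    · simp [endMat, Cartan.pinch, hij, hiff, hGdef, Kern.winFam, Quad.fam, Quad.base, Quad.side_state, hM]
      split_ifs <;> simp

end Vale.Agent.P078.Any
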