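import Vale.Agent.P078.Any.Basic

/-!
Monotonicity of resolvent entries and self energies. Only affinity in each variable, the mixture
over the colour of a point and the Rayleigh inequality are used.
-/

namespace Vale.Agent.P078.Any

open Function Finset

set_option linter.unusedSectionVars false

/-- The axioms that the facts use. -/
structure Pre (V : Type) [DecidableEq V] (r : ℕ) where
  /-- The expected determinant of a window. -/
  F : (V → Fin r → ℝ) → Finset V → (V → ℝ) → ℝ
  congr : ∀ (w w' : V → Fin r → ℝ) (U : Finset V) (z z' : V → ℝ),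
    (∀ u ∈ U, w u = w' u) → (∀ u ∈ U, z u = z' u) → F w U z = F w' U z'
  empty : ∀ w z, F w ∅ z = 1
  single : ∀ w z u, LawOn w {u} → F w {u} z = z u - 1 / 2
  affine : ∀ w U z, LawOn w U → ∀ u ∈ U, ∀ a : ℝ,
    F w U (update z u a) = F w U z + (a - z u) * F w (U.erase u) z
  split : ∀ w U z, ∀ u ∈ U,
    F w U z = ∑ c, w u c * F (update w u (Pi.single c 1)) U z
  rayleigh : ∀ w U z, LawOn w U → ∀ u ∈ U, ∀ v ∈ U, u ≠ v →
    F w U z * F w ((U.erase u).erase v) z ≤ F w (U.erase u) z * F w (U.erase v) z

variable {V : Type} [DecidableEq V] {r : ℕ}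

/-- A system gives the axioms that the facts use. -/
def Sys.pre (S : Sys V r) : Pre V r :=
  ⟨S.F, S.congr, S.empty, S.single, S.affine, S.split, S.rayleigh⟩

theorem LawOn.mono {w : V → Fin r → ℝ} {U T : Finset V} (h : LawOn w U) (hT : T ⊆ U) :
    LawOn w T := fun u hu => h u (hT hu)

theorem LawOn.dirac {w : V → Fin r → ℝ} {U : Finset V} (h : LawOn w U) (u : V) (c : Fin r) :
    LawOn (update w u (Pi.single c 1)) U := fun v hv => by
  rcases eq_or_ne v u with rfl | hne
  · rw [update_self]
    refine ⟨fun c' => ?_, Fintype.sum_pi_single' c 1⟩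
    rw [Pi.single_apply]
    split_ifs <;> norm_num
  · rw [update_of_ne hne]
    exact h v hv

namespace Pre

variable (S : Pre V r) {w : V → Fin r → ℝ} {U T : Finset V} {z z' : V → ℝ} {u v : V}

/-- All subwindows are positive. -/
def Valid (w : V → Fin r → ℝ) (U : Finset V) (z : V → ℝ) : Prop :=
  ∀ T ⊆ U, 0 < S.F w T z

/-- The resolvent entry. -/
noncomputable def Res (w : V → Fin r → ℝ) (U : Finset V) (z : V → ℝ) (u : V) : ℝ :=
  S.F w (U.erase u) z / S.F w U z

/-- The self energy of a colour. -/
noncomputable def hc (w : V → Fin r → ℝ) (U : Finset V) (z : V → ℝ) (u : V) (c : Fin r) : ℝ :=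
  z u - S.F (update w u (Pi.single c 1)) U z / S.F w (U.erase u) z

variable {S}

theorem Valid.mono (h : S.Valid w U z) (hT : T ⊆ U) : S.Valid w T z :=
  fun A hA => h A (hA.trans hT)

variable (S)

/-- The window without a point ignores the law and the variable there. -/
theorem F_erase_congr (w : V → Fin r → ℝ) (U : Finset V) (z : V → ℝ) (u : V) (f : Fin r → ℝ)
    (a : ℝ) : S.F (update w u f) (U.erase u) (update z u a) = S.F w (U.erase u) z :=
  S.congr _ _ _ _ _ (fun x hx => update_of_ne (ne_of_mem_erase hx) _ _)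
    fun x hx => update_of_ne (ne_of_mem_erase hx) _ _

theorem F_erase_law (w : V → Fin r → ℝ) (U : Finset V) (z : V → ℝ) (u : V) (f : Fin r → ℝ) :
    S.F (update w u f) (U.erase u) z = S.F w (U.erase u) z :=
  S.congr _ _ _ _ _ (fun x hx => update_of_ne (ne_of_mem_erase hx) _ _) fun _ _ => rfl

theorem F_erase_var (w : V → Fin r → ℝ) (U : Finset V) (z : V → ℝ) (u : V) (a : ℝ) :
    S.F w (U.erase u) (update z u a) = S.F w (U.erase u) z :=
  S.congr _ _ _ _ _ (fun _ _ => rfl) fun x hx => update_of_ne (ne_of_mem_erase hx) _ _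

theorem erase_comm' (U : Finset V) (u v : V) : (U.erase u).erase v = (U.erase v).erase u := by
  ext x
  simp only [Finset.mem_erase]
  tauto

/-- A change of coordinates on the window, one at a time. -/
theorem coord_induction (U : Finset V) (z' : V → ℝ) (P : (V → ℝ) → Prop)
    (hcongr : ∀ a b : V → ℝ, (∀ x ∈ U, a x = b x) → P a → P b)
    (step : ∀ a : V → ℝ, ∀ v ∈ U, a v ≤ z' v → P a → P (update a v (z' v)))
    (z : V → ℝ) (hle : ∀ x ∈ U, z x ≤ z' x) (h0 : P z) : P z' := by
  have key : ∀ s : Finset V, s ⊆ U → P (s.piecewise z' z) := by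
    intro s
    induction s using Finset.induction with
    | empty => intro _; simpa using h0
    | @insert x s hx ih =>
      intro hsU
      rw [Finset.piecewise_insert]
      refine step _ x (hsU (mem_insert_self x s)) ?_ (ih ((subset_insert x s).trans hsU))
      rw [Finset.piecewise_eq_of_notMem _ _ _ hx]
      exact hle x (hsU (mem_insert_self x s))
  exact hcongr _ _ (fun x hx => Finset.piecewise_eq_of_mem _ _ _ hx) (key U subset_rfl)

theorem valid_update (hw : LawOn w U) (h : S.Valid w U z) {a : ℝ} (ha : z u ≤ a) :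
    S.Valid w U (update z u a) := by
  intro T hT
  by_cases hu : u ∈ T
  · rw [S.affine w T z (hw.mono hT) u hu a]
    have h1 := h T hT
    have h2 := h (T.erase u) ((erase_subset u T).trans hT)
    have := mul_nonneg (sub_nonneg.2 ha) h2.le
    linarith
  · rw [S.congr w w T (update z u a) z (fun _ _ => rfl)
      fun x hx => update_of_ne (fun e : x = u => hu (e ▸ hx)) _ _]
    exact h T hT

theorem valid_mono (hw : LawOn w U) (h : S.Valid w U z) (hle : ∀ x ∈ U, z x ≤ z' x) :
    S.Valid w U z' :=
  coord_induction U z' (fun a => S.Valid w U a)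
    (fun a b hab ha T hT => by
      rw [← S.congr w w T a b (fun _ _ => rfl) fun x hx => hab x (hT hx)]
      exact ha T hT)
    (fun _ _ _ hav ha => S.valid_update hw ha hav) z hle h

theorem res_congr {a b : V → ℝ} (h : ∀ x ∈ U, a x = b x) :
    S.Res w U a u = S.Res w U b u := by
  rw [Res, Res, S.congr w w U a b (fun _ _ => rfl) h,
    S.congr w w (U.erase u) a b (fun _ _ => rfl) fun x hx => h x (mem_of_mem_erase hx)]

theorem res_update (hw : LawOn w U) (h : S.Valid w U z) (hu : u ∈ U) (hv : v ∈ U) {a : ℝ}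
    (ha : z v ≤ a) : S.Res w U (update z v a) u ≤ S.Res w U z u := by
  have hU := h U subset_rfl
  have hUu := h (U.erase u) (erase_subset u U)
  have hUv := h (U.erase v) (erase_subset v U)
  have hd : 0 ≤ a - z v := sub_nonneg.2 ha
  have hden : 0 < S.F w U (update z v a) := by
    rw [S.affine w U z hw v hv a]
    have := mul_nonneg hd hUv.le
    linarith
  unfold Res
  rw [div_le_div_iff₀ hden hU, S.affine w U z hw v hv a]
  rcases eq_or_ne v u with rfl | hne
  · rw [S.F_erase_var]
    nlinarith [mul_nonneg (mul_nonneg hd hUv.le) hUu.le]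
  · rw [S.affine w (U.erase u) z (hw.mono (erase_subset u U)) v (mem_erase.2 ⟨hne, hv⟩) a]
    have hr := S.rayleigh w U z hw u hu v hv (Ne.symm hne)
    nlinarith [mul_le_mul_of_nonneg_left hr hd]

theorem res_anti (hw : LawOn w U) (h : S.Valid w U z) (hle : ∀ x ∈ U, z x ≤ z' x) (hu : u ∈ U) :
    S.Res w U z' u ≤ S.Res w U z u :=
  (coord_induction U z' (fun a => S.Valid w U a ∧ S.Res w U a u ≤ S.Res w U z u)
    (fun a b hab ha => ⟨fun T hT => by
        rw [← S.congr w w T a b (fun _ _ => rfl) fun x hx => hab x (hT hx)]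
        exact ha.1 T hT, by rw [← S.res_congr hab]; exact ha.2⟩)
    (fun a v hv hav ha => ⟨S.valid_update hw ha.1 hav,
      (S.res_update hw ha.1 hu hv hav).trans ha.2⟩) z hle ⟨h, le_rfl⟩).2

theorem res_window_step (hw : LawOn w U) (h : S.Valid w U z) (hu : u ∈ U) (hv : v ∈ U)
    (hne : u ≠ v) : S.Res w (U.erase v) z u ≤ S.Res w U z u := by
  have hU := h U subset_rfl
  have hUv := h (U.erase v) (erase_subset v U)
  unfold Res
  rw [div_le_div_iff₀ hUv hU, erase_comm' U v u]
  linarith [S.rayleigh w U z hw u hu v hv hne]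

theorem res_window (hw : LawOn w U) (h : S.Valid w U z) (hT : T ⊆ U) (hu : u ∈ T) :
    S.Res w T z u ≤ S.Res w U z u := by
  induction U using Finset.strongInduction with
  | _ U ih =>
    rcases eq_or_ne T U with rfl | hne
    · exact le_rfl
    · obtain ⟨v, hv, hvT⟩ := Finset.exists_of_ssubset (Finset.ssubset_iff_subset_ne.2 ⟨hT, hne⟩)
      have huv : u ≠ v := fun e => hvT (e ▸ hu)
      exact (ih _ (erase_ssubset hv) (hw.mono (erase_subset v U)) (h.mono (erase_subset v U))
        (subset_erase.2 ⟨hT, hvT⟩)).trans (S.res_window_step hw h (hT hu) hv huv)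

theorem res_single (hw : LawOn w {u}) : S.Res w {u} z u = 1 / (z u - 1 / 2) := by
  rw [Res, erase_singleton, S.empty, S.single w z u hw]

theorem res_lower (hw : LawOn w U) (h : S.Valid w U z) (hu : u ∈ U) :
    1 / (z u - 1 / 2) ≤ S.Res w U z u := by
  rw [← S.res_single (hw.mono (singleton_subset_iff.2 hu))]
  exact S.res_window hw h (singleton_subset_iff.2 hu) (mem_singleton_self u)

theorem res_pos (h : S.Valid w U z) : 0 < S.Res w U z u :=
  div_pos (h _ (erase_subset u U)) (h U subset_rfl)

theorem hc_update_self (hw : LawOn w U) (hu : u ∈ U) (hF : S.F w (U.erase u) z ≠ 0) (a : ℝ)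
    (c : Fin r) : S.hc w U (update z u a) u c = S.hc w U z u c := by
  unfold hc
  rw [update_self, S.F_erase_var, S.affine _ U z (hw.dirac u c) u hu a, S.F_erase_law]
  field_simp
  ring

theorem hc_congr {a b : V → ℝ} (h : ∀ x ∈ U, a x = b x) (hu : u ∈ U) (c : Fin r) :
    S.hc w U a u c = S.hc w U b u c := by
  rw [hc, hc, h u hu, S.congr _ _ U a b (fun _ _ => rfl) h,
    S.congr w w (U.erase u) a b (fun _ _ => rfl) fun x hx => h x (mem_of_mem_erase hx)]

theorem hc_window_step (hw : LawOn w U) (h : S.Valid w (U.erase u) z) (hu : u ∈ U) (hv : v ∈ U)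
    (hne : u ≠ v) (c : Fin r) : S.hc w (U.erase v) z u c ≤ S.hc w U z u c := by
  have h1 := h (U.erase u) subset_rfl
  have h2 := h ((U.erase u).erase v) (erase_subset v _)
  have hr := S.rayleigh _ U z (hw.dirac u c) u hu v hv hne
  rw [S.F_erase_law, erase_comm' U u v, S.F_erase_law, ← erase_comm' U u v] at hr
  unfold hc
  rw [erase_comm' U v u]
  refine sub_le_sub_left ?_ _
  rw [div_le_div_iff₀ h1 h2]
  linarith

theorem hc_window (hw : LawOn w U) (hT : T ⊆ U) (hu : u ∈ T) (h : S.Valid w (U.erase u) z)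
    (c : Fin r) : S.hc w T z u c ≤ S.hc w U z u c := by
  induction U using Finset.strongInduction with
  | _ U ih =>
    rcases eq_or_ne T U with rfl | hne
    · exact le_rfl
    · obtain ⟨v, hv, hvT⟩ := Finset.exists_of_ssubset (Finset.ssubset_iff_subset_ne.2 ⟨hT, hne⟩)
      have huv : u ≠ v := fun e => hvT (e ▸ hu)
      exact (ih _ (erase_ssubset hv) (hw.mono (erase_subset v U))
        (subset_erase.2 ⟨hT, hvT⟩) (h.mono (erase_subset_erase u (erase_subset v U)))).trans
          (S.hc_window_step hw h (hT hu) hv huv c)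

theorem hc_ge (hw : LawOn w U) (hu : u ∈ U) (h : S.Valid w (U.erase u) z) (c : Fin r) :
    1 / 2 ≤ S.hc w U z u c := by
  refine le_trans ?_ (S.hc_window hw (singleton_subset_iff.2 hu) (mem_singleton_self u) h c)
  rw [hc, erase_singleton, S.empty,
    S.single _ z u ((hw.mono (singleton_subset_iff.2 hu)).dirac u c)]
  linarith

theorem hc_step (hw : LawOn w U) (hu : u ∈ U) (h : S.Valid w (U.erase u) z) (hv : v ∈ U)
    (hne : v ≠ u) {a : ℝ} (ha : z v ≤ a) (c : Fin r) :
    S.hc w U (update z v a) u c ≤ S.hc w U z u c := by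
  have h1 := h (U.erase u) subset_rfl
  have h2 := h ((U.erase u).erase v) (erase_subset v _)
  have hd : 0 ≤ a - z v := sub_nonneg.2 ha
  have hr := S.rayleigh _ U z (hw.dirac u c) u hu v hv (Ne.symm hne)
  rw [S.F_erase_law, erase_comm' U u v, S.F_erase_law, ← erase_comm' U u v] at hr
  have hden : 0 < S.F w (U.erase u) (update z v a) := by
    rw [S.affine w _ z (hw.mono (erase_subset u U)) v (mem_erase.2 ⟨hne, hv⟩) a]
    have := mul_nonneg hd h2.le
    linarith
  unfold hc
  rw [update_of_ne (Ne.symm hne)]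
  refine sub_le_sub_left ?_ _
  rw [div_le_div_iff₀ h1 hden, S.affine w _ z (hw.mono (erase_subset u U)) v
    (mem_erase.2 ⟨hne, hv⟩) a, S.affine _ U z (hw.dirac u c) v hv a]
  nlinarith [mul_le_mul_of_nonneg_left hr hd]

theorem hc_anti (hw : LawOn w U) (hu : u ∈ U) (h : S.Valid w (U.erase u) z)
    (hle : ∀ x ∈ U, x ≠ u → z x ≤ z' x) (c : Fin r) :
    S.hc w U z' u c ≤ S.hc w U z u c := by
  have hU' : LawOn w (U.erase u) := hw.mono (erase_subset u U)
  have key : S.Valid w (U.erase u) (update z' u (z u)) ∧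
      S.hc w U (update z' u (z u)) u c ≤ S.hc w U z u c := by
    refine coord_induction U (update z' u (z u))
      (fun a => S.Valid w (U.erase u) a ∧ S.hc w U a u c ≤ S.hc w U z u c)
      (fun a b hab ha => ⟨fun T hT => by
          rw [← S.congr w w T a b (fun _ _ => rfl)
            fun x hx => hab x (mem_of_mem_erase (hT hx))]
          exact ha.1 T hT, by rw [← S.hc_congr hab hu]; exact ha.2⟩)
      (fun a v hv hav ha => ?_) z (fun x hx => ?_) ⟨h, le_rfl⟩
    · refine ⟨S.valid_update hU' ha.1 hav, ?_⟩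
      rcases eq_or_ne v u with rfl | hne
      · rw [S.hc_update_self hw hu (ha.1 _ subset_rfl).ne']
        exact ha.2
      · exact (S.hc_step hw hu ha.1 hv hne hav c).trans ha.2
    · rcases eq_or_ne x u with rfl | hne
      · rw [update_self]
      · rw [update_of_ne hne]; exact hle x hx hne
  have e := S.hc_update_self hw hu (key.1 _ subset_rfl).ne' (z' u) c
  rw [update_idem, update_eq_self] at e
  rw [e]
  exact key.2

theorem hc_sum (hw : LawOn w U) (hu : u ∈ U) (h : S.Valid w (U.erase u) z) :
    ∑ c, w u c * S.hc w U z u c = z u - 1 / S.Res w U z u := by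
  simp only [hc, mul_sub]
  rw [Finset.sum_sub_distrib, ← Finset.sum_mul, (hw u hu).2, one_mul, Res, one_div_div,
    S.split w U z u hu, Finset.sum_div]
  congr 1
  exact Finset.sum_congr rfl fun c _ => (mul_div_assoc _ _ _).symm

end Pre

/-- The facts of a system. -/
theorem Sys.facts (S : Sys V r) : Facts S where
  valid_mono := fun hw h hle => S.pre.valid_mono hw h hle
  res_anti := fun hw h hle hu => S.pre.res_anti hw h hle hu
  res_window := fun hw h hT hu => S.pre.res_window hw h hT hu
  res_lower := fun hw h hu => S.pre.res_lower hw h hu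
  hc_ge := fun hw hu h c => S.pre.hc_ge hw hu h c
  hc_anti := fun hw hu h hle c => S.pre.hc_anti hw hu h hle c
  hc_window := fun hw hT hu h c => S.pre.hc_window hw hT hu h c
  hc_sum := fun hw hu h => S.pre.hc_sum hw hu h

/-- Block B, the facts. -/
theorem factsStatement : FactsStatement := fun _ _ _ S => S.facts

end Vale.Agent.P078.Any
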