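import Vale.Agent.P078.Any.Moments

/-!
The failures of a round: large shifts, large resolvent entries, or steep ones are rare.
-/

namespace Vale.Agent.P078.Any

open Finset Function

set_option linter.unusedSectionVars false

variable {V X : Type} [DecidableEq V] [Fintype X] [DecidableEq X] {r : ℕ}

/-- At most two heavy colours leave one of weight at least a third. -/
theorem exists_third {r : ℕ} {eps : ℝ} {w : Fin r → ℝ} (h1 : ∑ c, w c = 1) (he0 : 0 ≤ eps)
    (he : eps * r ≤ 1 / 3) (h3 : ¬ Three eps w) : ∃ c, 1 / 3 ≤ w c := by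
  classical
  by_contra hcon
  push Not at hcon
  set H := univ.filter fun c => eps < w c with hH
  have hcard : H.card ≤ 2 := by
    by_contra h
    obtain ⟨a, b, c, ha, hb, hc, hab, hac, hbc⟩ := Finset.two_lt_card_iff.1 (not_le.1 h)
    simp only [hH, mem_filter, mem_univ, true_and] at ha hb hc
    exact h3 ⟨a, b, c, hab, hac, hbc, ha, hb, hc⟩
  have hA : ∑ c ∈ H, w c ≤ H.card * (1 / 3 : ℝ) := by
    rw [← nsmul_eq_mul]
    exact Finset.sum_le_card_nsmul _ _ _ fun c _ => (hcon c).le
  have hB : ∑ c ∈ univ.filter (fun c => ¬ eps < w c), w c ≤ r * eps := by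
    refine (Finset.sum_le_card_nsmul _ _ eps fun c hc => le_of_not_gt (mem_filter.1 hc).2).trans ?_
    rw [nsmul_eq_mul]
    refine mul_le_mul_of_nonneg_right ?_ he0
    exact_mod_cast (card_filter_le _ _).trans (le_of_eq (Finset.card_fin r))
  have hsplit := Finset.sum_filter_add_sum_filter_not univ (fun c => eps < w c) w
  rw [← hH, h1] at hsplit
  rcases Nat.lt_or_ge H.card 2 with h | h
  · have : (H.card : ℝ) ≤ 1 := by exact_mod_cast (by omega : H.card ≤ 1)
    linarith
  · have h2 : H.card = 2 := by omega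
    obtain ⟨a, b, hab, hHab⟩ := Finset.card_eq_two.1 h2
    rw [hHab, Finset.sum_pair hab] at hsplit
    linarith [hcon a, hcon b]

namespace Cfg

variable (C : Cfg V X r)

/-- The state after the first rise of a round. -/
noncomputable def started (s : St V X r) : St V X r :=
  { s with T := s.T + C.P.rise / 4, dirty := false }

/-- A bound of the failure at one point: its move, and three rare events. -/
noncomputable def failBound (i n : ℕ) (s : St V X r) (u : V) : ℝ :=
  (if (C.rule i s.q0 u).isSome = true then 1 else 0) + (16 * C.Kmax s u / C.P.g) ^ (n + 1) +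
    C.RP u s / C.P.Lam + 4 / (C.P.rise * C.P.Lam) * (C.RP u s - C.RP u (C.started s))

variable {C} {d : ℕ} {e₀ η R₀ : ℝ} (hC : C.OK d e₀ η) (hS : C.Start R₀) {M : ℕ}

include hC

theorem started_le {i : ℕ} {s : St V X r} (hs : C.AtStart i s) (u : V) :
    0 ≤ C.RP u (C.started s) ∧ C.RP u (C.started s) ≤ C.RP u s := by
  have hl : LawOn s.q s.W := hs.base.q_eq ▸ law_next hC i hs.base.law _ _
  refine ⟨RP_nonneg hC (base_raise hC hs.base (by linarith [hC.rise_nonneg])) u, ?_⟩
  unfold RP started
  dsimp only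
  split_ifs with hu
  · exact C.S.facts.res_anti hl hs.base.valid
      (fun v _ => by simp only [St.z, St.ktot]; linarith [hC.rise_nonneg]) hu
  · exact le_rfl

theorem failBound_nonneg {i n : ℕ} {s : St V X r} (hs : C.AtStart i s) (u : V) :
    0 ≤ C.failBound i n s u := by
  have h1 := Kmax_nonneg hC hs.base u
  have h2 := RP_nonneg hC hs.base u
  have h3 := started_le hC hs u
  have := hC.g_pos
  have := hC.Lam_le
  have := hC.rise_nonneg
  unfold failBound
  refine add_nonneg (add_nonneg (add_nonneg ?_ (by positivity)) (by positivity))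
    (mul_nonneg (by positivity) (sub_nonneg.2 h3.2))
  split_ifs <;> norm_num

/-- A point that is not moved and fails must pay with one of the rare events. -/
theorem one_le_failBound (hrise : 0 < C.P.rise)
    (hloc : locErr C.P.g C.P.L * C.Lam2 ≤ C.P.Lam * C.P.g / 2) {i n : ℕ} {s : St V X r}
    (hs : C.AtStart i s) (hi : i < C.P.m) {u : V} (hu : u ∈ C.win (i + 1))
    (h3 : Three C.P.eps (s.q0 u)) : 1 ≤ C.failBound i n s u := by
  have hg := hC.g_pos
  have hLam : 0 < C.P.Lam := by linarith [hC.Lam_le]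
  have hK0 := Kmax_nonneg hC hs.base u
  have hR := RP_nonneg hC hs.base u
  obtain ⟨hst0, hst⟩ := started_le hC hs u
  have t2 : 0 ≤ (16 * C.Kmax s u / C.P.g) ^ (n + 1) := by positivity
  have t3 : 0 ≤ C.RP u s / C.P.Lam := by positivity
  have t4 : 0 ≤ 4 / (C.P.rise * C.P.Lam) * (C.RP u s - C.RP u (C.started s)) :=
    mul_nonneg (by positivity) (sub_nonneg.2 hst)
  unfold failBound
  by_cases hmove : (C.rule i s.q0 u).isSome = true
  · rw [if_pos hmove]; linarith
  rw [if_neg hmove]
  by_cases hK : C.P.g / 16 ≤ C.Kmax s u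
  · have h16 : 1 ≤ 16 * C.Kmax s u / C.P.g := by rw [le_div_iff₀ hg]; linarith
    linarith [one_le_pow₀ (n := n + 1) h16]
  push Not at hK
  by_cases hRL : C.P.Lam ≤ C.RP u s
  · linarith [(one_le_div hLam).2 hRL]
  push Not at hRL
  -- the ball is in the window, with small shifts
  have hB : ball C.S.nb C.P.L u ⊆ s.W := fun w hw => by
    by_contra hwW
    have := hs.base.gone w (C.ball_subset_win hi hu hw) hwW
    have := Finset.le_sup' s.ktot hw
    have := hC.g_le
    unfold Kmax at hK
    linarith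
  set s1 := C.started s
  have hb1 : C.Base i s1 := base_raise hC hs.base (τ := C.P.rise / 4) (by linarith)
  have hl : LawOn s1.q s1.W := hb1.q_eq ▸ law_next hC i hb1.law _ _
  have hq : s1.q = s.q0 := by
    show s.q = _
    rw [hs.base.q_eq, hs.seen]
    exact mask_none C _ _
  have hz : ∀ w ∈ ball C.S.nb C.P.L u,
      C.P.level i ≤ s1.z w ∧ s1.z w ≤ C.P.level i + C.P.g / 16 := by
    intro w hw
    have e : s1.z w = C.P.level i + s.ktot w + s.ab w := by
      show s.T + C.P.rise / 4 + s.ktot w + s.ab w = _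
      rw [hs.level, Par.level]
    have h0 : s.ab w = 0 := (hs.base.fresh w (by rw [hs.seen])).2.2
    have h1 : 0 ≤ s.ktot w :=
      add_nonneg (add_nonneg (hs.base.kR_nonneg w) (hs.base.kL_nonneg w)) (hs.base.kP_nonneg w)
    have := Finset.le_sup' s.ktot hw
    unfold Kmax at hK
    rw [e, h0]
    constructor <;> linarith
  have hmem := self_mem_ball C.S.nb C.P.L u
  have hlB := hl.mono hB
  have hVB : C.S.Valid s1.q (ball C.S.nb C.P.L u) s1.z := hb1.valid.mono hB
  have hnone : C.rule i s.q0 u = none := by simpa using hmove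
  have hnot := (hC.rule i s.q0 hs.base.law u).2 hnone
  -- only steepness is left
  have hRP1 : C.RP u s1 = C.S.Res s1.q s1.W s1.z u := if_pos (hB hmem)
  have hslope : C.P.Lam < C.S.slope s1.q s1.W s1.z u := by
    by_contra hle
    push Not at hle
    refine hnot ⟨h3, fun T hT => ?_, ?_, ?_⟩
    · rw [← hq]
      exact (C.S.facts.valid_mono hlB hVB (z' := fun _ => C.P.level i + C.P.g / 8)
        (fun w hw => by linarith [hz w hw]) T hT).le
    · rw [← hq]
      refine ((C.S.facts.res_anti hlB hVB (z' := fun _ => C.P.level i + C.P.g / 4)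
        (fun w hw => by linarith [hz w hw]) hmem).trans
        (C.S.facts.res_window hl hb1.valid hB hmem)).trans ?_
      rw [← hRP1]
      exact hst.trans hRL.le
    · rw [← hq]
      have a1 := (C.S.facts.res_anti hlB hVB (z' := fun _ => C.P.level i + C.P.g / 4)
        (fun w hw => by linarith [hz w hw]) hmem).trans
        (C.S.facts.res_window hl hb1.valid hB hmem)
      have hV2 : C.S.Valid s1.q (ball C.S.nb C.P.L u) fun _ => C.P.level i + C.P.g / 2 :=
        C.S.facts.valid_mono hlB hVB fun w hw => by linarith [hz w hw]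
      have a2 := C.S.facts.res_anti (z' := shift s1.z (C.P.g / 2)) hlB hV2
        (fun w hw => by simp only [shift]; linarith [hz w hw]) hmem
      have hloc2 := hC.loc V r C.S s1.q s1.W (ball C.S.nb C.P.L u) s1.z u C.P.L 5 (C.P.g / 2)
        hl hb1.valid hB hmem Finset.inter_subset_left
        (fun w hw => by
          have := hb1.alive w hw
          have := hb1.ab_le w
          have hzw : s1.z w = s1.T + s1.ktot w + s1.ab w := rfl
          have hT : s1.T = C.P.level i := by
            show s.T + C.P.rise / 4 = _; rw [hs.level, Par.level]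
          have hlev : C.P.level i ≤ 4 := by
            have hjm : (i : ℝ) * C.P.rise ≤ C.P.m * C.P.rise :=
              mul_le_mul_of_nonneg_right (by exact_mod_cast hi.le) hrise.le
            unfold Par.level
            linarith [hC.top, hC.rise_le, hC.g_le]
          linarith [hC.absorb, hC.rise_le, hC.g_le])
        (by linarith) (by linarith [hC.g_le])
      have a3 := res_sub_le_slope hl hb1.valid (hB hmem) (t := C.P.g / 2) (by linarith)
      have a4 : C.S.Res s1.q s1.W (shift s1.z (C.P.g / 2)) u -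
          C.S.Res s1.q (ball C.S.nb C.P.L u) (shift s1.z (C.P.g / 2)) u ≤
            locErr C.P.g C.P.L * C.Lam2 := by
        refine ((le_abs_self _).trans hloc2).trans ?_
        refine mul_le_mul_of_nonneg_left ?_ (by positivity)
        exact (C.S.facts.res_anti hl hb1.valid
          (fun _ _ => le_add_of_nonneg_right (by linarith)) (hB hmem)).trans (hb1.res u (hB hmem))
      have a5 := mul_le_mul_of_nonneg_left hle (show 0 ≤ C.P.g / 2 by linarith)
      linarith
  have hd := slope_shift_le (S := C.S) (w := s1.q) (U := s1.W) (z := s.z)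
    hl (by exact hs.base.valid) (hB hmem) (τ := C.P.rise / 4) (by linarith)
  have hsz : shift s.z (C.P.rise / 4) = s1.z := funext fun w => by
    show s.z w + C.P.rise / 4 = s.T + C.P.rise / 4 + s.ktot w + s.ab w
    simp only [St.z]; ring
  rw [hsz] at hd
  have hR0 : C.RP u s = C.S.Res s1.q s1.W s.z u := if_pos (hB hmem)
  have h1 : 1 ≤ 4 / (C.P.rise * C.P.Lam) * (C.RP u s - C.RP u s1) := by
    rw [div_mul_eq_mul_div, le_div_iff₀ (by positivity), one_mul, hR0, hRP1]
    nlinarith [mul_le_mul_of_nonneg_left hslope.le hrise.le]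
  linarith

open Classical in
/-- A failure at the centre is paid by the points of its final ball. -/
theorem bad_le (hrise : 0 < C.P.rise)
    (hloc : locErr C.P.g C.P.L * C.Lam2 ≤ C.P.Lam * C.P.g / 2) {γ : ℝ} (hgγ : C.P.g / 16 ≤ γ)
    (heps : C.P.eps * r ≤ 1 / 3) (heps0 : 0 ≤ C.P.eps)
    {Z : ℝ} (hZ : C.P.T0 + C.P.m * C.P.rise + γ ≤ Z) {i n : ℕ} {s : St V X r}
    (hs : C.AtStart i s) (hi : i < C.P.m) :
    (if C.S.Good C.k₀ Z s.q0 C.v then (0 : ℝ) else 1) ≤
      ∑ u ∈ ball C.S.nb C.k₀ C.v, C.failBound i n s u := by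
  have hnn : ∀ u ∈ ball C.S.nb C.k₀ C.v, 0 ≤ C.failBound i n s u := fun u _ =>
    failBound_nonneg hC hs u
  split_ifs with hgood
  · exact Finset.sum_nonneg hnn
  have hwin : ∀ j, ball C.S.nb C.k₀ C.v ⊆ C.win j := fun j => ball_mono _ (Nat.le_add_right _ _) _
  have hq : s.q = s.q0 := by rw [hs.base.q_eq, hs.seen]; exact mask_none C _ _
  suffices ∃ u ∈ ball C.S.nb C.k₀ C.v, 1 ≤ C.failBound i n s u by
    obtain ⟨u, hu, h⟩ := this
    exact h.trans (Finset.single_le_sum hnn hu)
  by_cases hk : ∀ u ∈ ball C.S.nb C.k₀ C.v, C.Kmax s u < C.P.g / 16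
  · by_contra hcon
    push Not at hcon
    refine hgood ⟨?_, fun u hu => ?_⟩
    · have hsub : ball C.S.nb C.k₀ C.v ⊆ s.W := fun u hu => by
        by_contra huW
        have := hs.base.gone u (hwin i hu) huW
        have h1 : s.ktot u ≤ C.Kmax s u := Finset.le_sup' s.ktot (self_mem_ball _ _ _)
        linarith [hk u hu, hC.g_le]
      rw [← hq]
      have hl : LawOn s.q s.W := hs.base.q_eq ▸ law_next hC i hs.base.law _ _
      refine C.S.facts.valid_mono (hl.mono hsub) (hs.base.valid.mono hsub) fun u hu => ?_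
      have h0 : s.ab u = 0 := (hs.base.fresh u (by rw [hs.seen])).2.2
      have h1 : s.ktot u ≤ C.Kmax s u := Finset.le_sup' s.ktot (self_mem_ball _ _ _)
      have hjm : (i : ℝ) * C.P.rise ≤ C.P.m * C.P.rise :=
        mul_le_mul_of_nonneg_right (by exact_mod_cast hi.le) hrise.le
      have := hk u hu
      simp only [St.z, h0, hs.level]
      linarith
    · refine exists_third ((hs.base.law {u}) u (Finset.mem_singleton_self u)).2 heps0 heps ?_
      intro h3
      exact absurd (one_le_failBound hC hrise hloc hs hi (hwin _ hu) h3) (not_le.2 (hcon u hu))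
  · push Not at hk
    obtain ⟨u, hu, hk⟩ := hk
    refine ⟨u, hu, ?_⟩
    have h16 : 1 ≤ 16 * C.Kmax s u / C.P.g := by rw [le_div_iff₀ hC.g_pos]; linarith
    have hR := RP_nonneg hC hs.base u
    have hst := (started_le hC hs u).2
    have : 0 ≤ C.P.Lam := by linarith [hC.Lam_le]
    have := div_nonneg hR this
    have t4 : 0 ≤ 4 / (C.P.rise * C.P.Lam) * (C.RP u s - C.RP u (C.started s)) :=
      mul_nonneg (by positivity) (sub_nonneg.2 hst)
    have := one_le_pow₀ (n := n + 1) h16
    unfold failBound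
    split_ifs <;> linarith

theorem RP_super {o : Op X} {l : List (Op X)} {s : St V X r} (hI : C.Inv M (o :: l) s) (u : V) :
    ∑ i, C.prog'.p o s i * C.RP u (C.prog'.nx o s i) ≤ C.RP u s := by
  have h := push_step hC hI u
  have hL := pow_pos (Lam2_pos hC) 2
  have h2 : ∑ i, C.pr o s i * (C.RP u (C.nx o s i) / C.Lam2 ^ 2) ≤ C.RP u s / C.Lam2 ^ 2 := by
    refine le_trans (Prog.sum_le_of_pos (C := C.prog') o s fun i hi => ?_) h
    exact le_add_of_nonneg_left (sub_nonneg.2 (nx_mono hC hI hi u).2.2)
  simp only [← mul_div_assoc, ← Finset.sum_div] at h2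
  exact (div_le_div_iff_of_pos_right hL).1 h2

include hS

/-- The drop at the start of a round is paid by the fall of the resolvent entry. -/
theorem drop_round (u : V) {i : ℕ} (hi : i < C.P.m) :
    C.prog'.E (C.rounds 0 i) (fun s => C.RP u s - C.RP u (C.started s)) C.init ≤
      C.prog'.E (C.rounds 0 i) (C.RP u) C.init -
        C.prog'.E (C.rounds 0 (i + 1)) (C.RP u) C.init := by
  have hI := init_inv hC hS hi.le
  have key : ∀ s, C.Inv i [] s →
      C.RP u s - C.RP u (C.started s) ≤ C.RP u s - C.prog'.E (C.round i) (C.RP u) s := by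
    intro s hs
    have ha := inv_nil hC hs
    have hI1 : C.Inv (i + 1) (C.round i) s :=
      ⟨hi, Or.inl ⟨i, 1, rfl, by simp [rounds], ha⟩⟩
    rw [round] at hI1 ⊢
    rw [Prog.E_cons]
    simp only [prog', Fin.sum_univ_three, pr, nx, Fin.isValue, if_true, Fin.reduceEq, if_false,
      zero_mul, add_zero, one_mul]
    refine sub_le_sub_left ?_ _
    refine Prog.E_le_of_super (stable hC) (f := C.RP u) (fun o l x hx => RP_super hC hx u)
      (stable hC _ _ s 0 hI1 (by simp [prog', pr]))
  refine (Prog.E_le_E (stable hC) key hI).trans (le_of_eq ?_)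
  rw [rounds_snoc, zero_add, Prog.E_append]
  simp only [sub_eq_add_neg, Prog.E_add]
  congr 1
  rw [← neg_one_mul, ← Prog.E_smul]
  congr 1
  funext s
  rw [neg_one_mul]

theorem RP_init (u : V) (hR₀ : 0 ≤ R₀) : C.RP u C.init ≤ R₀ := by
  have hz : C.init.z = fun _ => C.P.T0 := by funext v; simp [init, St.z, St.ktot]
  unfold RP
  split_ifs with h
  · rw [hz]; exact hS.res u h
  · exact hR₀

theorem RP_mean (u : V) {i : ℕ} (hi : i ≤ C.P.m) (hR₀ : 0 ≤ R₀) :
    C.prog'.E (C.rounds 0 i) (C.RP u) C.init ≤ R₀ :=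
  (Prog.E_le_of_super (stable hC) (fun _ _ _ hx => RP_super hC hx u) (init_inv hC hS hi)).trans
    (RP_init hC hS u hR₀)

open Classical in
/-- The failures summed over the rounds, up to the moves. -/
theorem fail_sum (hloc : locErr C.P.g C.P.L * C.Lam2 ≤ C.P.Lam * C.P.g / 2) {γ : ℝ}
    (hgγ : C.P.g / 16 ≤ γ) (heps : C.P.eps * r ≤ 1 / 3) (heps0 : 0 ≤ C.P.eps) (hR₀ : 0 ≤ R₀)
    (hθ : C.θ * (d + 1) ≤ 1 / 4) {n : ℕ} (hn : C.P.L = n + 1) {κ : ℝ}
    (hκ : (16 * C.bK d C.P.m / C.P.g) ^ (n + 1) ≤ κ)
    {Z : ℝ} (hZ : C.P.T0 + C.P.m * C.P.rise + γ ≤ Z) :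
    ∑ i ∈ range C.P.m, C.prog'.E (C.rounds 0 i)
        (fun s => if C.S.Good C.k₀ Z s.q0 C.v then (0 : ℝ) else 1) C.init ≤
      ∑ u ∈ ball C.S.nb C.k₀ C.v, ((∑ i ∈ range C.P.m, C.prog'.E (C.rounds 0 i)
          (fun s => if (C.rule i s.q0 u).isSome = true then 1 else 0) C.init) +
        C.P.m * κ + C.P.m * (R₀ / C.P.Lam) + 4 / (C.P.rise * C.P.Lam) * R₀) := by
  have hg := hC.g_pos
  have hLam : 0 < C.P.Lam := by linarith [hC.Lam_le]
  refine (Finset.sum_le_sum fun i hi => Prog.E_le_E (stable hC) (fun s hs => bad_le hC hS.rise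
    hloc hgγ heps heps0 hZ (n := n) (inv_nil hC hs) (Finset.mem_range.1 hi))
    (init_inv hC hS (Finset.mem_range.1 hi).le)).trans ?_
  simp only [Prog.E_sum]
  rw [Finset.sum_comm]
  refine Finset.sum_le_sum fun u hu => ?_
  have hterm : ∀ i ∈ range C.P.m,
      C.prog'.E (C.rounds 0 i) (fun s => C.failBound i n s u) C.init ≤
        C.prog'.E (C.rounds 0 i)
            (fun s => if (C.rule i s.q0 u).isSome = true then 1 else 0) C.init + κ +
          R₀ / C.P.Lam + 4 / (C.P.rise * C.P.Lam) *
            (C.prog'.E (C.rounds 0 i) (C.RP u) C.init -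
              C.prog'.E (C.rounds 0 (i + 1)) (C.RP u) C.init) := by
    intro i hi
    have hi' := Finset.mem_range.1 hi
    simp only [failBound, Prog.E_add]
    refine add_le_add (add_le_add (add_le_add le_rfl ?_) ?_) ?_
    · simp only [div_eq_inv_mul, mul_pow, Prog.E_smul]
      refine le_trans (mul_le_mul_of_nonneg_left (mul_le_mul_of_nonneg_left
        (Kmax_moment hC hS hθ hn hi'.le u) (by positivity)) (by positivity)) (le_trans ?_ hκ)
      rw [← mul_pow, ← mul_pow, ← div_eq_inv_mul]
      obtain ⟨-, hQ, -, hD, hx⟩ := consts_pos hC hS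
      refine pow_le_pow_left₀ (div_nonneg (mul_nonneg (by norm_num) (by unfold bK; positivity))
        hg.le) ?_ _
      refine div_le_div_of_nonneg_right (mul_le_mul_of_nonneg_left ?_ (by norm_num)) hg.le
      unfold bK
      exact add_le_add (mul_le_mul_of_nonneg_left (mul_le_mul_of_nonneg_left
        (pow_le_pow_right₀ hx hi'.le) hD.le) (by positivity)) le_rfl
    · simp only [div_eq_inv_mul, Prog.E_smul]
      exact mul_le_mul_of_nonneg_left (RP_mean hC hS u hi'.le hR₀) (by positivity)
    · rw [Prog.E_smul]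
      exact mul_le_mul_of_nonneg_left (drop_round hC hS u hi') (by
        have := hS.rise; positivity)
  refine (Finset.sum_le_sum hterm).trans ?_
  simp only [Finset.sum_add_distrib, Finset.sum_const, Finset.card_range, nsmul_eq_mul,
    ← Finset.mul_sum, Finset.sum_range_sub']
  refine add_le_add le_rfl (mul_le_mul_of_nonneg_left ?_ (by
    have := hS.rise; positivity))
  have h0 := Prog.E_nonneg (stable hC) (f := C.RP u)
    (fun s hs => RP_nonneg hC (inv_nil hC hs).base u) (init_inv hC hS (le_refl C.P.m))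
  have h1 : C.prog'.E (C.rounds 0 0) (C.RP u) C.init ≤ R₀ := RP_mean hC hS u (Nat.zero_le _) hR₀
  linarith

end Cfg

end Vale.Agent.P078.Any
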