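import Vale.Agent.P078.Any.Scheme

/-!
One visit of the scheme: the shift of the point that moves and the pushes keep the window valid
and make every resolvent entry a supermartingale, with room to pay for the pushes.
-/

namespace Vale.Agent.P078.Any

open Finset Function

set_option linter.unusedSectionVars false

variable {V X : Type} [DecidableEq V] [Fintype X] [DecidableEq X] {r : ℕ}

namespace Cfg

variable {C : Cfg V X r} {d : ℕ} {e₀ η : ℝ} (hC : C.OK d e₀ η)

include hC

theorem Lam2_pos : 0 < C.Lam2 := by linarith [hC.Lam2_le]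

theorem pushBy_nonneg (s : St V X r) (u : V) : 0 ≤ C.pushBy s u := by
  unfold pushBy
  split_ifs
  · exact le_max_left _ _
  · exact le_rfl

theorem pushBy_le {s : St V X r} (hl : LawOn s.q s.W) (hV : C.S.Valid s.q s.W s.z) (u : V) :
    C.pushBy s u ≤ 1 / C.Lam2 := by
  have hL := Lam2_pos hC
  unfold pushBy
  split_ifs with hu
  · have := one_div_pos.2 (res_pos hl hV hu)
    exact max_le (one_div_pos.2 hL).le (by linarith)
  · exact (one_div_pos.2 hL).le

theorem push_z (s : St V X r) (u : V) : (C.push s).z u = s.z u + C.pushBy s u := by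
  simp only [St.z, St.ktot, push]
  ring

theorem push_valid {s : St V X r} (hl : LawOn s.q s.W) (hV : C.S.Valid s.q s.W s.z) :
    C.S.Valid (C.push s).q (C.push s).W (C.push s).z :=
  ((C.S.facts.valid_mono hl hV fun u _ => by
    rw [push_z hC]; exact le_add_of_nonneg_right (pushBy_nonneg hC s u)) :
      C.S.Valid s.q s.W (C.push s).z).mono (Finset.filter_subset _ _)

/-- A push brings every entry to its level, and pays for itself. -/
theorem push_res {s : St V X r} (hl : LawOn s.q s.W) (hV : C.S.Valid s.q s.W s.z) (u : V) :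
    (u ∈ (C.push s).W → C.S.Res (C.push s).q (C.push s).W (C.push s).z u ≤ C.Lam2) ∧
      C.RP u (C.push s) + C.Lam2 ^ 2 * C.pushBy s u ≤ C.RP u s := by
  have hL := Lam2_pos hC
  have hsub : (C.push s).W ⊆ s.W := Finset.filter_subset _ _
  by_cases hu : u ∈ s.W
  swap
  · refine ⟨fun h => absurd (hsub h) hu, ?_⟩
    rw [RP, RP, if_neg hu, if_neg fun h => hu (hsub h), pushBy, if_neg hu]
    simp
  set R := C.S.Res s.q s.W s.z u with hRdef
  set δ := C.pushBy s u with hδdef
  have hR : 0 < R := res_pos hl hV hu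
  have hδ0 : 0 ≤ δ := pushBy_nonneg hC s u
  have hδ : δ = max 0 (1 / C.Lam2 - 1 / R) := by rw [hδdef, pushBy, if_pos hu]
  set z' := update s.z u (s.z u + δ) with hz'
  have hz : ∀ w ∈ s.W, s.z w ≤ z' w := fun w _ => by
    by_cases h : w = u
    · subst h; simp [hz', hδ0]
    · simp [hz', h]
  have hV' := C.S.facts.valid_mono hl hV hz
  have hform : C.S.Res s.q s.W z' u = R / (1 + δ * R) := by
    have hF := (hV _ subset_rfl).ne'
    rw [Sys.Res, hz', C.S.affine _ _ _ hl u hu, add_sub_cancel_left,
      C.S.congr _ _ (s.W.erase u) _ s.z (fun _ _ => rfl)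
        (fun w hw => update_of_ne (Finset.ne_of_mem_erase hw) _ _),
      hRdef, Sys.Res]
    field_simp
  have hle : u ∈ (C.push s).W →
      C.S.Res (C.push s).q (C.push s).W (C.push s).z u ≤ R / (1 + δ * R) := fun h => by
    rw [← hform]
    refine (C.S.facts.res_anti (hl.mono hsub) (hV'.mono hsub) (fun w _ => ?_) h).trans
      (C.S.facts.res_window hl hV' hsub h)
    rw [push_z hC]
    by_cases hw : w = u
    · subst hw; simp [hz', hδdef]
    · simp [hz', hw, pushBy_nonneg hC s w]
  rcases le_or_gt R C.Lam2 with hRL | hRL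
  · have h0 : δ = 0 := by
      rw [hδ]
      exact max_eq_left (sub_nonpos.2 (one_div_le_one_div_of_le hR hRL))
    rw [h0, zero_mul, add_zero, div_one] at hle
    refine ⟨fun h => (hle h).trans hRL, ?_⟩
    rw [h0, mul_zero, add_zero]
    unfold RP
    rw [if_pos hu]
    split_ifs with h
    · exact hle h
    · exact hR.le
  · have h0 : δ = 1 / C.Lam2 - 1 / R := by
      rw [hδ]
      exact max_eq_right (sub_nonneg.2 (one_div_le_one_div_of_le hL hRL.le))
    have he : R / (1 + δ * R) = C.Lam2 := by
      rw [h0]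
      field_simp
      ring
    rw [he] at hle
    refine ⟨hle, ?_⟩
    have key : C.Lam2 + C.Lam2 ^ 2 * δ ≤ R := by
      have e : C.Lam2 ^ 2 * δ = (R - C.Lam2) * (C.Lam2 / R) := by
        rw [h0]; field_simp
      have := mul_le_of_le_one_right (sub_nonneg.2 hRL.le) ((div_le_one hR).2 hRL.le)
      linarith
    unfold RP
    rw [if_pos hu]
    split_ifs with h
    · have := hle h
      linarith
    · linarith

/-- The state before the pushes. -/
theorem mid_W_subset (j : ℕ) (x : X) (b : Bool) (s : St V X r) :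
    (C.mid j x b s).W ⊆ s.W := Finset.filter_subset _ _

theorem moved_unique {j : ℕ} {x : X} {s : St V X r} {u w : V}
    (hu : C.moved j x s u) (hw : C.moved j x s w) : u = w :=
  hC.inj (C.win_subset_zero _ hu.2.1) (C.win_subset_zero _ hw.2.1) (hu.1.trans hw.1.symm)

theorem own_le {j : ℕ} {s : St V X r} (hs : C.Base j s) {u : V} (hu : u ∈ s.W) :
    0 ≤ C.cRep * (1 + C.Kmax s u / C.P.g) * C.amt s u ∧ 0 ≤ C.cLin * C.Kmax s u ∧
      C.cRep * (1 + C.Kmax s u / C.P.g) * C.amt s u + C.cLin * C.Kmax s u ≤ C.J₀ := by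
  obtain ⟨a1, a2⟩ := amt_nonneg hC hs hu
  have hk := Kmax_nonneg hC hs u
  have hk1 := Kmax_le_one hC hs u
  have hg := hC.g_pos
  have hLam := hC.Lam_le
  have hR : 0 ≤ C.cRep := by rw [hC.cRep_eq]; linarith
  have hLin : 0 ≤ C.cLin := by rw [hC.cLin_eq]; positivity
  have hd : 1 + C.Kmax s u / C.P.g ≤ 1 + 1 / C.P.g :=
    add_le_add le_rfl (div_le_div_of_nonneg_right hk1 hg.le)
  exact ⟨by positivity, by positivity, add_le_add
    (mul_le_mul (mul_le_mul_of_nonneg_left hd hR) a2 a1 (by positivity))
    (mul_le_of_le_one_right hLin hk1)⟩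

theorem mid_ktot {j : ℕ} (x : X) (b : Bool) {s : St V X r} (hs : C.Base j s) (u : V) :
    (C.mid j x b s).kR u + (C.mid j x b s).kL u ≤
        s.kR u + s.kL u + (if C.moved j x s u then C.P.h * C.J₀ else 0) ∧
      s.kR u ≤ (C.mid j x b s).kR u ∧ s.kL u ≤ (C.mid j x b s).kL u := by
  simp only [mid]
  split_ifs with h
  · obtain ⟨h1, h2, h3⟩ := own_le hC hs h.2.2.1
    have := hC.h_nonneg
    exact ⟨by nlinarith [mul_le_mul_of_nonneg_left h3 this],
      le_add_of_nonneg_right (by positivity), le_add_of_nonneg_right (by positivity)⟩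
  · exact ⟨by simp, le_rfl, le_rfl⟩

/-- The level is in the range of the round. -/
def InLevel (C : Cfg V X r) (j : ℕ) (s : St V X r) : Prop :=
  j < C.P.m ∧ C.P.level j ≤ s.T ∧ s.T ≤ C.P.level j + C.P.rise / 4

theorem z_hi {j : ℕ} {s : St V X r} (hs : C.Base j s) (hT : InLevel C j s) {u : V}
    (hu : u ∈ s.W) : s.z u ≤ 9 / 2 := by
  obtain ⟨hj, -, h2⟩ := hT
  have h3 := hs.alive u hu
  have h4 := hs.ab_le u
  have h5 := hC.absorb
  have h6 := hC.top
  have h7 := hC.rise_le
  have h8 := hC.g_le
  have hj' : (j : ℝ) * C.P.rise + C.P.rise ≤ C.P.m * C.P.rise := by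
    rw [← add_one_mul]
    exact mul_le_mul_of_nonneg_right (by exact_mod_cast hj) hC.rise_nonneg
  unfold Par.level at h2
  simp only [St.z]
  linarith [hC.rise_nonneg]

/-- A visit before the pushes, when no point moves. -/
theorem mid_stay {j : ℕ} {x : X} (b : Bool) {s : St V X r} (hs : C.Base j s)
    (hnone : ∀ u, ¬ C.moved j x s u) :
    (∀ u ∈ s.W, (C.mid j x b s).q u = s.q u) ∧ (C.mid j x b s).W = s.W ∧
      ∀ u, (C.mid j x b s).z u = s.z u := by
  refine ⟨fun u hu => ?_, ?_, fun u => ?_⟩
  · rw [hs.q_eq]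
    show next C.P C.rule j s.q0 _ u = next C.P C.rule j s.q0 _ u
    funext c
    by_cases hx : C.cell u = x ∧ u ∈ C.win (j + 1)
    · have hr : C.rule j s.q0 u = none := by
        have := hnone u
        simpa [moved, hx.1, hx.2, hu] using this
      simp [next, hr]
    · have : C.mask j (update s.seen x (some b)) u = C.mask j s.seen u := by
        unfold mask
        split_ifs with hw
        · rw [update_of_ne fun e => hx ⟨e, hw⟩]
        · rfl
      unfold next
      rw [this]
  · refine Finset.filter_true_of_mem fun u hu => ?_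
    have := hs.alive u hu
    simp only [St.ktot] at this
    simpa [hnone u] using this
  · simp [St.z, St.ktot, mid, hnone u]

/-- A visit before the pushes, when a point moves. -/
theorem mid_move {j : ℕ} {x : X} {s : St V X r} (hs : C.Base j s) (hT : InLevel C j s)
    (hx : s.seen x = none) {u : V} (hu : C.moved j x s u) :
    ∃ y : Fin r → ℝ, (∀ b : Bool, ∀ w ∈ s.W, (C.mid j x b s).q w =
        update s.q u (fun c => s.q u c * (1 + sgn b * Real.sqrt C.P.h * y c)) w) ∧
      (∀ c, |y c| ≤ 1) ∧ ∑ c, s.q u c * y c = 0 ∧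
      2 * C.P.h * |∑ c, s.q u c * y c * C.S.hc s.q s.W s.z u c| *
          (|∑ c, s.q u c * y c * C.S.hc s.q s.W s.z u c| * C.S.Res s.q s.W s.z u + 1) ≤
        C.P.h * C.α + C.P.h * (C.cRep * (1 + C.Kmax s u / C.P.g) * C.amt s u) +
          C.P.h * (C.cLin * C.Kmax s u) := by
  obtain ⟨hcell, hwin, huW, hsome⟩ := hu
  obtain ⟨y, hy⟩ := Option.isSome_iff_exists.1 hsome
  obtain ⟨hmay, hy1, hy0, hbal, -⟩ := (hC.rule j s.q0 hs.law u).1 y hy
  obtain ⟨hj, hT1, hT2⟩ := hT
  have hqu : s.q u = s.q0 u := by
    rw [hs.q_eq]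
    funext c
    simp [next, mask, hwin, hcell, hx, seedOf]
  have hsum : ∑ c, s.q u c * y c = 0 := by rw [hqu]; exact hy0
  refine ⟨y, fun b w hw => ?_, hy1, hsum, ?_⟩
  · rw [hs.q_eq]
    by_cases hwu : w = u
    · subst hwu
      funext c
      simp [mid, next, mask, hwin, hcell, hy, hx, seedOf]
    · rw [update_of_ne hwu]
      show next C.P C.rule j s.q0 _ w = next C.P C.rule j s.q0 _ w
      have : C.mask j (update s.seen x (some b)) w = C.mask j s.seen w := by
        unfold mask
        split_ifs with h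
        · rw [update_of_ne fun e => hwu (hC.inj (C.win_subset_zero _ h)
            (C.win_subset_zero _ hwin) (e.trans hcell.symm))]
        · rfl
      funext c
      unfold next
      rw [this]
  · have hball := C.ball_subset_win hj hwin
    have hg := hC.g_pos
    have hV : Visiting C.S s.q0 s.q s.W s.z u y (ballCard d C.P.L) C.P.L (C.P.level j) C.P.g
        C.P.Lam C.Lam2 (Real.sqrt C.P.h) η (C.Kmax s u) C.P.rise :=
      { g_pos := hg
        g_le := hC.g_le
        Lam_le := hC.Lam_le
        lev_lo := by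
          have := hC.T0_nonneg; have := hC.rise_nonneg; unfold Par.level; positivity
        lev_hi := by
          have hjm : (j : ℝ) * C.P.rise ≤ C.P.m * C.P.rise :=
            mul_le_mul_of_nonneg_right (by exact_mod_cast hj.le) hC.rise_nonneg
          unfold Par.level
          linarith [hC.top, hC.rise_le, hC.g_le]
        ε_nonneg := Real.sqrt_nonneg _
        K_nonneg := Kmax_nonneg hC hs u
        e_nonneg := hC.rise_nonneg
        e_le := hC.rise_le
        loc_small := hC.loc_small
        lip_small := hC.lip_small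
        lip_dom := hC.lip_dom
        card := card_ball_le _ hC.deg _ _
        mem := huW
        law := hs.q_eq ▸ law_next hC j hs.law _ _
        law_ball := hs.q_eq ▸ law_next hC j hs.law _ _
        law_start := hs.law _
        eq_self := hqu
        close := fun w _ => by rw [hs.q_eq]; exact dist_next hC j hs.law _ w
        valid := hs.valid
        z_hi := fun w hw => z_hi hC hs ⟨hj, hT1, hT2⟩ hw
        z_lo := fun w _ => by
          have := hs.ab_nonneg w
          have := hs.kR_nonneg w
          have := hs.kL_nonneg w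
          have := hs.kP_nonneg w
          simp only [St.z, St.ktot]
          linarith
        z_near := fun w hw _ => by
          have h1 : s.ktot w ≤ C.Kmax s u := Finset.le_sup' s.ktot hw
          have := hs.ab_le w
          have := hC.absorb
          have := hC.rise_nonneg
          simp only [St.z]
          linarith
        deleted := fun h => by
          obtain ⟨w, hw, hwW⟩ := Finset.not_subset.1 h
          exact (hs.gone w (hball hw) hwW).le.trans (Finset.le_sup' s.ktot hw)
        res_le := hs.res u huW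
        test_valid := hmay.1
        test_res := hmay.2.1
        test_slope := hmay.2.2
        x_le := hy1
        x_sum := hsum
        x_bal := hbal }
    have key := hV.shift_le hC.loc hC.e₀_pos
    have hamt : min ((1 + 5 * C.P.Lam / e₀) * (32 * C.P.Lam) * C.P.g ^ 2 *
        (C.S.slope s.q s.W s.z u / (C.P.Lam + C.S.Res s.q s.W s.z u))) C.Lam2 ≤ C.amt s u := by
      unfold amt
      split_ifs
      · exact min_le_right _ _
      · rw [hC.cA_eq]
    have h1 : 0 ≤ 700 * C.P.Lam * (1 + C.Kmax s u / C.P.g) := by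
      have := hC.Lam_le; have := Kmax_nonneg hC hs u; positivity
    have h2 := mul_le_mul_of_nonneg_left (key.trans (add_le_add (add_le_add le_rfl
      (mul_le_mul_of_nonneg_left hamt h1)) le_rfl)) hC.h_nonneg
    rw [← hC.α_eq, ← hC.cRep_eq, ← hC.cLin_eq] at h2
    linarith

/-- A visit before the pushes keeps validity and lowers all entries on average. -/
theorem mid_super {j : ℕ} {x : X} {s : St V X r} (hs : C.Base j s) (hT : InLevel C j s)
    (hx : s.seen x = none) :
    (∀ b, C.S.Valid (C.mid j x b s).q (C.mid j x b s).W (C.mid j x b s).z) ∧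
      ∀ w, C.RP w (C.mid j x true s) + C.RP w (C.mid j x false s) ≤ 2 * C.RP w s := by
  have hl : LawOn s.q s.W := hs.q_eq ▸ law_next hC j hs.law _ _
  have hlb : ∀ b, LawOn (C.mid j x b s).q s.W := fun b => law_next hC j hs.law _ _
  by_cases hex : ∃ u, C.moved j x s u
  swap
  · push Not at hex
    have hF : ∀ b T, T ⊆ s.W →
        C.S.F (C.mid j x b s).q T (C.mid j x b s).z = C.S.F s.q T s.z := fun b T hT' => by
      obtain ⟨h1, -, h3⟩ := mid_stay hC b hs hex
      exact C.S.congr _ _ _ _ _ (fun u hu => h1 u (hT' hu)) fun u _ => h3 u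
    have hRP : ∀ b w, C.RP w (C.mid j x b s) = C.RP w s := fun b w => by
      unfold RP Sys.Res
      rw [(mid_stay hC b hs hex).2.1]
      split_ifs with hw
      · rw [hF b _ (Finset.erase_subset _ _), hF b _ subset_rfl]
      · rfl
    refine ⟨fun b T hT' => ?_, fun w => by rw [hRP, hRP, two_mul]⟩
    rw [(mid_stay hC b hs hex).2.1] at hT'
    rw [hF b T hT']
    exact hs.valid T hT'
  obtain ⟨u, hu⟩ := hex
  obtain ⟨y, hq, hy1, hy0, hcost⟩ := mid_move hC hs hT hx hu
  have hR := hs.res u hu.2.2.1
  have hzu := z_hi hC hs hT hu.2.2.1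
  have hR0 := res_pos hl hs.valid hu.2.2.1
  have hsq := Real.sqrt_nonneg C.P.h
  have hz0 : 0 ≤ s.z u := by
    obtain ⟨-, h1, -⟩ := hT
    have := hs.ab_nonneg u
    have := hs.kR_nonneg u
    have := hs.kL_nonneg u
    have := hs.kP_nonneg u
    have h0 : 0 ≤ C.P.level j := by
      have := hC.T0_nonneg; have := hC.rise_nonneg; unfold Par.level; positivity
    simp only [St.z, St.ktot]
    linarith
  have hsmall : 2 * Real.sqrt C.P.h * s.z u * C.S.Res s.q s.W s.z u ≤ 1 := by
    refine le_trans ?_ hC.sign_small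
    calc 2 * Real.sqrt C.P.h * s.z u * C.S.Res s.q s.W s.z u
        ≤ 2 * Real.sqrt C.P.h * (9 / 2) * C.Lam2 := by
          exact mul_le_mul (mul_le_mul_of_nonneg_left hzu (by positivity)) hR hR0.le
            (by positivity)
      _ = 9 * Real.sqrt C.P.h * C.Lam2 := by ring
  have hv := visitStatement V r C.S s.q s.W s.z u y (Real.sqrt C.P.h) hl hs.valid hu.2.2.1 hy1 hy0
    hsq (sign_le hC) hsmall
  simp only [Real.sq_sqrt hC.h_nonneg] at hv
  obtain ⟨hp, hm, hsup⟩ := hv
  set z' := update s.z u (s.z u + 2 * C.P.h * |∑ c, s.q u c * y c * C.S.hc s.q s.W s.z u c| *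
    (|∑ c, s.q u c * y c * C.S.hc s.q s.W s.z u c| * C.S.Res s.q s.W s.z u + 1))
  have hz : ∀ b w, z' w ≤ (C.mid j x b s).z w := by
    intro b w
    by_cases hwu : w = u
    · subst hwu
      have h0 : s.ab w = 0 := (hs.fresh w (by rw [hu.1, hx])).2.2
      simp only [z', update_self, St.z, St.ktot, mid, if_pos hu, h0]
      linarith
    · have hnw : ¬ C.moved j x s w := fun h => hwu (moved_unique hC h hu)
      simp [z', hwu, St.z, St.ktot, mid, hnw]
  let qb : Bool → V → Fin r → ℝ := fun b =>
    update s.q u fun c => s.q u c * (1 + sgn b * Real.sqrt C.P.h * y c)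
  have hVb : ∀ b, C.S.Valid (qb b) s.W z' := by
    intro b
    cases b
    · simpa [qb, sgn, sub_eq_add_neg] using hm
    · simpa [qb, sgn] using hp
  have hVm : ∀ b, C.S.Valid (C.mid j x b s).q s.W z' := fun b T hT' => by
    rw [C.S.congr _ (qb b) T z' z' (fun w hw => hq b w (hT' hw)) fun _ _ => rfl]
    exact hVb b T hT'
  have hV2 : ∀ b, C.S.Valid (C.mid j x b s).q s.W (C.mid j x b s).z := fun b =>
    C.S.facts.valid_mono (hlb b) (hVm b) fun w _ => hz b w
  refine ⟨fun b => (hV2 b).mono (mid_W_subset hC j x b s), fun w => ?_⟩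
  by_cases hw : w ∈ s.W
  swap
  · rw [RP, RP, RP, if_neg hw, if_neg fun h => hw (mid_W_subset hC j x true s h),
      if_neg fun h => hw (mid_W_subset hC j x false s h)]
    simp
  have hb : ∀ b, C.RP w (C.mid j x b s) ≤ C.S.Res (qb b) s.W z' w := by
    intro b
    have e : C.S.Res (C.mid j x b s).q s.W z' w = C.S.Res (qb b) s.W z' w := by
      unfold Sys.Res
      rw [C.S.congr _ (qb b) (s.W.erase w) z' z' (fun v hv => hq b v (Finset.mem_of_mem_erase hv))
        (fun _ _ => rfl), C.S.congr _ (qb b) s.W z' z' (fun v hv => hq b v hv) fun _ _ => rfl]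
    rw [← e]
    unfold RP
    split_ifs with h
    · exact (C.S.facts.res_window (hlb b) (hV2 b) (mid_W_subset hC j x b s) h).trans
        (C.S.facts.res_anti (hlb b) (hVm b) (fun v _ => hz b v) hw)
    · exact (res_pos (hlb b) (hVm b) hw).le
  have h1 := hsup w hw
  have ht := hb true
  have hf := hb false
  simp only [qb, sgn, if_true, Bool.false_eq_true, if_false, one_mul, neg_mul] at ht hf
  simp only [← sub_eq_add_neg] at hf
  have hRw : C.RP w s = C.S.Res s.q s.W s.z w := if_pos hw
  linarith

/-- A visit keeps the invariant. -/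
theorem hit_base {j : ℕ} {x : X} {s : St V X r} (hs : C.Base j s) (hT : InLevel C j s)
    (hx : s.seen x = none) (b : Bool) : C.Base j (C.hit j x b s) := by
  have hl : LawOn (C.mid j x b s).q (C.mid j x b s).W := law_next hC j hs.law _ _
  have hV := (mid_super hC hs hT hx).1 b
  have hpn := pushBy_nonneg hC (C.mid j x b s)
  have hpl := pushBy_le hC hl hV
  have hk := mid_ktot hC x b hs
  have hh := hC.h_nonneg
  have hL4 : 1 / C.Lam2 ≤ 1 / 4 := one_div_le_one_div_of_le (by norm_num) hC.Lam2_le
  have hmz : ∀ u, (C.mid j x b s).kP u = s.kP u := fun _ => rfl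
  have ktot_eq : ∀ u, (C.hit j x b s).ktot u =
      (C.mid j x b s).kR u + (C.mid j x b s).kL u + s.kP u + C.pushBy (C.mid j x b s) u :=
    fun u => by simp only [hit, push, St.ktot, hmz]; ring
  have hmono : ∀ u, s.ktot u ≤ (C.hit j x b s).ktot u := fun u => by
    rw [ktot_eq]; simp only [St.ktot]; linarith [hk u, hpn u]
  refine ⟨hs.law, rfl, (Finset.filter_subset _ _).trans ((Finset.filter_subset _ _).trans hs.sub),
    fun u hu hnot => ?_, fun u hu => ?_, fun u => ?_, fun u => (hs.kR_nonneg u).trans (hk u).2.1,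
    fun u => (hs.kL_nonneg u).trans (hk u).2.2,
    fun u => add_nonneg (hs.kP_nonneg u) (hpn u), fun u => ?_, fun u => ?_, fun u hu => ?_,
    fun u => ?_, fun u => ?_, push_valid hC hl hV, fun u hu => (push_res hC hl hV u).1 hu⟩
  · -- gone
    rw [ktot_eq]
    by_cases hW : u ∈ s.W
    · by_cases hm : u ∈ (C.mid j x b s).W
      · have : ¬ ((C.mid j x b s).ktot u + C.pushBy (C.mid j x b s) u ≤ 1 / 2) := fun h =>
          hnot (Finset.mem_filter.2 ⟨hm, h⟩)
        simp only [St.ktot, hmz] at this
        linarith [not_le.1 this]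
      · have : ¬ ((C.mid j x b s).kR u + (C.mid j x b s).kL u + s.kP u ≤ 1 / 2) := fun h =>
          hm (Finset.mem_filter.2 ⟨hW, h⟩)
        linarith [not_le.1 this, hpn u]
    · have := hs.gone u hu hW
      simp only [St.ktot] at this
      linarith [hk u, hpn u]
  · -- alive
    have := (Finset.mem_filter.1 hu).2
    rw [ktot_eq]
    simp only [St.ktot, hmz] at this
    linarith
  · -- total
    rw [ktot_eq]
    by_cases hm : u ∈ (C.mid j x b s).W
    · have : (C.mid j x b s).kR u + (C.mid j x b s).kL u + s.kP u ≤ 1 / 2 :=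
        (Finset.mem_filter.1 hm).2
      linarith [hpl u]
    · have h0 : C.pushBy (C.mid j x b s) u = 0 := if_neg hm
      have hku := (hk u).1
      rw [h0]
      split_ifs at hku with hmv
      · have := hs.alive u hmv.2.2.1
        simp only [St.ktot] at this
        linarith [hC.jump]
      · have := hs.total u
        simp only [St.ktot] at this
        linarith
  · simp only [hit, push, mid]
    split_ifs
    · exact mul_nonneg hh hC.α_nonneg
    · exact hs.ab_nonneg u
  · simp only [hit, push, mid]
    split_ifs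
    · exact le_rfl
    · exact hs.ab_le u
  · -- fresh
    simp only [hit, push, mid] at hu
    have hne : C.cell u ≠ x := fun e => by simp [e] at hu
    rw [update_of_ne hne] at hu
    have hnm : ¬ C.moved j x s u := fun h => hne h.1
    simpa [hit, push, mid, hnm] using hs.fresh u hu
  · -- own
    have hku := (hk u).1
    show (C.mid j x b s).kR u + (C.mid j x b s).kL u ≤ s.start u + C.P.h * C.J₀
    split_ifs at hku with hmv
    · have := (hs.fresh u (by rw [hmv.1, hx])).1
      linarith
    · linarith [hs.own u]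
  · -- lin
    have hK : C.Kmax s u ≤ C.Kmax (C.hit j x b s) u :=
      Finset.sup'_le _ _ fun v hv => (hmono v).trans
        (Finset.le_sup' (C.hit j x b s).ktot hv)
    have hlin : 0 ≤ C.cLin := by rw [hC.cLin_eq]; positivity
    have h2 := mul_le_mul_of_nonneg_left (mul_le_mul_of_nonneg_left hK hlin) hh
    show (C.mid j x b s).kL u ≤ s.startL u + _
    simp only [mid]
    split_ifs with hmv
    · have := (hs.fresh u (by rw [hmv.1, hx])).2.1
      linarith
    · linarith [hs.lin u]

/-- A visit pays for its pushes. -/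
theorem hit_super {j : ℕ} {x : X} {s : St V X r} (hs : C.Base j s) (hT : InLevel C j s)
    (hx : s.seen x = none) (w : V) :
    C.RP w (C.hit j x true s) + C.Lam2 ^ 2 * ((C.hit j x true s).kP w - s.kP w) +
        (C.RP w (C.hit j x false s) + C.Lam2 ^ 2 * ((C.hit j x false s).kP w - s.kP w)) ≤
      2 * C.RP w s := by
  obtain ⟨hV, hsup⟩ := mid_super hC hs hT hx
  have h := fun b =>
    (push_res hC (law_next hC j hs.law _ _ : LawOn (C.mid j x b s).q _) (hV b) w).2
  have e : ∀ b, (C.hit j x b s).kP w - s.kP w = C.pushBy (C.mid j x b s) w := fun b => by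
    simp [hit, push, mid]
  rw [e, e]
  exact (add_le_add (h true) (h false)).trans (hsup w)

end Cfg

end Vale.Agent.P078.Any
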