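import Vale.Agent.P078.Any.Facts

/-!
Two windows that agree near a point: the cross products of their expansions agree in low degree.
-/

namespace Vale.Agent.P078.Any

open Function Finset

set_option linter.unusedSectionVars false

variable {V : Type} [DecidableEq V] {r : ℕ}

/-- The points of `S` reached from `u` inside `S` in at most `i` steps. -/
def reach (nb : V → Finset V) (S : Finset V) (u : V) : ℕ → Finset V
  | 0 => {u}
  | i + 1 => reach nb S u i ∪ S.filter fun b => ∃ a ∈ reach nb S u i, b ∈ nb a

variable {nb : V → Finset V} {S : Finset V} {u : V}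

theorem mem_reach_self (i : ℕ) : u ∈ reach nb S u i := by
  induction i with
  | zero => simp [reach]
  | succ i ih => exact mem_union_left _ ih

theorem reach_subset (hu : u ∈ S) (i : ℕ) : reach nb S u i ⊆ S := by
  induction i with
  | zero => simpa [reach] using hu
  | succ i ih => exact union_subset ih (filter_subset _ _)

theorem reach_subset_ball (i : ℕ) : reach nb S u i ⊆ ball nb i u := by
  induction i with
  | zero => simp [reach, ball]
  | succ i ih =>
    refine union_subset (ih.trans subset_union_left) fun b hb => ?_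
    obtain ⟨a, ha, hb⟩ := (mem_filter.1 hb).2
    exact mem_union_right _ (mem_biUnion.2 ⟨a, ih ha, hb⟩)

theorem reach_grow (i : ℕ) :
    reach nb S u (i + 1) = reach nb S u i ∨ i + 2 ≤ (reach nb S u (i + 1)).card := by
  induction i with
  | zero =>
    by_cases h : reach nb S u 1 = reach nb S u 0
    · exact .inl h
    · right
      have := card_lt_card (s := reach nb S u 0) (t := reach nb S u 1)
        ⟨subset_union_left, fun hh => h (hh.antisymm subset_union_left)⟩
      simp [reach] at this ⊢
      omega
  | succ i ih =>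
    by_cases h : reach nb S u (i + 1 + 1) = reach nb S u (i + 1)
    · exact .inl h
    right
    rcases ih with e | e
    · exact absurd (by conv_lhs => rw [reach, e]
                       rfl) h
    · have := card_lt_card (s := reach nb S u (i + 1)) (t := reach nb S u (i + 1 + 1))
        ⟨subset_union_left, fun hh => h (hh.antisymm subset_union_left)⟩
      omega

/-- In at most `n` steps the whole component inside a set of `n + 1` points is reached. -/
theorem reach_closed (hu : u ∈ S) {n : ℕ} (hn : S.card ≤ n + 1) {a b : V}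
    (ha : a ∈ reach nb S u n) (hb : b ∈ S) (hab : b ∈ nb a) : b ∈ reach nb S u n := by
  rcases reach_grow (nb := nb) (S := S) (u := u) n with e | e
  · rw [← e]
    exact mem_union_right _ (mem_filter.2 ⟨hb, a, ha, hab⟩)
  · have := card_le_card (reach_subset (nb := nb) hu (n + 1))
    omega

/-- Exchange two sets outside the component of `u` in their union. -/
def swapOut (nb : V → Finset V) (u : V) (n : ℕ) (p : Finset V × Finset V) :
    Finset V × Finset V :=
  let C := reach nb (insert u (p.1 ∪ p.2)) u n
  (p.1 ∩ C ∪ p.2 \ C, p.2 ∩ C ∪ p.1 \ C)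

theorem swapOut_union (n : ℕ) (p : Finset V × Finset V) :
    (swapOut nb u n p).1 ∪ (swapOut nb u n p).2 = p.1 ∪ p.2 := by
  ext x
  simp only [swapOut, mem_union, mem_inter, mem_sdiff]
  tauto

theorem swapOut_swapOut (n : ℕ) (p : Finset V × Finset V) :
    swapOut nb u n (swapOut nb u n p) = p := by
  obtain ⟨T, T'⟩ := p
  conv_lhs => rw [swapOut, swapOut_union]
  ext x <;> simp only [swapOut, mem_union, mem_inter, mem_sdiff] <;> tauto

theorem swapOut_card (n : ℕ) (p : Finset V × Finset V) :
    (swapOut nb u n p).1.card + (swapOut nb u n p).2.card = p.1.card + p.2.card := by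
  set C := reach nb (insert u (p.1 ∪ p.2)) u n
  have hd : ∀ A B : Finset V, Disjoint (A ∩ C) (B \ C) := fun A B =>
    disjoint_left.2 fun x hx hy => (mem_sdiff.1 hy).2 (mem_inter.1 hx).2
  simp only [swapOut]
  rw [card_union_of_disjoint (hd _ _), card_union_of_disjoint (hd _ _)]
  have h1 := card_inter_add_card_sdiff p.1 C
  have h2 := card_inter_add_card_sdiff p.2 C
  omega

variable (S : Sys V r) {w : V → Fin r → ℝ} {U B : Finset V} {z : V → ℝ}

/-- The component of `u` splits off in the product of two windows. -/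
theorem Sys.swap_prod (hw : LawOn w U) {u : V} (hu : u ∈ U) {n : ℕ}
    {p : Finset V × Finset V} (h1 : p.1 ⊆ U) (h2 : p.2 ⊆ U)
    (hn : p.1.card + p.2.card ≤ n) :
    S.F w (swapOut S.nb u n p).1 z * S.F w (swapOut S.nb u n p).2 z =
      S.F w p.1 z * S.F w p.2 z := by
  set A := insert u (p.1 ∪ p.2)
  set C := reach S.nb A u n
  have hA : A ⊆ U := insert_subset hu (union_subset h1 h2)
  have hcard : A.card ≤ n + 1 := by
    refine (card_insert_le _ _).trans ?_
    have := card_union_le p.1 p.2
    omega
  have split : ∀ P Q : Finset V, P ⊆ A → Q ⊆ A →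
      S.F w (P ∩ C ∪ Q \ C) z = S.F w (P ∩ C) z * S.F w (Q \ C) z := by
    intro P Q hP hQ
    refine S.mult w _ _ z (hw.mono ?_) ?_ fun a ha b hb hab => ?_
    · exact (union_subset (inter_subset_left.trans hP) (sdiff_subset.trans hQ)).trans hA
    · exact disjoint_left.2 fun x hx hy => (mem_sdiff.1 hy).2 (mem_inter.1 hx).2
    · exact (mem_sdiff.1 hb).2 (reach_closed (mem_insert_self _ _) hcard (mem_inter.1 ha).2
        (hQ (mem_sdiff.1 hb).1) hab)
  have hP : p.1 ⊆ A := subset_union_left.trans (subset_insert _ _)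
  have hQ : p.2 ⊆ A := subset_union_right.trans (subset_insert _ _)
  have e1 := split p.1 p.1 hP hP
  have e2 := split p.2 p.2 hQ hQ
  have epart : ∀ P : Finset V, P ∩ C ∪ P \ C = P := fun P => by
    ext y; simp only [mem_union, mem_inter, mem_sdiff]; tauto
  rw [epart] at e1 e2
  simp only [swapOut]
  rw [split p.1 p.2 hP hQ, split p.2 p.1 hQ hP, e1, e2]
  ring

/-- Expansion of a window along the diagonal. -/
theorem Sys.expand (hw : LawOn w U) (z : V → ℝ) (t : ℝ) :
    S.F w U (fun v => z v + t) = ∑ T ∈ U.powerset, t ^ (U.card - T.card) * S.F w T z := by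
  have key : ∀ A : Finset V, ∀ U' : Finset V, A ⊆ U' → LawOn w U' →
      S.F w U' (A.piecewise (fun v => z v + t) z) =
        ∑ T ∈ A.powerset, t ^ T.card * S.F w (U' \ T) z := by
    intro A
    induction A using Finset.induction with
    | empty => intro U' _ _; simp
    | @insert v A hv ih =>
      intro U' hA hw'
      rw [insert_subset_iff] at hA
      rw [piecewise_insert, S.affine w U' _ hw' v hA.1,
        piecewise_eq_of_notMem _ _ _ hv, add_sub_cancel_left, ih U' hA.2 hw',
        ih (U'.erase v) (subset_erase.2 ⟨hA.2, hv⟩) (hw'.mono (erase_subset _ _)),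
        sum_powerset_insert hv, mul_sum]
      congr 1
      refine sum_congr rfl fun T hT => ?_
      have hvT : v ∉ T := fun h => hv (mem_powerset.1 hT h)
      rw [card_insert_of_notMem hvT, sdiff_insert, erase_sdiff_comm, pow_succ]
      ring
  have h := key U U subset_rfl hw
  rw [S.congr w w U (U.piecewise (fun v => z v + t) z) (fun v => z v + t) (fun _ _ => rfl)
    fun v hv => piecewise_eq_of_mem _ _ _ hv] at h
  rw [h]
  refine sum_nbij' (fun T => U \ T) (fun T => U \ T) ?_ ?_ ?_ ?_ ?_
  · intro T hT; simp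
  · intro T hT; simp
  · intro T hT; exact Finset.sdiff_sdiff_eq_self (mem_powerset.1 hT)
  · intro T hT; exact Finset.sdiff_sdiff_eq_self (mem_powerset.1 hT)
  · intro T hT
    have hT' := mem_powerset.1 hT
    rw [card_sdiff_of_subset hT', Nat.sub_sub_self (card_le_card hT')]

theorem Sys.pow_card_le (hw : LawOn w U) (h : S.Valid w U z) {t : ℝ} (ht : 0 ≤ t) :
    t ^ U.card ≤ S.F w U fun v => z v + t := by
  rw [S.expand hw]
  refine le_trans (le_of_eq ?_) (single_le_sum (s := U.powerset)
    (fun T hT => mul_nonneg (pow_nonneg ht _) (h T (mem_powerset.1 hT)).le) (empty_mem_powerset U))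
  simp [S.empty]

/-- The cross products of the expansions agree in low degree. -/
theorem Sys.cross_bound (hw : LawOn w U) (hB : B ⊆ U) {u : V} (hu : u ∈ B) (n : ℕ)
    (hball : ball S.nb n u ∩ U ⊆ B) (z : V → ℝ) :
    ∃ C, 0 ≤ C ∧ ∀ t, 1 ≤ t →
      |S.F w (U.erase u) (fun v => z v + t) * S.F w B (fun v => z v + t) -
          S.F w (B.erase u) (fun v => z v + t) * S.F w U fun v => z v + t| * t ^ (n + 2) ≤
        C * t ^ (U.card + B.card) := by
  set D1 := (U.erase u).powerset ×ˢ B.powerset
  set D2 := (B.erase u).powerset ×ˢ U.powerset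
  set N := U.card - 1 + B.card with hN
  set f : Finset V × Finset V → ℝ := fun p => S.F w p.1 z * S.F w p.2 z
  have huU : u ∈ U := hB hu
  have hU1 := card_pos.2 ⟨u, huU⟩
  have hB1 := card_pos.2 ⟨u, hu⟩
  have exp1 : ∀ t, S.F w (U.erase u) (fun v => z v + t) * S.F w B (fun v => z v + t) =
      ∑ p ∈ D1, t ^ (N - (p.1.card + p.2.card)) * f p := fun t => by
    rw [S.expand (hw.mono (erase_subset _ _)), S.expand (hw.mono hB), sum_mul_sum,
      sum_product' (f := fun a b => t ^ (N - (a.card + b.card)) * (S.F w a z * S.F w b z))]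
    refine sum_congr rfl fun a ha => sum_congr rfl fun b hb => ?_
    have h1 := card_le_card (mem_powerset.1 ha)
    have h2 := card_le_card (mem_powerset.1 hb)
    rw [card_erase_of_mem huU] at h1 ⊢
    rw [show N - (a.card + b.card) = U.card - 1 - a.card + (B.card - b.card) by omega, pow_add]
    ring
  have exp2 : ∀ t, S.F w (B.erase u) (fun v => z v + t) * S.F w U (fun v => z v + t) =
      ∑ p ∈ D2, t ^ (N - (p.1.card + p.2.card)) * f p := fun t => by
    rw [S.expand (hw.mono ((erase_subset _ _).trans hB)), S.expand hw, sum_mul_sum,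
      sum_product' (f := fun a b => t ^ (N - (a.card + b.card)) * (S.F w a z * S.F w b z))]
    refine sum_congr rfl fun a ha => sum_congr rfl fun b hb => ?_
    have h1 := card_le_card (mem_powerset.1 ha)
    have h2 := card_le_card (mem_powerset.1 hb)
    rw [card_erase_of_mem hu] at h1 ⊢
    rw [show N - (a.card + b.card) = B.card - 1 - a.card + (U.card - b.card) by omega, pow_add]
    ring
  have hlow : ∀ t, ∑ p ∈ D1.filter (fun p => p.1.card + p.2.card ≤ n),
        t ^ (N - (p.1.card + p.2.card)) * f p =
      ∑ p ∈ D2.filter (fun p => p.1.card + p.2.card ≤ n),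
        t ^ (N - (p.1.card + p.2.card)) * f p := fun t => by
    refine sum_nbij' (swapOut S.nb u n) (swapOut S.nb u n) ?_ ?_
      (fun p _ => swapOut_swapOut n p) (fun p _ => swapOut_swapOut n p) ?_
    · intro p hp
      simp only [D1, D2, Finset.mem_coe, mem_filter, mem_product, mem_powerset] at hp ⊢
      rw [swapOut_card]
      obtain ⟨⟨h1, h2⟩, hn⟩ := hp
      have hC : ∀ x ∈ p.1 ∪ p.2, x ∈ reach S.nb (insert u (p.1 ∪ p.2)) u n → x ∈ B :=
        fun x hx hxC => hball (mem_inter.2 ⟨reach_subset_ball n hxC,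
          union_subset (h1.trans (erase_subset _ _)) (h2.trans hB) hx⟩)
      refine ⟨⟨fun x hx => ?_, fun x hx => ?_⟩, hn⟩
      · simp only [swapOut, mem_union, mem_inter, mem_sdiff] at hx
        rcases hx with ⟨hx, hxC⟩ | ⟨hx, hxC⟩
        · exact mem_erase.2 ⟨(mem_erase.1 (h1 hx)).1, hC x (mem_union_left _ hx) hxC⟩
        · exact mem_erase.2 ⟨fun e => hxC (e ▸ mem_reach_self n), h2 hx⟩
      · simp only [swapOut, mem_union, mem_inter, mem_sdiff] at hx
        rcases hx with ⟨hx, -⟩ | ⟨hx, -⟩
        · exact hB (h2 hx)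
        · exact mem_of_mem_erase (h1 hx)
    · intro p hp
      simp only [D1, D2, Finset.mem_coe, mem_filter, mem_product, mem_powerset] at hp ⊢
      rw [swapOut_card]
      obtain ⟨⟨h1, h2⟩, hn⟩ := hp
      refine ⟨⟨fun x hx => ?_, fun x hx => ?_⟩, hn⟩
      · simp only [swapOut, mem_union, mem_inter, mem_sdiff] at hx
        rcases hx with ⟨hx, -⟩ | ⟨hx, hxC⟩
        · exact mem_erase.2 ⟨(mem_erase.1 (h1 hx)).1, hB (mem_of_mem_erase (h1 hx))⟩
        · exact mem_erase.2 ⟨fun e => hxC (e ▸ mem_reach_self n), h2 hx⟩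
      · simp only [swapOut, mem_union, mem_inter, mem_sdiff] at hx
        rcases hx with ⟨hx, hxC⟩ | ⟨hx, -⟩
        · exact hball (mem_inter.2 ⟨reach_subset_ball n hxC, h2 hx⟩)
        · exact mem_of_mem_erase (h1 hx)
    · intro p hp
      simp only [D1, mem_filter, mem_product, mem_powerset] at hp
      rw [swapOut_card, show f (swapOut S.nb u n p) = f p from
        S.swap_prod hw huU (hp.1.1.trans (erase_subset _ _)) (hp.1.2.trans hB) hp.2]
  refine ⟨(∑ p ∈ D1, |f p|) + ∑ p ∈ D2, |f p|, by positivity, fun t ht => ?_⟩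
  have high : ∀ D : Finset (Finset V × Finset V), (∀ p ∈ D, p.1.card + p.2.card ≤ N) →
      |∑ p ∈ D.filter (fun p => ¬ p.1.card + p.2.card ≤ n),
          t ^ (N - (p.1.card + p.2.card)) * f p| * t ^ (n + 2) ≤
        t ^ (U.card + B.card) * ∑ p ∈ D, |f p| := fun D hD => by
    have ht0 : 0 ≤ t := by linarith
    rw [← abs_of_nonneg (pow_nonneg ht0 (n + 2)), ← abs_mul, sum_mul, mul_sum]
    refine (abs_sum_le_sum_abs _ _).trans
      ((sum_le_sum fun p hp => ?_).trans (sum_le_sum_of_subset_of_nonneg (filter_subset _ _)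
        fun p _ _ => mul_nonneg (pow_nonneg ht0 _) (abs_nonneg _)))
    rw [mem_filter] at hp
    rw [mul_right_comm, abs_mul, ← pow_add, abs_of_nonneg (pow_nonneg ht0 _)]
    refine mul_le_mul_of_nonneg_right ?_ (abs_nonneg _)
    have := hD p hp.1
    exact pow_le_pow_right₀ ht (by omega)
  rw [exp1, exp2, ← sum_filter_add_sum_filter_not D1 (fun p => p.1.card + p.2.card ≤ n),
    ← sum_filter_add_sum_filter_not D2 (fun p => p.1.card + p.2.card ≤ n), hlow,
    add_sub_add_left_eq_sub]
  refine le_trans (mul_le_mul_of_nonneg_right (abs_sub _ _) (by positivity)) ?_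
  rw [add_mul, add_mul, mul_comm _ (t ^ (U.card + B.card)),
    mul_comm (∑ p ∈ D2, |f p|) (t ^ (U.card + B.card))]
  refine add_le_add (high D1 fun p hp => ?_) (high D2 fun p hp => ?_)
  all_goals
    simp only [D1, D2, mem_product, mem_powerset] at hp
    have h1 := card_le_card hp.1
    have h2 := card_le_card hp.2
    simp only [card_erase_of_mem hu, card_erase_of_mem huU] at h1
    omega

end Vale.Agent.P078.Any
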