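import Vale.Agent.P078.Any.Perturb

/-!
The shift that one visit needs: it is linear in the shifts of the neighbourhood, up to a small
constant, apart from a term with a quadratic gain.
-/

namespace Vale.Agent.P078.Any

open Finset Function

set_option linter.unusedSectionVars false

variable {V : Type} [DecidableEq V] {r : ℕ}

/-- The bound of the number of points of a ball. -/
def ballCard (d L : ℕ) : ℕ := (d + 1) ^ L

theorem card_ball_le (nb : V → Finset V) {d : ℕ} (hd : ∀ v, (nb v).card ≤ d) :
    ∀ L u, (ball nb L u).card ≤ ballCard d L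
  | 0, u => by simp [ball, ballCard]
  | L + 1, u => by
    have h1 := card_ball_le nb hd L u
    have h2 : ((ball nb L u).biUnion nb).card ≤ (ball nb L u).card * d :=
      Finset.card_biUnion_le_card_mul _ _ _ fun v _ => hd v
    calc (ball nb (L + 1) u).card ≤ (ball nb L u).card + ((ball nb L u).biUnion nb).card :=
          Finset.card_union_le _ _
      _ ≤ (ball nb L u).card * (d + 1) := by rw [mul_add, mul_one]; omega
      _ ≤ ballCard d (L + 1) := by
          rw [ballCard, pow_succ]; exact Nat.mul_le_mul_right _ h1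

theorem self_mem_ball (nb : V → Finset V) : ∀ n u, u ∈ ball nb n u
  | 0, u => by simp [ball]
  | n + 1, u => Finset.mem_union_left _ (self_mem_ball nb n u)

theorem shift_const (a b : ℝ) : shift (fun _ : V => a) b = fun _ => a + b := rfl

/-- The error of locality. -/
noncomputable def locErr (g : ℝ) (L : ℕ) : ℝ := 4 * Real.exp (-(L * Real.sqrt (g / 2 / 5)))

/-- The Lipschitz error. -/
noncomputable def lipErr (N : ℕ) (g ε : ℝ) : ℝ :=
  2 * fBound N * (N * (ε * fBound N)) / ((g / 4) ^ N / 2) ^ 2

/-- What is known when a point that moves is visited. -/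
structure Visiting (S : Sys V r) (qs q : V → Fin r → ℝ) (W : Finset V) (z : V → ℝ) (u : V)
    (x : Fin r → ℝ) (N L : ℕ) (lev g Lam Lam2 ε η K e : ℝ) : Prop where
  g_pos : 0 < g
  g_le : g ≤ 1 / 4
  Lam_le : 1 ≤ Lam
  lev_lo : 0 ≤ lev
  lev_hi : lev ≤ 4
  ε_nonneg : 0 ≤ ε
  K_nonneg : 0 ≤ K
  e_nonneg : 0 ≤ e
  e_le : e ≤ g
  loc_small : locErr g L * Lam2 ≤ Lam * g
  lip_small : lipErr N g ε ≤ Lam * g / 4
  lip_dom : N * (ε * fBound N) ≤ (g / 4) ^ N / 2
  card : (ball S.nb L u).card ≤ N
  mem : u ∈ W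
  law : LawOn q W
  law_ball : LawOn q (ball S.nb L u)
  law_start : LawOn qs (ball S.nb L u)
  eq_self : q u = qs u
  close : ∀ v ∈ ball S.nb L u, ∑ c, |q v c - qs v c| ≤ ε
  valid : S.Valid q W z
  z_hi : ∀ v ∈ W, z v ≤ 9 / 2
  z_lo : ∀ v ∈ W, lev ≤ z v
  z_near : ∀ v ∈ ball S.nb L u, v ∈ W → z v ≤ lev + K + e
  deleted : ¬ ball S.nb L u ⊆ W → 1 / 2 ≤ K
  res_le : S.Res q W z u ≤ Lam2
  test_valid : S.Valid qs (ball S.nb L u) fun _ => lev + g / 4
  test_res : S.Res qs (ball S.nb L u) (fun _ => lev + g / 4) u ≤ 2 * Lam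
  test_slope : S.Res qs (ball S.nb L u) (fun _ => lev + g / 4) u -
    S.Res qs (ball S.nb L u) (fun _ => lev + g / 2) u ≤ 2 * Lam * g
  x_le : ∀ c, |x c| ≤ 1
  x_sum : ∑ c, q u c * x c = 0
  x_bal : |∑ c, qs u c * x c * S.hc qs (ball S.nb L u) (fun _ => lev + g) u c| ≤ η

namespace Visiting

variable {S : Sys V r} {qs q : V → Fin r → ℝ} {W : Finset V} {z : V → ℝ} {u : V}
  {x : Fin r → ℝ} {N L : ℕ} {lev g Lam Lam2 ε η K e : ℝ}
  (H : Visiting S qs q W z u x N L lev g Lam Lam2 ε η K e)

include H

theorem mem_inter : u ∈ ball S.nb L u ∩ W := mem_inter_of_mem (self_mem_ball _ _ _) H.mem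

theorem close_at {a : ℝ} (h1 : lev + g / 4 ≤ a) (h2 : a + g / 4 ≤ 5) :
    Close S qs q (ball S.nb L u) (fun _ => a + g / 4) N (N * (ε * fBound N))
      ((g / 4) ^ N / 2) := by
  have := H.g_pos
  have := H.g_le
  have := H.lev_lo
  exact Close.of_shift (z₀ := fun _ => a) H.law_start H.law_ball H.card
    (S.facts.valid_mono H.law_start H.test_valid fun _ _ => h1) (by linarith) (by linarith)
    (fun v _ => by rw [abs_of_nonneg (by linarith)]; exact h2) H.ε_nonneg H.close H.lip_dom

theorem close_mid : Close S qs q (ball S.nb L u) (fun _ => lev + g / 2) N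
    (N * (ε * fBound N)) ((g / 4) ^ N / 2) := by
  convert H.close_at (a := lev + g / 4) le_rfl (by linarith [H.lev_hi, H.g_le]) using 2
  ring

theorem close_top : Close S qs q (ball S.nb L u) (fun _ => lev + g) N
    (N * (ε * fBound N)) ((g / 4) ^ N / 2) := by
  convert H.close_at (a := lev + 3 * g / 4) (by linarith [H.g_pos])
    (by linarith [H.lev_hi, H.g_le]) using 2
  ring

theorem valid_mid : S.Valid q (ball S.nb L u) fun _ => lev + g / 2 := H.close_mid.valid'

theorem valid_top : S.Valid q (ball S.nb L u) fun _ => lev + g := H.close_top.valid'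

/-- The bounds in the ball, with the current laws. -/
theorem ball_bounds :
    S.Res q (ball S.nb L u) (fun _ => lev + g) u ≤ 3 * Lam ∧
      S.Res q (ball S.nb L u) (fun _ => lev + g / 2) u -
        S.Res q (ball S.nb L u) (fun _ => lev + g) u ≤ 5 * Lam * g := by
  have hu := self_mem_ball S.nb L u
  have hg := H.g_pos
  have h1 := (abs_sub_le_iff.1 (H.close_mid.res u)).1
  have h1' := (abs_sub_le_iff.1 (H.close_top.res u)).2
  have h2 := (abs_sub_le_iff.1 (H.close_top.res u)).1
  have hl := H.lip_small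
  unfold lipErr at hl
  have hq := quotient_le H.law_start H.test_valid hu (a := 0) (b := g / 4) (a' := g / 4)
    (b' := 3 * g / 4) le_rfl (by linarith) (by linarith) (by linarith) (by linarith)
  simp only [shift_const, add_zero, sub_zero] at hq
  rw [show lev + g / 4 + g / 4 = lev + g / 2 by ring,
    show lev + g / 4 + 3 * g / 4 = lev + g by ring] at hq
  have ht := S.facts.res_anti H.law_start H.test_valid (z' := fun _ => lev + g)
    (fun _ _ => by linarith) hu
  have hs := H.test_slope
  have hr := H.test_res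
  have hL : Lam * g ≤ Lam := by nlinarith [H.g_le, H.Lam_le]
  constructor
  · linarith
  · have : S.Res qs (ball S.nb L u) (fun _ => lev + g / 2) u -
        S.Res qs (ball S.nb L u) (fun _ => lev + g) u ≤ 4 * Lam * g := by
      nlinarith [hq, hs]
    linarith

/-- The ball inside the window, moved up. -/
theorem valid_inter (t : ℝ) (ht : 0 ≤ t) :
    S.Valid q (ball S.nb L u ∩ W) (shift z t) :=
  S.facts.valid_mono (H.law.mono inter_subset_right) (H.valid.mono inter_subset_right)
    fun _ _ => le_add_of_nonneg_right ht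

theorem res_inter_le (a : ℝ) (ha : S.Valid q (ball S.nb L u) fun _ => lev + a) :
    S.Res q (ball S.nb L u ∩ W) (shift z a) u ≤
      S.Res q (ball S.nb L u) (fun _ => lev + a) u :=
  (S.facts.res_anti (H.law_ball.mono inter_subset_left) (ha.mono inter_subset_left)
    (fun v hv => add_le_add (H.z_lo v (mem_of_mem_inter_right hv)) le_rfl) H.mem_inter).trans
    (S.facts.res_window H.law_ball ha inter_subset_left H.mem_inter)

/-- The shifts of the neighbourhood lower the resolvent entry linearly. -/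
theorem res_gap : S.Res q (ball S.nb L u) (fun _ => lev + g) u -
    S.Res q (ball S.nb L u ∩ W) (shift z g) u ≤ 10 * Lam * (K + e) := by
  have hu := self_mem_ball S.nb L u
  have hg := H.g_pos
  have hK := H.K_nonneg
  have he := H.e_nonneg
  have hLam := H.Lam_le
  obtain ⟨hb1, hb2⟩ := H.ball_bounds
  by_cases hsub : ball S.nb L u ⊆ W
  · rw [inter_eq_left.2 hsub]
    have hq := quotient_le H.law_ball H.valid_mid hu (a := 0) (b := g / 2) (a' := g / 2)
      (b' := g / 2 + (K + e)) le_rfl (by linarith) (by linarith) (by linarith) (by linarith)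
    simp only [shift_const, add_zero, sub_zero] at hq
    rw [show lev + g / 2 + g / 2 = lev + g by ring,
      show lev + g / 2 + (g / 2 + (K + e)) = lev + g + (K + e) by ring] at hq
    have hm := S.facts.res_anti (z' := fun _ => lev + g + (K + e)) H.law_ball
      (H.valid_inter g hg.le |>.mono (by rw [inter_eq_left.2 hsub]))
      (fun v hv => by
        have := H.z_near v hv (hsub hv)
        simp only [shift]
        linarith) hu
    have : (g / 2) * (S.Res q (ball S.nb L u) (fun _ => lev + g) u -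
        S.Res q (ball S.nb L u) (fun _ => lev + g + (K + e)) u) ≤
          (g / 2) * (10 * Lam * (K + e)) := by
      refine hq.trans ?_
      nlinarith [mul_le_mul_of_nonneg_left hb2 (show 0 ≤ K + e by linarith)]
    have := le_of_mul_le_mul_left this (by linarith)
    linarith
  · have h1 := res_pos (H.law.mono inter_subset_right) (H.valid_inter g hg.le) H.mem_inter
    have h2 := H.deleted hsub
    nlinarith [hb1, h1, h2, hLam, he]

theorem one_fifth_le {a : ℝ} (ha : 0 ≤ a) (ha' : a ≤ g) :
    1 / 5 ≤ S.Res q (ball S.nb L u ∩ W) (shift z a) u := by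
  have hl := H.valid_inter a ha
  have hlo := S.facts.res_lower (H.law.mono inter_subset_right) hl H.mem_inter
  refine le_trans ?_ hlo
  have h1 := hl {u} (singleton_subset_iff.2 H.mem_inter)
  rw [S.single _ _ _ (H.law.mono (singleton_subset_iff.2 H.mem))] at h1
  exact one_div_le_one_div_of_le h1
    (by simp only [shift]; linarith [H.z_hi u H.mem, H.g_le])

/-- Two self energies that are ordered differ by the gap of the inverse resolvent entries. -/
theorem abs_sum_le {h h' : Fin r → ℝ} {R R' B : ℝ} (hh : ∀ c, h' c ≤ h c)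
    (hR' : 1 / 5 ≤ R') (hR : R' ≤ R)
    (hB : ∑ c, q u c * h c - ∑ c, q u c * h' c ≤ 1 / R' - 1 / R) (hD : R - R' ≤ B) :
    |∑ c, q u c * x c * h c - ∑ c, q u c * x c * h' c| ≤ 25 * B := by
  rw [← Finset.sum_sub_distrib]
  refine (Finset.abs_sum_le_sum_abs _ _).trans (le_trans (Finset.sum_le_sum
    (g := fun c => q u c * h c - q u c * h' c) fun c _ => ?_) ?_)
  · rw [← mul_sub, abs_mul, abs_mul, abs_of_nonneg ((H.law u H.mem).1 c), ← mul_sub,
      abs_of_nonneg (sub_nonneg.2 (hh c))]
    exact mul_le_mul_of_nonneg_right (mul_le_of_le_one_right ((H.law u H.mem).1 c) (H.x_le c))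
      (sub_nonneg.2 (hh c))
  · rw [Finset.sum_sub_distrib]
    refine hB.trans ?_
    have h0 : 0 < R' := by linarith
    rw [div_sub_div _ _ h0.ne' (h0.trans_le hR).ne', div_le_iff₀ (mul_pos h0 (h0.trans_le hR))]
    nlinarith [mul_le_mul hR' (hR'.trans hR) (by norm_num : (0 : ℝ) ≤ 1 / 5) h0.le]

/-- The size of the unbalance. -/
theorem abs_M_le : |∑ c, q u c * x c * S.hc q W z u c| ≤ 4 := by
  have hV := H.valid.mono (erase_subset u W)
  have e : ∑ c, q u c * x c * S.hc q W z u c =
      ∑ c, q u c * x c * (S.hc q W z u c - 1 / 2) := by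
    simp only [mul_sub, Finset.sum_sub_distrib, ← Finset.sum_mul, H.x_sum, zero_mul, sub_zero]
  rw [e]
  refine (Finset.abs_sum_le_sum_abs _ _).trans (le_trans (Finset.sum_le_sum
    (g := fun c => q u c * S.hc q W z u c - q u c * (1 / 2)) fun c _ => ?_) ?_)
  · rw [abs_mul, abs_mul, abs_of_nonneg ((H.law u H.mem).1 c), ← mul_sub,
      abs_of_nonneg (sub_nonneg.2 (S.facts.hc_ge H.law H.mem hV c))]
    exact mul_le_mul_of_nonneg_right (mul_le_of_le_one_right ((H.law u H.mem).1 c) (H.x_le c))
      (sub_nonneg.2 (S.facts.hc_ge H.law H.mem hV c))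
  · rw [Finset.sum_sub_distrib, S.facts.hc_sum H.law H.mem hV, ← Finset.sum_mul,
      (H.law u H.mem).2]
    have := one_div_pos.2 (res_pos H.law H.valid H.mem)
    linarith [H.z_hi u H.mem]

theorem res_inter_le_window (a : ℝ) (ha : 0 ≤ a) :
    S.Res q (ball S.nb L u ∩ W) (shift z a) u ≤ S.Res q W (shift z a) u :=
  S.facts.res_window H.law
    (S.facts.valid_mono H.law H.valid fun _ _ => le_add_of_nonneg_right ha) inter_subset_right
    H.mem_inter

theorem res_shift_le (a : ℝ) (ha : 0 ≤ a) : S.Res q W (shift z a) u ≤ S.Res q W z u :=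
  S.facts.res_anti H.law H.valid (fun _ _ => le_add_of_nonneg_right ha) H.mem

/-- The tail outside the ball. -/
theorem res_window_sub_le (hloc : LocalityStatement) {t : ℝ} (ht : g / 2 ≤ t) (ht' : t ≤ g) :
    S.Res q W (shift z t) u - S.Res q (ball S.nb L u ∩ W) (shift z t) u ≤ locErr g L * Lam2 := by
  have hg := H.g_pos
  have h := hloc V r S q W (ball S.nb L u ∩ W) z u L 5 t H.law H.valid inter_subset_right
    H.mem_inter subset_rfl (fun v hv => by linarith [H.z_hi v hv]) (by linarith)
    (by linarith [H.g_le])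
  refine ((le_abs_self _).trans h).trans ?_
  refine mul_le_mul ?_ ((H.res_shift_le t (by linarith)).trans H.res_le)
    (res_pos H.law (S.facts.valid_mono H.law H.valid fun _ _ =>
      le_add_of_nonneg_right (by linarith)) H.mem).le (by unfold locErr; positivity)
  unfold locErr
  refine mul_le_mul_of_nonneg_left (Real.exp_le_exp.2 (neg_le_neg ?_)) (by norm_num)
  exact mul_le_mul_of_nonneg_left (Real.sqrt_le_sqrt (by linarith)) (Nat.cast_nonneg L)

/-- The drop of the resolvent entry across the gap has a quadratic gain. -/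
theorem drop_le (hloc : LocalityStatement) {e₀ : ℝ} (he₀ : 0 < e₀) :
    S.Res q W z u - S.Res q W (shift z g) u ≤
      e₀ + (1 + K / g) * min ((1 + 5 * Lam / e₀) * (32 * Lam) * g ^ 2 *
        (S.slope q W z u / (Lam + S.Res q W z u))) Lam2 := by
  have hg := H.g_pos
  have hK : 0 ≤ K / g := div_nonneg H.K_nonneg hg.le
  set a := S.Res q W z u - S.Res q W (shift z g) u with ha
  have hR := res_pos H.law H.valid H.mem
  have hD := slope_nonneg H.law H.valid H.mem
  have hLam := H.Lam_le
  have hW := res_pos H.law (S.facts.valid_mono H.law H.valid fun _ _ =>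
    le_add_of_nonneg_right hg.le : S.Valid q W (shift z g)) H.mem
  have hL2 : 0 ≤ Lam2 := hR.le.trans H.res_le
  rcases le_or_gt a e₀ with h | h
  · exact h.trans (le_add_of_nonneg_right (mul_nonneg (by linarith)
      (le_min (by positivity) hL2)))
  have hsq := sq_drop_le H.law H.valid H.mem hg
  have hloc1 := H.res_window_sub_le hloc le_rfl (by linarith : g / 2 ≤ g)
  have hloc2 := H.res_window_sub_le hloc (by linarith : g / 2 ≤ g) le_rfl
  have hsm := H.loc_small
  have h1 := H.res_inter_le (g / 2) H.valid_mid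
  have h2 := H.res_inter_le_window g hg.le
  have h3 := H.res_gap
  have h4 := H.res_inter_le g H.valid_top
  obtain ⟨hb1, hb2⟩ := H.ball_bounds
  have hd : S.Res q W (shift z (g / 2)) u - S.Res q W (shift z g) u ≤
      16 * Lam * g * (1 + K / g) := by
    have : 16 * Lam * g * (1 + K / g) = 16 * Lam * g + 16 * Lam * K := by field_simp
    rw [this]
    nlinarith [H.e_le, H.K_nonneg]
  have hy : Lam + S.Res q W z u ≤ a * (1 + 5 * Lam / e₀) := by
    have : a * (1 + 5 * Lam / e₀) = a + 5 * Lam * (a / e₀) := by field_simp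
    rw [this]
    have h1' : 1 ≤ a / e₀ := (one_le_div he₀).2 h.le
    have : Lam * g ≤ Lam := by nlinarith [H.g_le]
    nlinarith
  have hle : a ≤ (1 + K / g) * ((1 + 5 * Lam / e₀) * (32 * Lam) * g ^ 2 *
      (S.slope q W z u / (Lam + S.Res q W z u))) := by
    rw [show (1 + K / g) * ((1 + 5 * Lam / e₀) * (32 * Lam) * g ^ 2 *
      (S.slope q W z u / (Lam + S.Res q W z u))) = (1 + 5 * Lam / e₀) *
        (2 * g * S.slope q W z u * (16 * Lam * g * (1 + K / g))) /
          (Lam + S.Res q W z u) by ring, le_div_iff₀ (by linarith)]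
    calc a * (Lam + S.Res q W z u) ≤ a * (a * (1 + 5 * Lam / e₀)) :=
          mul_le_mul_of_nonneg_left hy (he₀.trans h).le
      _ = (1 + 5 * Lam / e₀) * a ^ 2 := by ring
      _ ≤ _ := mul_le_mul_of_nonneg_left
          (hsq.trans (mul_le_mul_of_nonneg_left hd (by positivity))) (by positivity)
  rw [mul_min_of_nonneg _ _ (by linarith : (0 : ℝ) ≤ 1 + K / g)]
  refine le_add_of_nonneg_of_le he₀.le (le_min hle ?_)
  have := H.res_le
  nlinarith [mul_nonneg hK hL2]

/-- The shift that a visit needs. -/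
theorem shift_le (hloc : LocalityStatement) {e₀ : ℝ} (he₀ : 0 < e₀) :
    2 * |∑ c, q u c * x c * S.hc q W z u c| *
        (|∑ c, q u c * x c * S.hc q W z u c| * S.Res q W z u + 1) ≤
      (700 * Lam * e₀ + 700 * Lam * (locErr g L * Lam2) + 6500 * Lam ^ 2 * e +
          26 * Lam * (lipErr N g ε + η)) +
        700 * Lam * (1 + K / g) * min ((1 + 5 * Lam / e₀) * (32 * Lam) * g ^ 2 *
          (S.slope q W z u / (Lam + S.Res q W z u))) Lam2 +
        6500 * Lam ^ 2 * K := by
  have hg := H.g_pos
  have hu := self_mem_ball S.nb L u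
  have hu' := H.mem_inter
  set B := ball S.nb L u
  set Rw := S.Res q W z u
  set Ri := S.Res q (B ∩ W) (shift z g) u
  set Rb := S.Res q B (fun _ => lev + g) u
  have hlawI := H.law.mono (T := B ∩ W) inter_subset_right
  have hVI := H.valid_inter g hg.le
  have hRi := H.one_fifth_le hg.le le_rfl
  have h1 := H.res_inter_le_window g hg.le
  have h2 := H.res_shift_le g hg.le
  have h3 : Ri ≤ Rb := H.res_inter_le g H.valid_top
  have hgap : Rb - Ri ≤ 10 * Lam * (K + e) := H.res_gap
  have hW := H.valid.mono (erase_subset u W)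
  have hI := hVI.mono (erase_subset u (B ∩ W))
  have hB := H.valid_top.mono (erase_subset u B)
  have hI0 : S.Valid q ((B ∩ W).erase u) z :=
    H.valid.mono ((erase_subset _ _).trans inter_subset_right)
  have ord1 : ∀ c, S.hc q (B ∩ W) (shift z g) u c ≤ S.hc q W z u c := fun c =>
    (S.facts.hc_anti hlawI hu' hI0 (fun v _ _ => le_add_of_nonneg_right hg.le) c).trans
      (S.facts.hc_window H.law inter_subset_right hu' hW c)
  have ord2 : ∀ c, S.hc q (B ∩ W) (shift z g) u c ≤ S.hc q B (fun _ => lev + g) u c := fun c =>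
    (S.facts.hc_anti hlawI hu'
      (H.valid_top.mono ((erase_subset _ _).trans inter_subset_left))
      (fun v hv _ => add_le_add (H.z_lo v (mem_of_mem_inter_right hv)) le_rfl) c).trans
      (S.facts.hc_window H.law_ball inter_subset_left hu' hB c)
  have dif1 := H.abs_sum_le (B := Rw - Ri) ord1 hRi (h1.trans h2) (by
    rw [S.facts.hc_sum H.law H.mem hW, S.facts.hc_sum hlawI hu' hI]
    simp only [shift]; linarith) le_rfl
  have dif2 := H.abs_sum_le (B := Rb - Ri) ord2 hRi h3 (by
    rw [S.facts.hc_sum H.law_ball hu hB, S.facts.hc_sum hlawI hu' hI]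
    simp only [shift]; linarith [H.z_lo u H.mem]) le_rfl
  have dif3 : |∑ c, q u c * x c * S.hc q B (fun _ => lev + g) u c -
      ∑ c, q u c * x c * S.hc qs B (fun _ => lev + g) u c| ≤ lipErr N g ε := by
    rw [← Finset.sum_sub_distrib]
    refine (Finset.abs_sum_le_sum_abs _ _).trans ((Finset.sum_le_sum
      (g := fun c => q u c * lipErr N g ε) fun c _ => ?_).trans (le_of_eq ?_))
    · rw [← mul_sub, abs_mul, abs_mul, abs_of_nonneg ((H.law u H.mem).1 c)]
      exact mul_le_mul (mul_le_of_le_one_right ((H.law u H.mem).1 c) (H.x_le c))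
        (H.close_top.hc H.close H.ε_nonneg le_rfl c) (abs_nonneg _) ((H.law u H.mem).1 c)
    · rw [← Finset.sum_mul, (H.law u H.mem).2, one_mul]
  have bal := H.x_bal
  rw [← H.eq_self] at bal
  set M := |∑ c, q u c * x c * S.hc q W z u c|
  have hM : M ≤ 25 * (Rw - Ri) + 250 * Lam * (K + e) + lipErr N g ε + η := by
    have a1 := abs_sub_abs_le_abs_sub (∑ c, q u c * x c * S.hc q W z u c)
      (∑ c, q u c * x c * S.hc q (B ∩ W) (shift z g) u c)
    have a2 := abs_sub_abs_le_abs_sub (∑ c, q u c * x c * S.hc q (B ∩ W) (shift z g) u c)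
      (∑ c, q u c * x c * S.hc q B (fun _ => lev + g) u c)
    rw [abs_sub_comm] at a2
    have a3 := abs_sub_abs_le_abs_sub (∑ c, q u c * x c * S.hc q B (fun _ => lev + g) u c)
      (∑ c, q u c * x c * S.hc qs B (fun _ => lev + g) u c)
    linarith
  have hM4 : M ≤ 4 := H.abs_M_le
  have hM0 : 0 ≤ M := abs_nonneg _
  have hRb : Rb ≤ 3 * Lam := H.ball_bounds.1
  have hdrop := H.drop_le hloc he₀
  have hloc2 := H.res_window_sub_le hloc (by linarith : g / 2 ≤ g) le_rfl
  have hLam := H.Lam_le
  have hT : 0 ≤ Rw - Ri := by linarith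
  have step : 2 * M * (M * Rw + 1) ≤ 700 * Lam * (Rw - Ri) + 6500 * Lam ^ 2 * (K + e) +
      26 * Lam * (lipErr N g ε + η) := by
    have s1 : 2 * M * (M * Rw + 1) ≤ 2 * (16 * (Rw - Ri) + 13 * Lam * M) := by
      have e1 : M * Rw ≤ M * (Rw - Ri) + 3 * Lam * M := by nlinarith
      have e2 : M * M * (Rw - Ri) ≤ 16 * (Rw - Ri) := by
        nlinarith [mul_le_mul hM4 hM4 hM0 (by norm_num : (0 : ℝ) ≤ 4)]
      nlinarith [mul_le_mul_of_nonneg_left e1 hM0, mul_le_mul_of_nonneg_left hM4 hM0]
    have s2 := mul_le_mul_of_nonneg_left hM (show (0 : ℝ) ≤ 26 * Lam by linarith)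
    nlinarith [hT]
  have hRi' : Rw - Ri ≤ (S.Res q W z u - S.Res q W (shift z g) u) + locErr g L * Lam2 := by
    linarith
  have := mul_le_mul_of_nonneg_left (hRi'.trans (add_le_add hdrop le_rfl))
    (show (0 : ℝ) ≤ 700 * Lam by linarith)
  linarith

end Visiting

end Vale.Agent.P078.Any
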