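import Vale.Agent.P078.Any.Basic

/-!
Orbit windows without a measure, and the statement of paving for every probability functional.
-/

namespace Vale.Agent.P078.Any

open scoped ComplexOrder

/-- A finitely generated action on a totally disconnected compact space with window matrices of a
positive contraction with diagonal one half. No measure is part of the data. -/
structure Model (Ω : Type) [TopologicalSpace Ω] (L : ℕ) where
  /-- The generators. -/
  T : Fin L → (Ω ≃ₜ Ω)
  /-- The position of the inverse of a generator. -/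
  inv : Fin L → Fin L
  T_inv : ∀ g ω, T (inv g) (T g ω) = ω
  /-- Matrix entries between two labels over a base point. -/
  ent : List (Fin L) → List (Fin L) → C(Ω, ℂ)
  /-- Coincidence of labels is locally constant. -/
  isOpen_eq : ∀ w w' : List (Fin L),
    IsOpen {ω | w.foldr (fun g v => T g v) ω = w'.foldr (fun g v => T g v) ω}
  /-- Two labellings of the same points give matrices conjugate by a diagonal unitary. -/
  gauge : ∀ (n : ℕ) (φ φ' : Fin n → List (Fin L)) (ω ω' : Ω),
    Function.Injective (fun i => (φ i).foldr (fun g v => T g v) ω) →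
    (∀ i, (φ i).foldr (fun g v => T g v) ω = (φ' i).foldr (fun g v => T g v) ω') →
    ∃ d : Fin n → ℂ, (∀ i, ‖d i‖ = 1) ∧
      ∀ i j, ent (φ' i) (φ' j) ω' = star (d i) * ent (φ i) (φ j) ω * d j
  posSemidef : ∀ (n : ℕ) (φ : Fin n → List (Fin L)) (ω : Ω),
    Function.Injective (fun i => (φ i).foldr (fun g v => T g v) ω) →
    (Matrix.of fun i j => ent (φ i) (φ j) ω).PosSemidef ∧
      (1 - Matrix.of fun i j => ent (φ i) (φ j) ω).PosSemidef
  diag : ∀ w ω, ent w w ω = 1 / 2
  /-- Finite propagation. -/
  range_one : ∀ w w' ω,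
    w.foldr (fun g v => T g v) ω ≠ w'.foldr (fun g v => T g v) ω →
    (∀ g, T g (w.foldr (fun g v => T g v) ω) ≠ w'.foldr (fun g v => T g v) ω) →
    ent w w' ω = 0

namespace Model

variable {Ω : Type} [TopologicalSpace Ω] {L : ℕ} (O : Model Ω L)

/-- The point named by a word. -/
def act (w : List (Fin L)) (ω : Ω) : Ω := w.foldr (fun g v => O.T g v) ω

open Classical in
/-- The neighbours: the images under the generators. -/
noncomputable def nb (ω : Ω) : Finset Ω := Finset.univ.image fun g => O.T g ω

open Classical in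
/-- A chosen name of a point seen from `ω`, the empty word for `ω` itself. -/
noncomputable def name (ω v : Ω) : List (Fin L) :=
  if v = ω then [] else if h : ∃ w, O.act w ω = v then h.choose else []

open Classical in
/-- The window of a point, pinched by a colouring, is within `b` of one half. -/
def Paved {r : ℕ} (b : ℝ) (κ : Ω → Fin r) (k : ℕ) (ω : Ω) : Prop :=
  PavedBy b
    (Matrix.of fun v u : ball O.nb k ω => O.ent (O.name ω v) (O.name ω u) ω) fun v => κ v

end Model

/-- Block D: for every probability functional, a locally constant colouring paves all windows of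
radius `k` outside a set of small mass. -/
def PavingStatement : Prop :=
  ∀ (Ω : Type) [TopologicalSpace Ω] [CompactSpace Ω] [T2Space Ω] [TotallyDisconnectedSpace Ω]
    (L r k : ℕ) (δ : ℝ) (O : Model Ω L) (μ : C(Ω, ℝ) →ₗ[ℝ] ℝ),
    0 < r → 0 < δ → (∀ f : C(Ω, ℝ), 0 ≤ f → 0 ≤ μ f) → μ 1 = 1 →
    ∃ κ : Ω → Fin r, IsLocallyConstant κ ∧
      ∃ D : C(Ω, ℝ), (∀ ω, 0 ≤ D ω) ∧
        (∀ ω, ¬ O.Paved (10 / Real.sqrt r) κ k ω → 1 ≤ D ω) ∧ μ D ≤ δ

end Vale.Agent.P078.Any
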