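import Vale.Agent.P078.Any.Potential

/-!
The moments of the shifts along the rounds.
-/

namespace Vale.Agent.P078.Any

open Finset Function

set_option linter.unusedSectionVars false

variable {V X : Type} [DecidableEq V] [Fintype X] [DecidableEq X] {r : ℕ}

namespace Cfg

variable (C : Cfg V X r)

/-- The initial state. -/
noncomputable def init : St V X r where
  q0 := fun _ _ => 1 / r
  q := fun _ _ => 1 / r
  seen := fun _ => none
  W := C.win 0
  T := C.P.T0
  kR := 0
  kL := 0
  kP := 0
  ab := 0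
  start := 0
  startL := 0
  prev := 0
  prevL := 0
  dirty := false

/-- The initial level is above the roots, with resolvent entries at most `R₀`. -/
structure Start (R₀ : ℝ) : Prop where
  pos : 0 < r
  valid : C.S.Valid (fun _ _ => 1 / r) (C.win 0) fun _ => C.P.T0
  res : ∀ u ∈ C.win 0, C.S.Res (fun _ _ => 1 / r) (C.win 0) (fun _ => C.P.T0) u ≤ R₀
  le : R₀ ≤ C.Lam2
  L_pos : 0 < C.P.L
  rise : 0 < C.P.rise
  h_pos : 0 < C.P.h
  slots : (C.P.m + 1) * (C.K + 1) * Fintype.card X ≤ C.K ^ 2

/-- The moment bound of a push. -/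
noncomputable def cP : ℝ := 2 * C.P.L / C.Lam2

/-- A fixed bound of the shifts besides the own ones. -/
noncomputable def bQ (d : ℕ) : ℝ := C.P.h * C.J₀ + (d + 1) * C.cP

/-- The coefficient of the weights in the repairs. -/
noncomputable def θ : ℝ := 2 * C.P.L * C.bRep / C.P.g

/-- The base of the moments. -/
noncomputable def bD (d : ℕ) : ℝ := C.bQ d + 4 * C.θ * (C.P.g + C.bQ d)

/-- The growth in one round. -/
noncomputable def growth (d : ℕ) : ℝ := 1 + 2 * C.P.h * C.cLin * (d + 2)

/-- The bound of the moments of the largest shift of a neighbourhood. -/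
noncomputable def bK (d i : ℕ) : ℝ := (d + 1) * (C.bD d * C.growth d ^ i) + C.bQ d

theorem rounds_snoc (i n : ℕ) : C.rounds i (n + 1) = C.rounds i n ++ C.round (i + n) := by
  induction n generalizing i with
  | zero => simp [rounds]
  | succ n ih =>
    rw [rounds, ih (i + 1), rounds, List.append_assoc, Nat.add_right_comm i 1 n, add_assoc i n 1]

variable {C} {d : ℕ} {e₀ η R₀ : ℝ} (hC : C.OK d e₀ η) (hS : C.Start R₀) {M : ℕ}

include hC

theorem inv_nil {s : St V X r} (hI : C.Inv M [] s) : C.AtStart M s := by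
  rcases hI.2 with ⟨i, n, hin, hl, hs⟩ | ⟨j, n', cs, t, a, n, -, -, -, -, hl, -⟩
  · cases n with
    | zero => simpa [← hin] using hs
    | succ n => simp [rounds, round] at hl
  · cases cs <;> cases n <;> simp [slots] at hl

theorem const_pow_le {c : ℝ} {l : List (Op X)} {s : St V X r} {n : ℕ} :
    C.prog'.E l (fun _ => c ^ n) s ≤ c ^ n := (C.prog'.E_const _ _ _).le

theorem moment_add {a b : ℝ} {f f' : St V X r → ℝ} {l : List (Op X)} {s : St V X r}
    (hI : C.Inv M l s) (ha : 0 < a) (hb : 0 < b) (n : ℕ)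
    (hf : ∀ x, C.Inv M [] x → 0 ≤ f x) (hf' : ∀ x, C.Inv M [] x → 0 ≤ f' x)
    (h : C.prog'.E l (fun x => f x ^ (n + 1)) s ≤ a ^ (n + 1))
    (h' : C.prog'.E l (fun x => f' x ^ (n + 1)) s ≤ b ^ (n + 1)) :
    C.prog'.E l (fun x => (f x + f' x) ^ (n + 1)) s ≤ (a + b) ^ (n + 1) := by
  have := Prog.moment_sum_le (stable hC) (univ : Finset Bool) (f := fun i => cond i f f')
    (c := fun i => cond i a b) (fun i _ => by cases i <;> assumption)
    (fun i _ => by cases i <;> assumption) n hI (fun i _ => by cases i <;> assumption)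
  simpa using this

/-- The largest value in a ball has the moments of one value, up to `d + 1`. -/
theorem moment_sup {c : ℝ} {f : V → St V X r → ℝ} {l : List (Op X)} {s : St V X r}
    (hI : C.Inv M l s) {n : ℕ} (hn : C.P.L = n + 1) (hc : 0 ≤ c)
    (hf : ∀ w x, C.Inv M [] x → 0 ≤ f w x)
    (h : ∀ w, C.prog'.E l (fun x => f w x ^ (n + 1)) s ≤ c ^ (n + 1)) (u : V) :
    C.prog'.E l (fun x => ((ball C.S.nb C.P.L u).sup' ⟨u, self_mem_ball _ _ _⟩
        fun w => f w x) ^ (n + 1)) s ≤ (((d : ℝ) + 1) * c) ^ (n + 1) := by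
  set B := ball C.S.nb C.P.L u
  calc C.prog'.E l (fun x => (B.sup' ⟨u, self_mem_ball _ _ _⟩ fun w => f w x) ^ (n + 1)) s
      ≤ C.prog'.E l (fun x => ∑ w ∈ B, f w x ^ (n + 1)) s := by
        refine Prog.E_le_E (stable hC) (fun x hx => ?_) hI
        obtain ⟨w, hw, he⟩ := Finset.exists_mem_eq_sup' ⟨u, self_mem_ball _ _ _⟩ fun w => f w x
        rw [he]
        exact Finset.single_le_sum (f := fun w => f w x ^ (n + 1))
          (fun w _ => pow_nonneg (hf w x hx) _) hw
    _ ≤ B.card * c ^ (n + 1) := by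
        rw [Prog.E_sum, ← nsmul_eq_mul]
        exact Finset.sum_le_card_nsmul _ _ _ fun w _ => h w
    _ ≤ ((ballCard d C.P.L : ℕ) : ℝ) * c ^ (n + 1) := mul_le_mul_of_nonneg_right
        (Nat.cast_le.2 (card_ball_le _ hC.deg _ _)) (pow_nonneg hc _)
    _ = _ := by
        rw [ballCard, hn, Nat.cast_pow, mul_pow]
        push_cast
        ring

/-- All shifts grow. -/
theorem nx_mono {o : Op X} {l : List (Op X)} {s : St V X r} {i : Fin 3}
    (hI : C.Inv M (o :: l) s) (hi : 0 < C.pr o s i) (u : V) :
    s.kR u ≤ (C.nx o s i).kR u ∧ s.kL u ≤ (C.nx o s i).kL u ∧ s.kP u ≤ (C.nx o s i).kP u := by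
  cases o with
  | start k => exact ⟨le_rfl, le_rfl, le_rfl⟩
  | rise k => exact ⟨le_rfl, le_rfl, le_rfl⟩
  | fin k => exact ⟨le_rfl, le_rfl, le_rfl⟩
  | visit j t x =>
    obtain ⟨hs, -, -⟩ := visit_inv hC hI
    simp only [nx]
    split_ifs
    · exact ⟨(mid_ktot hC x true hs u).2.1, (mid_ktot hC x true hs u).2.2,
        le_add_of_nonneg_right (pushBy_nonneg hC _ _)⟩
    · exact ⟨(mid_ktot hC x false hs u).2.1, (mid_ktot hC x false hs u).2.2,
        le_add_of_nonneg_right (pushBy_nonneg hC _ _)⟩
    · exact ⟨le_rfl, le_rfl, le_rfl⟩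

theorem push_moment {l : List (Op X)} {s : St V X r} (hI : C.Inv M l s) (v : V)
    (h0 : s.kP v = 0) {n : ℕ} (hn : C.P.L = n + 1) :
    C.prog'.E l (fun x => x.kP v ^ (n + 1)) s ≤ C.cP ^ (n + 1) := by
  have hL := Lam2_pos hC
  have jump : ∀ o l' s' i, C.Inv M (o :: l') s' → 0 < C.pr o s' i →
      (C.nx o s' i).kP v - s'.kP v ≤ 1 / C.Lam2 := by
    intro o l' s' i hI' hi
    cases o with
    | visit j t x =>
      obtain ⟨hs, hT, -⟩ := visit_inv hC hI'
      by_cases hx : s'.seen x = none
      · have key : ∀ b, (C.hit j x b s').kP v - s'.kP v ≤ 1 / C.Lam2 := fun b => by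
          have := pushBy_le hC
            (law_next hC j hs.law _ _ : LawOn (C.mid j x b s').q _) ((mid_super hC hs hT hx).1 b) v
          simpa [hit, push, mid] using this
        simp only [nx]
        split_ifs
        · exact key true
        · exact key false
        · simp [hL.le]
      · have := pr_eq_zero hC (fun j' t' x' e => by cases e; exact hx) hi
        subst this
        simp [nx, hL.le]
    | _ => simp [nx, hL.le]
  have h := Prog.moment_le (stable hC) (X := fun x => x.kP v) (K := fun _ => 1)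
    (dA := fun o s' i => (C.nx o s' i).kP v - s'.kP v)
    (Pot := fun _ s' => C.RP v s' / C.Lam2 ^ 2) (B := 1 / C.Lam2)
    (fun l' s' h' => by obtain ⟨j, hb⟩ := inv_base hC h'; exact hb.kP_nonneg v)
    (fun _ _ _ => zero_le_one)
    (fun o l' s' i h' hi => ⟨(nx_mono hC h' hi v).2.2, le_rfl⟩)
    (fun o l' s' i h' hi => ⟨by simp [prog'], jump o l' s' i h' hi⟩)
    (fun l' s' h' => by
      obtain ⟨j, hb⟩ := inv_base hC h'
      refine ⟨div_nonneg (RP_nonneg hC hb v) (sq_nonneg _), ?_⟩
      rw [div_le_div_iff₀ (pow_pos hL 2) hL, sq, one_mul]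
      refine mul_le_mul_of_nonneg_right ?_ hL.le
      unfold RP
      split_ifs with hv
      · exact hb.res v hv
      · exact hL.le)
    (fun o l' s' h' => push_step hC h' v) n hI h0
  refine h.trans (le_of_eq ?_)
  simp only [one_pow, Prog.E_const, mul_one, cP, hn]
  congr 1
  push_cast
  ring

theorem rep_moment (hrise : 0 < C.P.rise)
    (hK : (C.P.m + 1) * (C.K + 1) * Fintype.card X ≤ C.K ^ 2) {l : List (Op X)} {s : St V X r}
    (hI : C.Inv M l s) (v : V) (h0 : s.kR v = 0) (n : ℕ) :
    C.prog'.E l (fun x => x.kR v ^ (n + 1)) s ≤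
      (2 * (n + 1) * C.bRep) ^ (n + 1) * C.prog'.E l (fun x => C.wt v x ^ (n + 1)) s := by
  have hg := hC.g_pos
  have hwt : ∀ l' s', C.Inv M l' s' → 0 ≤ C.wt v s' := fun l' s' h' => by
    obtain ⟨j, hb⟩ := inv_base hC h'
    have := Kmax_nonneg hC hb v
    unfold wt
    positivity
  refine Prog.moment_le (stable hC) (X := fun x => x.kR v) (K := C.wt v) (dA := C.dRep v)
    (Pot := C.potRep v) (fun l' s' h' => by obtain ⟨j, hb⟩ := inv_base hC h'; exact hb.kR_nonneg v)
    hwt (fun o l' s' i h' hi => ⟨(nx_mono hC h' hi v).1, ?_⟩) ?_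
    (fun l' s' h' => potRep_bounds hC h' v hK) (fun o l' s' h' => rep_step hC hrise h' v) n hI h0
  · refine add_le_add le_rfl (div_le_div_of_nonneg_right ?_ hg.le)
    refine Finset.sup'_le _ _ fun w hw => le_trans ?_
      (Finset.le_sup' (C.nx o s' i).ktot hw)
    obtain ⟨a, b, c⟩ := nx_mono hC h' hi w
    exact add_le_add (add_le_add a b) c
  · intro o l' s' i h' hi
    obtain ⟨hcoef, hc⟩ := coef_nonneg hC
    have hB : C.P.h * C.cRep * C.Lam2 ≤ C.bRep := by
      have := mul_nonneg hc (Real.log_nonneg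
        (show (1 : ℝ) ≤ 1 + C.Lam2 by linarith [hC.Lam2_le]))
      unfold bRep
      linarith
    cases o with
    | visit j t x =>
      obtain ⟨hs, -, -⟩ := visit_inv hC h'
      simp only [prog', nx, dRep]
      refine ⟨?_, ?_⟩
      · by_cases hm : C.moved j x s' v
        · fin_cases i <;> simp [hit, push, mid, wt, hm] <;> ring_nf <;> rfl
        · fin_cases i <;> simp [hit, push, mid, hm]
      · split_ifs with h1
        · exact (rep_amt_le hC hs h1.2.2.2.1).2.trans hB
        · exact hcoef.trans hB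
    | _ => exact ⟨by simp [prog', nx, dRep], by simpa [dRep] using hcoef.trans hB⟩

theorem E_round_prev (j : ℕ) (g : (V → ℝ) → (V → ℝ) → ℝ) (s : St V X r) :
    C.prog'.E (C.round j) (fun x => g x.prev x.prevL) s = g s.start s.startL := by
  have key : ∀ (l : List (Op X)), (∀ o ∈ l, ∀ k, o ≠ .fin k) → ∀ s,
      C.prog'.E (l ++ [.fin j]) (fun x => g x.prev x.prevL) s = g s.start s.startL := by
    intro l
    induction l with
    | nil =>
      intro _ s
      simp [Prog.E_cons, prog', pr, nx]
    | cons o l ih =>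
      intro hl s
      have hl' : ∀ o' ∈ l, ∀ k, o' ≠ .fin k := fun o' h => hl o' (List.mem_cons_of_mem _ h)
      have e : ∀ i, (C.nx o s i).start = s.start ∧ (C.nx o s i).startL = s.startL := by
        intro i
        cases o with
        | fin k => exact absurd rfl (hl (.fin k) (by simp) k)
        | visit j' t x => simp only [nx]; split_ifs <;> simp [hit, push, mid]
        | _ => simp [nx]
      simp only [List.cons_append, Prog.E_cons]
      have hsum := C.prog'.p_sum o s
      simp only [prog'] at hsum ih ⊢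
      simp only [ih hl', (e _).1, (e _).2, ← Finset.sum_mul, hsum, one_mul]
  rw [round, ← List.cons_append]
  refine key _ ?_ s
  have hs : ∀ a n, ∀ o ∈ slots (X := X) j a n, ∀ k, o ≠ .fin k := by
    intro a n
    induction n generalizing a with
    | zero => simp [slots]
    | succ n ih =>
      intro o ho k
      simp only [slots, List.mem_cons, List.mem_append, List.mem_map] at ho
      rcases ho with rfl | ⟨x, -, rfl⟩ | ho
      · simp
      · simp
      · exact ih _ o ho k
  intro o ho k
  rcases List.mem_cons.1 ho with rfl | ho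
  · simp
  · exact hs _ _ o ho k

include hS

theorem init_inv (hM : M ≤ C.P.m) : C.Inv M (C.rounds 0 M) C.init := by
  have hr : ∀ U : Finset V, LawOn (fun _ (_ : Fin r) => (1 : ℝ) / r) U := fun U u _ =>
    ⟨fun _ => by positivity, by simp [Finset.sum_const, (Nat.cast_pos.2 hS.pos).ne']⟩
  have hz : C.init.z = fun _ => C.P.T0 := by funext u; simp [init, St.z, St.ktot]
  have hJ : 0 ≤ C.P.h * C.J₀ := by
    have := hC.h_nonneg
    have := hC.g_pos
    have := hC.Lam_le
    have := hC.Lam2_le
    unfold J₀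
    rw [hC.cRep_eq, hC.cLin_eq]
    positivity
  have hl : ∀ u, 0 ≤ C.P.h * (C.cLin * C.Kmax C.init u) := fun u => by
    have : C.Kmax C.init u = 0 := by
      unfold Kmax
      exact le_antisymm (Finset.sup'_le _ _ fun w _ => by simp [init, St.ktot])
        (le_trans (by simp [init, St.ktot]) (Finset.le_sup' _ (self_mem_ball _ _ u)))
    simp [this]
  refine ⟨hM, Or.inl ⟨0, M, by omega, rfl, ?_, rfl, by simp [init],
    fun u => by simpa [init] using hJ, fun u => by simpa [init] using hl u,
    fun u => by simp [init], fun u => by simp [init]⟩⟩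
  refine ⟨hr, (mask_none C _ _).symm, subset_rfl, fun u hu h => absurd hu h,
    fun u _ => by simp [init, St.ktot], fun u => by simp [init, St.ktot],
    fun u => le_rfl, fun u => le_rfl, fun u => le_rfl, fun u => le_rfl,
    fun u => by simpa [init] using mul_nonneg hC.h_nonneg hC.α_nonneg,
    fun u _ => by simp [init], fun u => by simpa [init] using hJ,
    fun u => by simpa [init] using hl u, by rw [hz]; exact hS.valid,
    fun u hu => by rw [hz]; exact (hS.res u hu).trans hS.le⟩

theorem consts_pos : 0 < C.cP ∧ 0 < C.bQ d ∧ 0 ≤ C.θ ∧ 0 < C.bD d ∧ 1 ≤ C.growth d := by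
  have hL : (0 : ℝ) < C.P.L := Nat.cast_pos.2 hS.L_pos
  have := Lam2_pos hC
  have := hS.h_pos
  have := hC.g_pos
  have := hC.Lam_le
  obtain ⟨h1, h2⟩ := coef_nonneg hC
  have hlog : 0 ≤ Real.log (1 + C.Lam2) := Real.log_nonneg (by linarith)
  have hP : 0 < C.cP := by unfold cP; positivity
  have hQ : 0 < C.bQ d := by
    unfold bQ J₀
    rw [hC.cRep_eq, hC.cLin_eq]
    positivity
  have hB : 0 ≤ C.bRep := by
    unfold bRep
    exact add_nonneg (mul_nonneg h2 hlog) (by linarith)
  have hθ : 0 ≤ C.θ := by unfold θ; positivity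
  refine ⟨hP, hQ, hθ, by unfold bD; positivity, ?_⟩
  unfold growth
  rw [hC.cLin_eq]
  exact le_add_of_nonneg_right (by positivity)

theorem push_all {i : ℕ} (hi : i ≤ C.P.m) {n : ℕ} (hn : C.P.L = n + 1) (u : V) :
    C.prog'.E (C.rounds 0 i) (fun x => x.kP u ^ (n + 1)) C.init ≤ C.cP ^ (n + 1) :=
  push_moment hC (init_inv hC hS hi) u rfl hn

/-- The moments of the own shifts at the end of every round. -/
theorem own_moment (hθ : C.θ * (d + 1) ≤ 1 / 4) {n : ℕ} (hn : C.P.L = n + 1) :
    ∀ i ≤ C.P.m, ∀ u,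
      C.prog'.E (C.rounds 0 i) (fun x => x.kR u ^ (n + 1)) C.init ≤
          (C.bD d * C.growth d ^ i / 2) ^ (n + 1) ∧
        C.prog'.E (C.rounds 0 i) (fun x => x.kL u ^ (n + 1)) C.init ≤
          (C.bD d * C.growth d ^ i / 2) ^ (n + 1) := by
  obtain ⟨hP, hQ, hθ0, hD, hx⟩ := consts_pos hC hS
  have hg := hC.g_pos
  have hh := hS.h_pos
  intro i
  induction i with
  | zero => intro _ u; simp [rounds, init]; positivity
  | succ i ih =>
    intro hi u
    have hi' : i ≤ C.P.m := by omega
    set A := C.bD d * C.growth d ^ i with hAdef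
    have hA : 0 < A := by positivity
    have hAD : C.bD d ≤ A := le_mul_of_one_le_right hD.le (one_le_pow₀ hx)
    set l := C.rounds 0 (i + 1)
    have hI : C.Inv (i + 1) l C.init := init_inv hC hS hi
    have hI' : C.Inv i (C.rounds 0 i) C.init := init_inv hC hS hi'
    have hnn : ∀ x, C.Inv (i + 1) [] x → (∀ w, 0 ≤ x.prev w ∧ 0 ≤ x.prevL w) ∧
        ∀ w, 0 ≤ x.kP w := fun x hx' =>
      ⟨(inv_nil hC hx').prev_nonneg, (inv_nil hC hx').base.kP_nonneg⟩
    have hstart : ∀ g : (V → ℝ) → (V → ℝ) → ℝ,
        C.prog'.E l (fun x => g x.prev x.prevL) C.init =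
          C.prog'.E (C.rounds 0 i) (fun x => g x.start x.startL) C.init := by
      intro g
      rw [show l = C.rounds 0 i ++ C.round (0 + i) from C.rounds_snoc 0 i, Prog.E_append]
      congr 1
      funext x
      exact E_round_prev hC _ g x
    have hprev : ∀ w, C.prog'.E l (fun x => x.prev w ^ (n + 1)) C.init ≤ A ^ (n + 1) := by
      intro w
      rw [hstart fun a _ => a w ^ (n + 1)]
      have := moment_add hC (f := fun x => x.kR w) (f' := fun x => x.kL w) hI'
        (half_pos hA) (half_pos hA) n (fun x hx' => (inv_nil hC hx').base.kR_nonneg w)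
        (fun x hx' => (inv_nil hC hx').base.kL_nonneg w) (ih hi' w).1 (ih hi' w).2
      rw [add_halves] at this
      refine le_trans (Prog.E_le_E (stable hC) (fun x hx' => ?_) hI') this
      rw [((inv_nil hC hx').start_eq w).1]
    have hprevL : C.prog'.E l (fun x => x.prevL u ^ (n + 1)) C.init ≤ (A / 2) ^ (n + 1) := by
      rw [hstart fun _ b => b u ^ (n + 1)]
      refine le_trans (Prog.E_le_E (stable hC) (fun x hx' => ?_) hI') (ih hi' u).2
      rw [((inv_nil hC hx').start_eq u).2]
    -- the largest shift in the ball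
    let near : St V X r → ℝ := fun x =>
      (ball C.S.nb C.P.L u).sup' ⟨u, self_mem_ball _ _ _⟩ (fun w => x.prev w) +
        ((ball C.S.nb C.P.L u).sup' ⟨u, self_mem_ball _ _ _⟩ (fun w => x.kP w) + C.P.h * C.J₀)
    have hJ : 0 < C.P.h * C.J₀ := by
      have := hC.Lam_le; have := Lam2_pos hC
      unfold J₀; rw [hC.cRep_eq, hC.cLin_eq]; positivity
    have near_nonneg : ∀ x, C.Inv (i + 1) [] x → 0 ≤ near x := fun x hx' => by
      obtain ⟨h1, h2⟩ := hnn x hx'
      have ha := (h1 u).1.trans (Finset.le_sup' (fun w => x.prev w) (self_mem_ball C.S.nb C.P.L u))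
      have hb := (h2 u).trans (Finset.le_sup' (fun w => x.kP w) (self_mem_ball C.S.nb C.P.L u))
      simp only [near]
      linarith
    have near_moment : C.prog'.E l (fun x => near x ^ (n + 1)) C.init ≤
        (((d : ℝ) + 1) * A + C.bQ d) ^ (n + 1) := by
      have h1 := moment_sup hC hI hn hA.le (f := fun w x => x.prev w)
        (fun w x hx' => ((hnn x hx').1 w).1) hprev u
      have h2 := moment_sup hC hI hn hP.le (f := fun w x => x.kP w)
        (fun w x hx' => (hnn x hx').2 w) (push_all hC hS hi hn) u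
      have h3 := moment_add hC (f' := fun _ => C.P.h * C.J₀) hI (by positivity) hJ n
        (fun x hx' => ((hnn x hx').2 u).trans
          (Finset.le_sup' (fun w => x.kP w) (self_mem_ball C.S.nb C.P.L u)))
        (fun _ _ => hJ.le) h2 (const_pow_le hC)
      have h4 := moment_add hC hI (by positivity) (by positivity) n
        (fun x hx' => ((hnn x hx').1 u).1.trans
          (Finset.le_sup' (fun w => x.prev w) (self_mem_ball C.S.nb C.P.L u)))
        (fun x hx' => add_nonneg (((hnn x hx').2 u).trans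
          (Finset.le_sup' (fun w => x.kP w) (self_mem_ball C.S.nb C.P.L u))) hJ.le) h1 h3
      rw [show C.bQ d = ((d : ℝ) + 1) * C.cP + C.P.h * C.J₀ by unfold bQ; ring]
      exact h4
    have Kmax_le : ∀ x, C.Inv (i + 1) [] x → C.Kmax x u ≤ near x := fun x hx' => by
      refine Finset.sup'_le _ _ fun w hw => ?_
      have h1 := (inv_nil hC hx').prev w
      have h2 := Finset.le_sup' (fun w => x.prev w) hw
      have h3 := Finset.le_sup' (fun w => x.kP w) hw
      simp only [St.ktot, near] at *
      linarith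
    constructor
    · refine (rep_moment hC hS.rise hS.slots hI u rfl n).trans ?_
      have hw : C.prog'.E l (fun x => C.wt u x ^ (n + 1)) C.init ≤
          (1 + (((d : ℝ) + 1) * A + C.bQ d) / C.P.g) ^ (n + 1) := by
        have h1 : C.prog'.E l (fun x => (near x / C.P.g) ^ (n + 1)) C.init ≤
            ((((d : ℝ) + 1) * A + C.bQ d) / C.P.g) ^ (n + 1) := by
          simp only [div_eq_inv_mul, Prog.E_smul, mul_pow]
          exact mul_le_mul_of_nonneg_left near_moment (by positivity)
        refine le_trans (Prog.E_le_E (stable hC) (fun x hx' => ?_) hI)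
          (moment_add hC (f := fun _ => (1 : ℝ)) hI one_pos (by positivity) n
            (fun _ _ => zero_le_one) (fun x hx' => div_nonneg (near_nonneg x hx') hg.le)
            (const_pow_le hC) h1)
        refine pow_le_pow_left₀ ?_ (add_le_add le_rfl
          (div_le_div_of_nonneg_right (Kmax_le x hx') hg.le)) _
        have := Kmax_nonneg hC (inv_nil hC hx').base u
        exact add_nonneg zero_le_one (div_nonneg this hg.le)
      have hB : 0 ≤ 2 * ((n : ℝ) + 1) * C.bRep := by
        obtain ⟨a, b⟩ := coef_nonneg hC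
        have : 0 ≤ Real.log (1 + C.Lam2) := Real.log_nonneg (by linarith [hC.Lam2_le])
        unfold bRep; positivity
      refine (mul_le_mul_of_nonneg_left hw (pow_nonneg hB _)).trans ?_
      rw [← mul_pow]
      refine pow_le_pow_left₀ (by positivity) ?_ _
      have e : 2 * ((n : ℝ) + 1) * C.bRep * (1 + (((d : ℝ) + 1) * A + C.bQ d) / C.P.g) =
          C.θ * (C.P.g + C.bQ d) + C.θ * ((d : ℝ) + 1) * A := by
        unfold θ
        rw [hn]
        push_cast
        field_simp
        ring
      rw [e]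
      have h2 : C.θ * (C.P.g + C.bQ d) ≤ C.bD d / 4 := by unfold bD; linarith
      have h3 := mul_le_mul_of_nonneg_right hθ hA.le
      have h4 : A ≤ C.bD d * C.growth d ^ (i + 1) := by
        rw [pow_succ, ← mul_assoc]
        exact le_mul_of_one_le_right hA.le hx
      linarith
    · have hlam : 0 < C.P.h * C.cLin := by
        have := hC.Lam_le; rw [hC.cLin_eq]; positivity
      have h1 : C.prog'.E l (fun x => (C.P.h * C.cLin * near x) ^ (n + 1)) C.init ≤
          (C.P.h * C.cLin * (((d : ℝ) + 1) * A + C.bQ d)) ^ (n + 1) := by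
        simp only [mul_pow, Prog.E_smul]
        exact mul_le_mul_of_nonneg_left near_moment (by rw [← mul_pow]; exact pow_nonneg hlam.le _)
      have h2 := moment_add hC hI (half_pos hA) (mul_pos hlam (by positivity)) n
        (fun x hx' => ((hnn x hx').1 u).2) (fun x hx' => mul_nonneg hlam.le (near_nonneg x hx'))
        hprevL h1
      refine le_trans (Prog.E_le_E (stable hC) (fun x hx' => ?_) hI) (h2.trans ?_)
      · refine pow_le_pow_left₀ ((inv_nil hC hx').base.kL_nonneg u) ?_ _
        refine ((inv_nil hC hx').prevL u).trans (add_le_add le_rfl ?_)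
        rw [← mul_assoc]
        exact mul_le_mul_of_nonneg_left (Kmax_le x hx') hlam.le
      · refine pow_le_pow_left₀ (by positivity) ?_ _
        have hθQ : 0 ≤ C.θ * (C.P.g + C.bQ d) := mul_nonneg hθ0 (add_nonneg hg.le hQ.le)
        have hQA : C.bQ d ≤ A := by
          refine le_trans ?_ hAD
          unfold bD
          linarith
        rw [show C.bD d * C.growth d ^ (i + 1) = A * C.growth d by rw [hAdef, pow_succ]; ring,
          growth]
        nlinarith [mul_le_mul_of_nonneg_left hQA hlam.le]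

/-- The moments of the largest shift of a neighbourhood. -/
theorem Kmax_moment (hθ : C.θ * (d + 1) ≤ 1 / 4) {n : ℕ} (hn : C.P.L = n + 1) {i : ℕ}
    (hi : i ≤ C.P.m) (u : V) :
    C.prog'.E (C.rounds 0 i) (fun x => C.Kmax x u ^ (n + 1)) C.init ≤
      C.bK d i ^ (n + 1) := by
  obtain ⟨hP, hQ, -, hD, hx⟩ := consts_pos hC hS
  have hI := init_inv hC hS hi
  have hA : 0 < C.bD d * C.growth d ^ i := by positivity
  have h : ∀ w, C.prog'.E (C.rounds 0 i) (fun x => x.ktot w ^ (n + 1)) C.init ≤
      (C.bD d * C.growth d ^ i + C.cP) ^ (n + 1) := fun w => by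
    obtain ⟨h1, h2⟩ := own_moment hC hS hθ hn i hi w
    have hb : ∀ x, C.Inv i [] x → C.Base i x := fun x hx => (inv_nil hC hx).base
    have h3 := moment_add hC hI (half_pos hA) (half_pos hA) n
      (fun x hx => (hb x hx).kR_nonneg w) (fun x hx => (hb x hx).kL_nonneg w) h1 h2
    rw [add_halves] at h3
    exact moment_add hC hI hA hP n
      (fun x hx => add_nonneg ((hb x hx).kR_nonneg w) ((hb x hx).kL_nonneg w))
      (fun x hx => (hb x hx).kP_nonneg w) h3 (push_all hC hS hi hn w)
  refine le_trans (moment_sup hC hI hn (by positivity) (f := fun w x => x.ktot w)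
    (fun w x hx => add_nonneg (add_nonneg ((inv_nil hC hx).base.kR_nonneg w)
      ((inv_nil hC hx).base.kL_nonneg w)) ((inv_nil hC hx).base.kP_nonneg w)) h u) ?_
  refine pow_le_pow_left₀ (by positivity) ?_ _
  have hJ : 0 ≤ C.P.h * C.J₀ := by
    have := hC.Lam_le; have := Lam2_pos hC; have := hC.g_pos; have := hC.h_nonneg
    unfold J₀; rw [hC.cRep_eq, hC.cLin_eq]; positivity
  unfold bK bQ
  linarith

end Cfg

end Vale.Agent.P078.Any
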