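import Vale.Agent.P078.Any.State
import Vale.Agent.P078.All.OperatorAll

/-!
Moments under a state give compressions: an element between `±(c + P)` with `P ≥ 0` of small state
has norm at most `c + θ` after a cut of small state.
-/

namespace Vale.Agent.P078.Any

open scoped InnerProductSpace ComplexOrder
open ContinuousLinearMap Cartan

variable {H : Type} [NormedAddCommGroup H] [InnerProductSpace ℂ H] [CompleteSpace H]
variable {M : VonNeumannAlgebra H} {A : StarSubalgebra ℂ (H →L[ℂ] H)} {ι : Type} {η : ι → H}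

/-- An element is at most `lam` plus a scaled even power. -/
theorem le_add_moment {S : H →L[ℂ] H} (hS : IsSelfAdjoint S) {lam : ℝ} (hlam : 0 < lam) {j : ℕ}
    (hj : 0 < j) :
    S ≤ algebraMap ℝ (H →L[ℂ] H) lam + (lam ^ (2 * j - 1))⁻¹ • S ^ (2 * j) := by
  have hR : algebraMap ℝ (H →L[ℂ] H) lam + (lam ^ (2 * j - 1))⁻¹ • S ^ (2 * j)
      = cfc (fun t : ℝ => lam + (lam ^ (2 * j - 1))⁻¹ • t ^ (2 * j)) S := by
    rw [cfc_const_add lam (fun t : ℝ => (lam ^ (2 * j - 1))⁻¹ • t ^ (2 * j)) S,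
      cfc_smul _ (fun t : ℝ => t ^ (2 * j)) S, cfc_pow_id (R := ℝ) S (2 * j) hS]
  rw [hR]
  conv_lhs => rw [← cfc_id' ℝ S hS]
  refine cfc_mono fun t _ => ?_
  have h0 : 0 ≤ (lam ^ (2 * j - 1))⁻¹ * t ^ (2 * j) :=
    mul_nonneg (by positivity) ((even_two_mul j).pow_nonneg t)
  rw [smul_eq_mul]
  rcases le_total t lam with ht | ht
  · linarith
  · have h1 : t * lam ^ (2 * j - 1) ≤ t ^ (2 * j) := by
      calc t * lam ^ (2 * j - 1) ≤ t * t ^ (2 * j - 1) :=
            mul_le_mul_of_nonneg_left (pow_le_pow_left₀ hlam.le ht _) (hlam.le.trans ht)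
        _ = t ^ (2 * j) := by rw [← pow_succ', Nat.sub_add_cancel (by omega)]
    have h2 : t ≤ (lam ^ (2 * j - 1))⁻¹ * t ^ (2 * j) := by
      rw [le_inv_mul_iff₀ (pow_pos hlam _), mul_comm]
      exact h1
    linarith

/-- A self-adjoint element between `±C` has norm at most `C`. -/
theorem norm_le_of_le_le {X : H →L[ℂ] H} (hX : IsSelfAdjoint X) {C : ℝ} (hC : 0 ≤ C)
    (h1 : X ≤ algebraMap ℝ (H →L[ℂ] H) C) (h2 : -X ≤ algebraMap ℝ (H →L[ℂ] H) C) : ‖X‖ ≤ C := by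
  rw [neg_le, ← map_neg] at h2
  rw [← cfc_id' ℝ X hX]
  refine norm_cfc_le hC fun t ht => ?_
  rw [Real.norm_eq_abs, abs_le]
  exact ⟨(algebraMap_le_iff_le_spectrum hX).1 h2 t ht,
    (le_algebraMap_iff_spectrum_le hX).1 h1 t ht⟩

namespace IsState

variable (h : IsState M A η)

theorem re_phi_star_mul_self (x : H →L[ℂ] H) : (h.phi (star x * x)).re = ‖h.V x‖ ^ 2 := by
  rw [h.phi_star_mul]
  exact inner_self_eq_norm_sq (𝕜 := ℂ) _

theorem re_phi_pow_nonneg {S : H →L[ℂ] H} (hS : IsSelfAdjoint S) (j : ℕ) :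
    0 ≤ (h.phi (S ^ (2 * j))).re := by
  rw [two_mul, pow_add]
  conv_rhs => arg 1; arg 2; arg 1; rw [← (hS.pow j).star_eq]
  rw [h.re_phi_star_mul_self]
  exact sq_nonneg _

theorem re_phi_real_smul (c : ℝ) (x : H →L[ℂ] H) : (h.phi (c • x)).re = c * (h.phi x).re := by
  rw [← Complex.coe_smul, h.phi_smul, Complex.re_ofReal_mul]

theorem norm_V_expect_le (hA : IsMasa M A) {w : H →L[ℂ] H} (hw : w ∈ M) :
    ‖h.V (expect A w)‖ ≤ ‖h.V w‖ := by
  have h1 := norm_inner_le_norm (𝕜 := ℂ) (h.V w) (h.V (expect A w))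
  rw [h.inner_expect hA hw, norm_pow, Complex.norm_real, norm_norm] at h1
  nlinarith [norm_nonneg (h.V w), norm_nonneg (h.V (expect A w))]

theorem norm_V_pinching_le (hA : IsMasa M A) {r : ℕ} {p : Fin r → (H →L[ℂ] H)}
    (hp : IsPartition A p) {w : H →L[ℂ] H} (hw : w ∈ M) :
    ‖h.V (pinching p w)‖ ≤ ‖h.V w‖ :=
  h.norm_D_le hA ⟨Fin r, inferInstance, p, hp.mem, hp.proj, hp.orth, hp.sum_eq⟩ hw

/-- A cut: an element between `±(c + P)` is at most `c + θ` off a projection of small state. -/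
theorem exists_cut_state {T P : H →L[ℂ] H} (hT : IsSelfAdjoint T) (hP : 0 ≤ P) (hPM : P ∈ M)
    {c θ : ℝ} (hc : 0 ≤ c) (hθ : 0 < θ) (h1 : T ≤ algebraMap ℝ (H →L[ℂ] H) c + P)
    (h2 : -T ≤ algebraMap ℝ (H →L[ℂ] H) c + P) :
    ∃ k ∈ M, IsStarProjection k ∧ ‖k * T * k‖ ≤ c + θ ∧
      θ * ‖h.V (1 - k)‖ ^ 2 ≤ (h.phi P).re := by
  obtain ⟨Q, hQ⟩ : ∃ Q, Q = cfc Real.sqrt P := ⟨_, rfl⟩
  have hQs : IsSelfAdjoint Q := hQ ▸ cfc_predicate _ P
  have hQM : Q ∈ M := hQ ▸ vn_cfc_mem hPM _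
  have hQQ : star Q * Q = P := by
    rw [hQs.star_eq, hQ, ← cfc_mul _ _ P]
    conv_rhs => rw [← cfc_id' ℝ P (IsSelfAdjoint.of_nonneg hP)]
    exact cfc_congr fun t ht => Real.mul_self_sqrt (spectrum_nonneg_of_nonneg hP ht)
  obtain ⟨k, hk, hkQ, hkξ, -, hkN, -⟩ := exists_cut hQs (Real.sqrt_pos.2 hθ)
  refine ⟨k, hkN M hQM, hk, ?_, ?_⟩
  · have hks := hk.isSelfAdjoint.star_eq
    have hQk : ‖Q * k‖ ≤ Real.sqrt θ := by
      refine opNorm_le_bound _ (Real.sqrt_nonneg _) fun v => ?_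
      rw [mul_apply']
      exact (hkQ v).trans (mul_le_mul_of_nonneg_left (proj_apply_norm_le hk v) (Real.sqrt_nonneg _))
    have hkPk : k * P * k ≤ algebraMap ℝ (H →L[ℂ] H) θ := by
      have e : k * P * k = star (Q * k) * (Q * k) := by
        rw [star_mul, hks, ← hQQ]; simp only [mul_assoc]
      rw [e]
      refine (CStarAlgebra.star_mul_le_algebraMap_norm_sq).trans
        ((algebraMap_mono (H →L[ℂ] H)) ?_)
      calc ‖Q * k‖ ^ 2 ≤ Real.sqrt θ ^ 2 := pow_le_pow_left₀ (norm_nonneg _) hQk 2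
        _ = θ := Real.sq_sqrt hθ.le
    have hside : ∀ X : H →L[ℂ] H, X ≤ algebraMap ℝ (H →L[ℂ] H) c + P →
        k * X * k ≤ algebraMap ℝ (H →L[ℂ] H) (c + θ) := fun X hX => by
      have h3 := star_left_conjugate_le_conjugate hX k
      rw [hks, mul_add, add_mul] at h3
      refine h3.trans ?_
      rw [map_add]
      refine add_le_add ?_ hkPk
      rw [Algebra.algebraMap_eq_smul_one, mul_smul_comm, mul_one, smul_mul_assoc,
        hk.isIdempotentElem.eq]
      exact smul_le_smul_of_nonneg_left hk.le_one hc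
    refine norm_le_of_le_le ?_ (by positivity) (hside T h1) ?_
    · rw [IsSelfAdjoint, star_mul, star_mul, hks, hT.star_eq, mul_assoc]
    · have := hside (-T) h2
      rwa [mul_neg, neg_mul] at this
  · rw [← hQQ, h.re_phi_star_mul_self, h.norm_V_sq, h.norm_V_sq, ← tsum_mul_left]
    refine ((h.summable_apply _).mul_left _).tsum_le_tsum (fun i => ?_) (h.summable_apply Q)
    rw [← Real.sq_sqrt hθ.le, ← mul_pow]
    exact pow_le_pow_left₀ (by positivity) (hkξ (η i)) 2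

end IsState

end Vale.Agent.P078.Any
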