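import Vale.Agent.P078.All.OperatorNet

/-!
A faithful normal state with the MASA in its centraliser, given by vectors: the two-norm, the
contractions by elements of the MASA, pinchings and the covariance of the expectation.
-/

namespace Vale.Agent.P078.Any

open scoped InnerProductSpace ComplexOrder
open ContinuousLinearMap Filter Topology Cartan

variable {H : Type} [NormedAddCommGroup H] [InnerProductSpace ℂ H] [CompleteSpace H]
variable {M : VonNeumannAlgebra H} {A : StarSubalgebra ℂ (H →L[ℂ] H)} {ι : Type} {η : ι → H}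

/-- `∑ i, ⟪η i, · (η i)⟫` is a faithful state of `M` centralised by `A`. -/
structure IsState (M : VonNeumannAlgebra H) (A : StarSubalgebra ℂ (H →L[ℂ] H)) (η : ι → H) :
    Prop where
  summable : Summable fun i => ‖η i‖ ^ 2
  one : ∑' i, ‖η i‖ ^ 2 = 1
  central : ∀ a ∈ A, ∀ x ∈ M,
    ∑' i, ⟪η i, a (x (η i))⟫_ℂ = ∑' i, ⟪η i, x (a (η i))⟫_ℂ
  faithful : ∀ x ∈ M, (∀ i, x (η i) = 0) → x = 0

namespace IsState

theorem summable_apply (h : IsState M A η) (x : H →L[ℂ] H) :
    Summable fun i => ‖x (η i)‖ ^ 2 := by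
  refine Summable.of_nonneg_of_le (fun i => sq_nonneg _) (fun i => ?_)
    (h.summable.mul_left (‖x‖ ^ 2))
  rw [← mul_pow]
  exact pow_le_pow_left₀ (norm_nonneg _) (x.le_opNorm _) 2

theorem memℓp (h : IsState M A η) (x : H →L[ℂ] H) : Memℓp (fun i => x (η i)) 2 := by
  refine memℓp_gen ?_
  simpa using h.summable_apply x

/-- The vector of an operator. -/
noncomputable def V (h : IsState M A η) : (H →L[ℂ] H) →ₗ[ℂ] lp (fun _ : ι => H) 2 where
  toFun x := ⟨fun i => x (η i), h.memℓp x⟩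
  map_add' x y := by ext i; simp; rfl
  map_smul' c x := by ext i; simp

variable (h : IsState M A η)

/-- The state. -/
noncomputable def phi (x : H →L[ℂ] H) : ℂ := ⟪h.V 1, h.V x⟫_ℂ

theorem V_apply (x : H →L[ℂ] H) (i : ι) : h.V x i = x (η i) := rfl

theorem inner_V (x y : H →L[ℂ] H) : ⟪h.V x, h.V y⟫_ℂ = ∑' i, ⟪x (η i), y (η i)⟫_ℂ :=
  lp.inner_eq_tsum _ _

theorem norm_V_sq (x : H →L[ℂ] H) : ‖h.V x‖ ^ 2 = ∑' i, ‖x (η i)‖ ^ 2 := by
  have h1 := lp.norm_rpow_eq_tsum (p := 2) (by norm_num) (h.V x)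
  simpa [V_apply] using h1

theorem norm_V_le (x : H →L[ℂ] H) : ‖h.V x‖ ≤ ‖x‖ := by
  refine (abs_le_of_sq_le_sq' ?_ (norm_nonneg x)).2
  rw [norm_V_sq]
  calc ∑' i, ‖x (η i)‖ ^ 2 ≤ ∑' i, ‖x‖ ^ 2 * ‖η i‖ ^ 2 :=
        (h.summable_apply x).tsum_le_tsum (fun i => by
          rw [← mul_pow]
          exact pow_le_pow_left₀ (norm_nonneg _) (x.le_opNorm _) 2) (h.summable.mul_left _)
    _ = ‖x‖ ^ 2 := by rw [tsum_mul_left, h.one, mul_one]

theorem norm_V_one : ‖h.V 1‖ = 1 := by
  have h1 : ‖h.V 1‖ ^ 2 = 1 := by simpa [norm_V_sq] using h.one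
  nlinarith [norm_nonneg (h.V 1)]

theorem diagMul_V (u x : H →L[ℂ] H) : diagMul u (h.V x) = h.V (u * x) := rfl

theorem inner_mul_left (a x y : H →L[ℂ] H) :
    ⟪h.V x, h.V (a * y)⟫_ℂ = ⟪h.V (star a * x), h.V y⟫_ℂ := by
  rw [← h.diagMul_V, diagMul_inner, h.diagMul_V]

theorem norm_V_mul_left_le (a x : H →L[ℂ] H) : ‖h.V (a * x)‖ ≤ ‖a‖ * ‖h.V x‖ := by
  refine (abs_le_of_sq_le_sq' ?_ (by positivity)).2
  rw [mul_pow, norm_V_sq, norm_V_sq, ← tsum_mul_left]
  refine (h.summable_apply _).tsum_le_tsum (fun i => ?_) ((h.summable_apply x).mul_left _)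
  rw [← mul_pow, mul_apply']
  exact pow_le_pow_left₀ (norm_nonneg _) (a.le_opNorm _) 2

theorem phi_star_mul (x y : H →L[ℂ] H) : h.phi (star x * y) = ⟪h.V x, h.V y⟫_ℂ := by
  rw [phi, inner_mul_left, star_star, mul_one]

theorem phi_add (x y : H →L[ℂ] H) : h.phi (x + y) = h.phi x + h.phi y := by
  rw [phi, phi, phi, map_add, inner_add_right]

theorem phi_sub (x y : H →L[ℂ] H) : h.phi (x - y) = h.phi x - h.phi y := by
  rw [phi, phi, phi, map_sub, inner_sub_right]

theorem phi_smul (c : ℂ) (x : H →L[ℂ] H) : h.phi (c • x) = c * h.phi x := by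
  rw [phi, phi, map_smul, inner_smul_right]

theorem phi_sum {κ : Type*} (s : Finset κ) (f : κ → (H →L[ℂ] H)) :
    h.phi (∑ i ∈ s, f i) = ∑ i ∈ s, h.phi (f i) := by
  simp only [phi, map_sum, inner_sum]

theorem phi_star (x : H →L[ℂ] H) : h.phi (star x) = starRingEnd ℂ (h.phi x) := by
  rw [phi, ← mul_one (star x), inner_mul_left, star_star, mul_one, ← inner_conj_symm]
  rfl

theorem phi_central {a x : H →L[ℂ] H} (ha : a ∈ A) (hx : x ∈ M) :
    h.phi (a * x) = h.phi (x * a) := by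
  simp only [phi, inner_V, mul_apply', one_apply_eq_self]
  exact h.central a ha x hx

theorem norm_phi_le (x : H →L[ℂ] H) : ‖h.phi x‖ ≤ ‖h.V x‖ := by
  refine (norm_inner_le_norm _ _).trans ?_
  rw [norm_V_one, one_mul]

theorem norm_phi_mul_le (x y : H →L[ℂ] H) :
    ‖h.phi (x * y)‖ ≤ ‖h.V (star x)‖ * ‖h.V y‖ := by
  rw [← star_star x, phi_star_mul, star_star]
  exact norm_inner_le_norm _ _

include h in
/-- The state is a normal functional centralised by `A`. -/
theorem normalCentral : IsNormalCentral M A h.phi := by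
  classical
  refine ⟨fun x _ y _ => h.phi_add x y, fun c x _ => h.phi_smul c x, fun x hx => ?_,
    fun a ha x hx => h.phi_central ha hx, fun t ht => ?_⟩
  · rw [phi_star_mul, inner_self_eq_norm_sq_to_K]
    norm_cast
    positivity
  · obtain ⟨s, hs⟩ : ∃ s : Finset ι, ∀ u : Finset ι, Disjoint u s →
        ∑ i ∈ u, ‖η i‖ ^ 2 < (t / 2) ^ 2 := by
      obtain ⟨s, hs⟩ := h.summable.vanishing
        (Metric.ball_mem_nhds 0 (by positivity : (0 : ℝ) < (t / 2) ^ 2))
      refine ⟨s, fun u hu => ?_⟩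
      have := hs u hu
      rw [Metric.mem_ball, dist_zero_right, Real.norm_eq_abs] at this
      exact lt_of_le_of_lt (le_abs_self _) this
    obtain ⟨d, hd⟩ : ∃ d : ℝ, d = t / (2 * (s.card + 1)) := ⟨_, rfl⟩
    refine ⟨s.image η, d, hd ▸ by positivity, fun x hx hx1 hsm => ?_⟩
    refine lt_of_le_of_lt (h.norm_phi_le x) ?_
    have h2 : ‖h.V x‖ ^ 2 < t ^ 2 := by
      rw [norm_V_sq]
      refine lt_of_le_of_lt (Real.tsum_le_of_sum_le (c := s.card * d ^ 2 + (t / 2) ^ 2)
        (fun i => sq_nonneg _) fun u => ?_) ?_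
      · have hu := Finset.sum_sdiff (f := fun i => ‖x (η i)‖ ^ 2)
          (Finset.inter_subset_left (s₁ := u) (s₂ := s))
        rw [← hu, add_comm]
        refine add_le_add ?_ ?_
        · refine le_trans (Finset.sum_le_card_nsmul _ _ (d ^ 2) fun i hi => ?_) ?_
          · exact pow_le_pow_left₀ (norm_nonneg _)
              (hsm _ (Finset.mem_image_of_mem η (Finset.mem_inter.1 hi).2)).le 2
          · rw [nsmul_eq_mul]
            exact mul_le_mul_of_nonneg_right
              (Nat.cast_le.2 (Finset.card_le_card Finset.inter_subset_right)) (sq_nonneg _)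
        · refine le_trans (Finset.sum_le_sum fun i _ => ?_) (hs _ ?_).le
          · exact pow_le_pow_left₀ (norm_nonneg _)
              ((x.le_opNorm _).trans (mul_le_of_le_one_left (norm_nonneg _) hx1)) 2
          · simp only [Finset.disjoint_left, Finset.mem_sdiff, Finset.mem_inter]
            tauto
      · have hd0 : 0 ≤ d := hd ▸ by positivity
        have hsd : (s.card : ℝ) * d ≤ t / 2 := by
          rw [hd, mul_div_assoc', div_le_div_iff₀ (by positivity) two_pos]
          nlinarith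
        have hdt : d ≤ t / 2 := by
          rw [hd]; gcongr; linarith [(Nat.cast_nonneg s.card : (0:ℝ) ≤ s.card)]
        nlinarith
    nlinarith [norm_nonneg (h.V x)]

theorem phi_expect (hA : IsMasa M A) {x : H →L[ℂ] H} (hx : x ∈ M) :
    h.phi (expect A x) = h.phi x :=
  normalCentral_expect hA h.normalCentral hx

theorem phi_mul_expect (hA : IsMasa M A) {a x : H →L[ℂ] H} (ha : a ∈ A) (hx : x ∈ M) :
    h.phi (a * expect A x) = h.phi (a * x) := by
  rw [← expect_mul_left hA ha, h.phi_expect hA (mul_mem (hA.le a ha) hx)]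

theorem eq_of_V {z w : H →L[ℂ] H} (hz : z ∈ M) (hw : w ∈ M) (e : h.V z = h.V w) : z = w :=
  sub_eq_zero.1 <| h.faithful _ (sub_mem hz hw) fun i => by
    rw [← V_apply h, map_sub, e, sub_self]; rfl

theorem eq_zero_of_phi {z : H →L[ℂ] H} (hz : z ∈ M) (e : h.phi (star z * z) = 0) : z = 0 := by
  refine h.eq_of_V hz (zero_mem M) ?_
  rw [phi_star_mul, inner_self_eq_zero] at e
  rw [e, map_zero]

theorem norm_V_star {a : H →L[ℂ] H} (hA : IsMasa M A) (ha : a ∈ A) :
    ‖h.V (star a)‖ = ‖h.V a‖ := by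
  have e : ⟪h.V (star a), h.V (star a)⟫_ℂ = ⟪h.V a, h.V a⟫_ℂ := by
    rw [← phi_star_mul, ← phi_star_mul, star_star,
      h.phi_central ha (star_mem (hA.le a ha))]
  have h1 : ‖h.V (star a)‖ ^ 2 = ‖h.V a‖ ^ 2 := by
    rw [← inner_self_eq_norm_sq (𝕜 := ℂ), e, inner_self_eq_norm_sq]
  exact (pow_left_inj₀ (norm_nonneg _) (norm_nonneg _) two_ne_zero).1 h1

theorem norm_V_root (hA : IsMasa M A) {x R : H →L[ℂ] H} (hx : x ∈ M) (hR : IsSelfAdjoint R)
    (e : R * R = expect A (star x * x)) : ‖h.V x‖ = ‖h.V R‖ := by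
  have e1 : ⟪h.V x, h.V x⟫_ℂ = ⟪h.V R, h.V R⟫_ℂ := by
    rw [← phi_star_mul, ← phi_star_mul, hR.star_eq, e,
      h.phi_expect hA (mul_mem (star_mem hx) hx)]
  have h1 : ‖h.V x‖ ^ 2 = ‖h.V R‖ ^ 2 := by
    rw [← inner_self_eq_norm_sq (𝕜 := ℂ), e1, inner_self_eq_norm_sq]
  exact (pow_left_inj₀ (norm_nonneg _) (norm_nonneg _) two_ne_zero).1 h1

/-- Right multiplication by `A` is bounded. -/
theorem norm_V_mul_right_le (hA : IsMasa M A) {a x : H →L[ℂ] H} (ha : a ∈ A) (hx : x ∈ M) :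
    ‖h.V (x * a)‖ ≤ ‖a‖ * ‖h.V x‖ := by
  obtain ⟨R, hRA, hRs, hR⟩ := expect_pos_sqrt hA hx
  have hxa := mul_mem hx (hA.le a ha)
  have key : ⟪h.V (x * a), h.V (x * a)⟫_ℂ = ⟪h.V (a * R), h.V (a * R)⟫_ℂ := by
    rw [← phi_star_mul, ← phi_star_mul, ← h.phi_expect hA (mul_mem (star_mem hxa) hxa)]
    congr 1
    rw [star_mul, star_mul, hRs.star_eq, show star a * star x * (x * a) =
      star a * (star x * x) * a by simp only [mul_assoc], expect_mul_right hA ha,
      expect_mul_left hA (star_mem ha), ← hR, hA.comm a ha R hRA]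
    calc star a * (R * R) * a = (star a * R) * R * a := by simp only [mul_assoc]
      _ = R * star a * (R * a) := by
        rw [hA.comm _ (star_mem ha) R hRA, mul_assoc _ R a]
  rw [h.norm_V_root hA hx hRs hR]
  refine le_of_eq_of_le ?_ (h.norm_V_mul_left_le a R)
  have h1 : ‖h.V (x * a)‖ ^ 2 = ‖h.V (a * R)‖ ^ 2 := by
    rw [← inner_self_eq_norm_sq (𝕜 := ℂ), key, inner_self_eq_norm_sq]
  exact (pow_left_inj₀ (norm_nonneg _) (norm_nonneg _) two_ne_zero).1 h1

include h in
/-- Small two-norm gives strong smallness on bounded sets. -/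
theorem strong_small (F : Finset H) {δ : ℝ} (hδ : 0 < δ) :
    ∃ γ : ℝ, 0 < γ ∧ ∀ x ∈ M, ‖x‖ ≤ 1 → ‖h.V x‖ ≤ γ → ∀ ξ ∈ F, ‖x ξ‖ < δ := by
  classical
  obtain ⟨U, hU⟩ : ∃ U : Submodule ℂ H, U = (⨆ z : M.commutant, ⨆ i : ι,
    ℂ ∙ (z.1 (η i))).topologicalClosure := ⟨_, rfl⟩
  have : CompleteSpace U := hU ▸ (Submodule.isClosed_topologicalClosure _).completeSpace_coe
  have hPM : U.starProjection ∈ M := by
    refine proj_mem_vn _ fun w hw v hv => ?_
    rw [hU] at hv ⊢
    refine map_mem_closure w.continuous hv fun u hu => ?_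
    refine Submodule.iSup_induction _ (motive := fun u => w u ∈ (⨆ z : M.commutant, ⨆ i : ι,
      ℂ ∙ (z.1 (η i)))) hu ?_ (by simp) (fun a b ha hb => by rw [map_add]; exact add_mem ha hb)
    intro z u hu
    refine Submodule.iSup_induction _ (motive := fun u => w u ∈ (⨆ z : M.commutant, ⨆ i : ι,
      ℂ ∙ (z.1 (η i)))) hu ?_ (by simp) (fun a b ha hb => by rw [map_add]; exact add_mem ha hb)
    intro i u hu
    obtain ⟨c, rfl⟩ := Submodule.mem_span_singleton.1 hu
    rw [map_smul]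
    refine Submodule.smul_mem _ _ ?_
    refine Submodule.mem_iSup_of_mem ⟨w * z.1, mul_mem hw z.2⟩ (Submodule.mem_iSup_of_mem i ?_)
    exact Submodule.mem_span_singleton_self _
  have hmem : ∀ z ∈ M.commutant, ∀ i, z (η i) ∈ U := fun z hz i => hU ▸
    Submodule.le_topologicalClosure _ (Submodule.mem_iSup_of_mem (⟨z, hz⟩ : M.commutant)
      (Submodule.mem_iSup_of_mem i (Submodule.mem_span_singleton_self _)))
  have hP1 : (1 : H →L[ℂ] H) - U.starProjection = 0 := h.faithful _ (sub_mem (one_mem M) hPM)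
    fun i => by
      rw [sub_apply, one_apply_eq_self,
        Submodule.starProjection_eq_self_iff.2 (by simpa using hmem 1 (one_mem _) i), sub_self]
  have happ : ∀ ξ : H, ∃ γ : ℝ, 0 < γ ∧ ∀ x ∈ M, ‖x‖ ≤ 1 → ‖h.V x‖ ≤ γ → ‖x ξ‖ < δ := by
    intro ξ
    have hξ : ξ ∈ U := by
      have := congrArg (fun T : H →L[ℂ] H => T ξ) hP1
      simp only [sub_apply, one_apply_eq_self, zero_apply, sub_eq_zero] at this
      rw [this]; exact Submodule.starProjection_apply_mem _ _
    rw [hU] at hξ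
    obtain ⟨v, hv, hd⟩ := Metric.mem_closure_iff.1 hξ (δ / 2) (half_pos hδ)
    rw [dist_eq_norm] at hd
    have hv' : ∃ C : ℝ, 0 ≤ C ∧ ∀ x ∈ M, ‖x v‖ ≤ C * ‖h.V x‖ := by
      refine Submodule.iSup_induction _ (motive := fun v => ∃ C : ℝ, 0 ≤ C ∧ ∀ x ∈ M,
        ‖x v‖ ≤ C * ‖h.V x‖) hv ?_ ⟨0, le_rfl, by simp⟩ ?_
      · intro z v hv
        refine Submodule.iSup_induction _ (motive := fun v => ∃ C : ℝ, 0 ≤ C ∧ ∀ x ∈ M,
          ‖x v‖ ≤ C * ‖h.V x‖) hv ?_ ⟨0, le_rfl, by simp⟩ ?_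
        · intro i v hv
          obtain ⟨c, rfl⟩ := Submodule.mem_span_singleton.1 hv
          refine ⟨‖c‖ * ‖z.1‖, by positivity, fun x hx => ?_⟩
          have e : x (z.1 (η i)) = z.1 (x (η i)) := by
            have := congrArg (fun T : H →L[ℂ] H => T (η i)) ((mem_vn_iff.1 hx) z.1 z.2)
            simpa using this.symm
          rw [map_smul, norm_smul, e, mul_assoc]
          refine mul_le_mul_of_nonneg_left (le_trans (z.1.le_opNorm _)
            (mul_le_mul_of_nonneg_left ?_ (norm_nonneg _))) (norm_nonneg _)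
          rw [← V_apply h]
          exact lp.norm_apply_le_norm (by norm_num) _ _
        · rintro a b ⟨C, hC, ha⟩ ⟨D, hD, hb⟩
          exact ⟨C + D, by positivity, fun x hx => by
            rw [map_add, add_mul]; exact (norm_add_le _ _).trans (add_le_add (ha x hx) (hb x hx))⟩
      · rintro a b ⟨C, hC, ha⟩ ⟨D, hD, hb⟩
        exact ⟨C + D, by positivity, fun x hx => by
          rw [map_add, add_mul]; exact (norm_add_le _ _).trans (add_le_add (ha x hx) (hb x hx))⟩
    obtain ⟨C, hC, hCx⟩ := hv'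
    refine ⟨δ / (2 * (C + 1)), by positivity, fun x hx hx1 hxV => ?_⟩
    have h1 : ‖x (ξ - v)‖ < δ / 2 := lt_of_le_of_lt
      ((x.le_opNorm _).trans (mul_le_of_le_one_left (norm_nonneg _) hx1)) hd
    have h2 : ‖x v‖ ≤ δ / 2 := by
      refine (hCx x hx).trans ?_
      refine (mul_le_mul_of_nonneg_left hxV hC).trans ?_
      rw [mul_div_assoc', div_le_div_iff₀ (by positivity) two_pos]
      nlinarith
    calc ‖x ξ‖ = ‖x (ξ - v) + x v‖ := by rw [← map_add, sub_add_cancel]
      _ ≤ ‖x (ξ - v)‖ + ‖x v‖ := norm_add_le _ _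
      _ < δ := by linarith
  choose γ hγ hsmall using happ
  rcases F.eq_empty_or_nonempty with rfl | hF
  · exact ⟨1, one_pos, by simp⟩
  refine ⟨F.inf' hF γ, (Finset.lt_inf'_iff hF).2 fun ξ _ => hγ ξ, fun x hx hx1 hxV ξ hξ => ?_⟩
  exact hsmall ξ x hx hx1 (hxV.trans (Finset.inf'_le _ hξ))

/-- A bounded two-norm Cauchy sequence of `M` converges strongly to an element of `M`. -/
theorem vLimit {z : ℕ → H →L[ℂ] H} (hz : ∀ n, z n ∈ M) {C : ℝ} (hC : ∀ n, ‖z n‖ ≤ C)
    (hc : CauchySeq fun n => h.V (z n)) :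
    ∃ Z ∈ M, ‖Z‖ ≤ C ∧ Tendsto (fun n => h.V (z n)) atTop (𝓝 (h.V Z)) ∧
      ∀ v, Tendsto (fun n => z n v) atTop (𝓝 (Z v)) := by
  classical
  have hC0 : 0 ≤ C := (norm_nonneg _).trans (hC 0)
  have hpt : ∀ v : H, ∃ w, Tendsto (fun n => z n v) atTop (𝓝 w) := by
    intro v
    refine cauchySeq_tendsto_of_complete (Metric.cauchySeq_iff.2 fun δ hδ => ?_)
    obtain ⟨γ, hγ, hsm⟩ := h.strong_small {v} (δ := δ / (2 * C + 1)) (by positivity)
    obtain ⟨N, hN⟩ := Metric.cauchySeq_iff.1 hc (γ * (2 * C + 1)) (by positivity)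
    refine ⟨N, fun m hm n hn => ?_⟩
    set d := (((2 * C + 1)⁻¹ : ℝ) : ℂ) • (z m - z n) with hd
    have hdM : d ∈ M := vn_smul_mem _ (sub_mem (hz m) (hz n))
    have hn1 : ‖d‖ ≤ 1 := by
      rw [hd, norm_smul, Complex.norm_real, Real.norm_eq_abs, abs_of_nonneg (by positivity),
        inv_mul_le_iff₀ (by positivity)]
      linarith [norm_sub_le (z m) (z n), hC m, hC n]
    have hV : ‖h.V d‖ ≤ γ := by
      rw [hd, map_smul, map_sub, norm_smul, Complex.norm_real, Real.norm_eq_abs,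
        abs_of_nonneg (by positivity), inv_mul_le_iff₀ (by positivity)]
      have := (hN m hm n hn).le
      rw [dist_eq_norm] at this
      linarith
    have := hsm d hdM hn1 hV v (Finset.mem_singleton_self v)
    rw [hd, smul_apply, norm_smul, Complex.norm_real, Real.norm_eq_abs,
      abs_of_nonneg (by positivity), inv_mul_lt_iff₀ (by positivity),
      mul_div_cancel₀ δ (by positivity), sub_apply] at this
    rwa [dist_eq_norm]
  choose F hF using hpt
  have hlin : ∀ (c : ℂ) v w, F (c • v + w) = c • F v + F w := fun c v w =>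
    tendsto_nhds_unique (hF _) (by simpa using ((hF v).const_smul c).add (hF w))
  have hbound : ∀ v, ‖F v‖ ≤ C * ‖v‖ := fun v =>
    le_of_tendsto (hF v).norm (Eventually.of_forall fun n => (z n).le_of_opNorm_le (hC n) v)
  let Z : H →L[ℂ] H := LinearMap.mkContinuous
    { toFun := F
      map_add' := fun v w => by simpa using hlin 1 v w
      map_smul' := fun c v => by
        have h0 : F 0 = 0 := norm_le_zero_iff.1 (by simpa using hbound 0)
        simpa [h0] using hlin c v 0 } C hbound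
  have hZ : ∀ v, Tendsto (fun n => z n v) atTop (𝓝 (Z v)) := hF
  refine ⟨Z, ?_, LinearMap.mkContinuous_norm_le _ hC0 _, ?_, hZ⟩
  · rw [mem_vn_iff]
    intro c hc'
    ext v
    simp only [mul_apply']
    refine tendsto_nhds_unique ((c.continuous.tendsto _).comp (hZ v))
      ((hZ (c v)).congr fun n => ?_)
    have := congrArg (fun T : H →L[ℂ] H => T v) ((mem_vn_iff.1 (hz n)) c hc')
    simpa using this.symm
  · obtain ⟨L, hL⟩ := cauchySeq_tendsto_of_complete hc
    suffices L = h.V Z from this ▸ hL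
    refine lp.ext (funext fun i => ?_)
    exact tendsto_nhds_unique (((lp.evalCLM ℂ (fun _ : ι => H) 2 i).continuous.tendsto _).comp hL)
      (hZ (η i))

theorem inner_D (hA : IsMasa M A) (P : FPart A) {x y : H →L[ℂ] H} (hx : x ∈ M) (hy : y ∈ M) :
    ⟪h.V (P.D x), h.V y⟫_ℂ = ⟪h.V x, h.V (P.D y)⟫_ℂ := by
  rw [← phi_star_mul, ← phi_star_mul]
  simp only [FPart.D, star_sum, Finset.sum_mul, Finset.mul_sum, phi_sum]
  refine Finset.sum_congr rfl fun i _ => ?_
  have hc := hA.le _ (P.mem i)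
  simp only [star_mul, (P.proj i).isSelfAdjoint.star_eq, mul_assoc]
  rw [h.phi_central (P.mem i) (mul_mem (star_mem hx) (mul_mem hc hy))]
  simp only [mul_assoc]

theorem norm_D_le (hA : IsMasa M A) (P : FPart A) {x : H →L[ℂ] H} (hx : x ∈ M) :
    ‖h.V (P.D x)‖ ≤ ‖h.V x‖ := by
  have h1 := re_inner_le_norm (𝕜 := ℂ) (h.V x) (h.V (P.D x))
  rw [show ⟪h.V x, h.V (P.D x)⟫_ℂ = ⟪h.V (P.D x), h.V (P.D x)⟫_ℂ by
    rw [h.inner_D hA P hx (P.D_mem hA hx), All.D_comp hA le_rfl], inner_self_eq_norm_sq] at h1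
  rcases (norm_nonneg (h.V (P.D x))).eq_or_lt with hz | hz
  · rw [← hz]; exact norm_nonneg _
  · nlinarith

theorem tendsto_inner_D (x y : H →L[ℂ] H) :
    Tendsto (fun P : FPart A => ⟪h.V y, h.V (P.D x)⟫_ℂ) (pUltra A)
      (𝓝 ⟪h.V y, h.V (expect A x)⟫_ℂ) := by
  simp only [inner_V]
  refine tendsto_tsum_of_dominated_convergence (bound := fun i => ‖y‖ * ‖x‖ * ‖η i‖ ^ 2)
    (h.summable.mul_left _) (fun i => tendsto_expect x (y (η i)) (η i))
    (Eventually.of_forall fun P i => ?_)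
  refine (norm_inner_le_norm _ _).trans ?_
  refine (mul_le_mul (y.le_opNorm _) (P.norm_D_apply x _) (norm_nonneg _)
    (by positivity)).trans (le_of_eq ?_)
  ring

theorem D_of_mem (hA : IsMasa M A) (P : FPart A) {a : H →L[ℂ] H} (ha : a ∈ A) : P.D a = a := by
  rw [show a = a * 1 by rw [mul_one], FPart.D_mul_left hA P ha, FPart.D_one]

theorem inner_expect (hA : IsMasa M A) {x : H →L[ℂ] H} (hx : x ∈ M) :
    ⟪h.V x, h.V (expect A x)⟫_ℂ = (‖h.V (expect A x)‖ : ℂ) ^ 2 := by
  have hE := expect_mem hA hx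
  rw [← phi_star_mul, ← h.phi_expect hA (mul_mem (star_mem hx) (hA.le _ hE)),
    expect_mul_right hA hE, expect_star, phi_star_mul, inner_self_eq_norm_sq_to_K]
  rfl

/-- Fine pinchings are two-norm close to the expectation. -/
theorem exists_D_near (hA : IsMasa M A) {x : H →L[ℂ] H} (hx : x ∈ M) {ε : ℝ} (hε : 0 < ε) :
    ∃ Q : FPart A, ∀ P, Q ≤ P → ‖h.V (P.D x - expect A x)‖ ^ 2 ≤ ε := by
  have e : ∀ P : FPart A, RCLike.re ⟪h.V x, h.V (P.D x)⟫_ℂ = ‖h.V (P.D x)‖ ^ 2 := fun P => by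
    rw [← inner_self_eq_norm_sq (𝕜 := ℂ), h.inner_D hA P hx (P.D_mem hA hx), All.D_comp hA le_rfl]
  have hlim := (RCLike.continuous_re.tendsto _).comp (h.tendsto_inner_D x x)
  rw [h.inner_expect hA hx] at hlim
  simp only [Function.comp_def, e, ← Complex.ofReal_pow, RCLike.re_to_complex,
    Complex.ofReal_re] at hlim
  obtain ⟨Q, hQ⟩ := (hlim.eventually (eventually_le_nhds (b := ‖h.V (expect A x)‖ ^ 2 + ε)
    (by linarith))).exists
  refine ⟨Q, fun P hP => ?_⟩
  have hE := expect_mem hA hx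
  have hi : RCLike.re ⟪h.V (P.D x), h.V (expect A x)⟫_ℂ = ‖h.V (expect A x)‖ ^ 2 := by
    rw [h.inner_D hA P hx (hA.le _ hE), D_of_mem hA P hE, h.inner_expect hA hx,
      ← Complex.ofReal_pow, RCLike.re_to_complex, Complex.ofReal_re]
  have hanti : ‖h.V (P.D x)‖ ≤ ‖h.V (Q.D x)‖ := by
    rw [← All.D_comp hA hP x]
    exact h.norm_D_le hA P (Q.D_mem hA hx)
  rw [map_sub, norm_sub_sq (𝕜 := ℂ), hi]
  nlinarith [norm_nonneg (h.V (P.D x))]

include h in
/-- The expectation commutes with the normalisers. -/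
theorem expect_conj (hA : IsMasa M A) {u : H →L[ℂ] H} (hu : IsNormaliser M A u)
    {x : H →L[ℂ] H} (hx : x ∈ M) :
    expect A (star u * x * u) = star u * expect A x * u := by
  classical
  have hm : ∀ y : H →L[ℂ] H, y ∈ M → star u * y * u ∈ M := fun y hy =>
    mul_mem (mul_mem (star_mem hu.mem) hy) hu.mem
  have hψ : IsNormalCentral M A fun y => h.phi (star u * y * u) := by
    refine ⟨fun y hy z hz => by simp only [mul_add, add_mul, phi_add],
      fun c y hy => by simp only [mul_smul_comm, smul_mul_assoc, phi_smul], fun y hy => ?_,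
      fun a ha y hy => ?_, fun t ht => ?_⟩
    · rw [show star u * (star y * y) * u = star (y * u) * (y * u) by
        simp only [star_mul, mul_assoc], phi_star_mul, inner_self_eq_norm_sq_to_K]
      norm_cast
      positivity
    · have e : ∀ p q : H →L[ℂ] H, star u * (p * q) * u = star u * p * u * (star u * q * u) :=
        fun p q => by
          simp only [mul_assoc]
          rw [← mul_assoc u (star u), hu.mul_star, one_mul]
      simp only [e]
      exact h.phi_central (hu.conj_mem a ha) (hm y hy)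
    · obtain ⟨F, d, hd, hF⟩ := h.normalCentral.normal t ht
      refine ⟨F.image fun v => u v, d, hd, fun y hy hy1 hys => hF _ (hm y hy) ?_ fun v hv => ?_⟩
      · refine opNorm_le_bound _ zero_le_one fun v => ?_
        have hu1 : ∀ w, ‖u w‖ = ‖w‖ := fun w => by
          have := congrArg (fun T : H →L[ℂ] H => T w) hu.star_mul
          simp only [mul_apply', one_apply_eq_self, ContinuousLinearMap.star_eq_adjoint] at this
          rw [← sq_eq_sq₀ (norm_nonneg _) (norm_nonneg _), ← inner_self_eq_norm_sq (𝕜 := ℂ),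
            ← inner_self_eq_norm_sq (𝕜 := ℂ), ← ContinuousLinearMap.adjoint_inner_right, this]
        rw [one_mul, mul_apply', mul_apply']
        refine ((star u).le_opNorm _).trans ?_
        have hs : ‖star u‖ ≤ 1 := by
          rw [norm_star]
          exact opNorm_le_bound _ zero_le_one fun w => by rw [hu1, one_mul]
        refine (mul_le_of_le_one_left (norm_nonneg _) hs).trans ?_
        exact (y.le_opNorm _).trans ((mul_le_of_le_one_left (norm_nonneg _) hy1).trans_eq (hu1 v))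
      · rw [mul_apply', mul_apply']
        have h1 := hys _ (Finset.mem_image_of_mem (fun v => u v) hv)
        refine lt_of_le_of_lt ?_ h1
        refine ((star u).le_opNorm _).trans (mul_le_of_le_one_left (norm_nonneg _) ?_)
        rcases subsingleton_or_nontrivial (H →L[ℂ] H) with hs | hs
        · rw [Subsingleton.elim (star u) 0, norm_zero]; exact zero_le_one
        · have := CStarRing.norm_star_mul_self (x := u)
          rw [hu.star_mul, norm_one] at this
          rw [norm_star]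
          nlinarith [norm_nonneg u]
  have hxu := hm x hx
  obtain ⟨d, hd⟩ : ∃ d, d = expect A (star u * x * u) - star u * expect A x * u := ⟨_, rfl⟩
  have hdA : d ∈ A :=
    hd ▸ sub_mem (expect_mem hA hxu) (hu.conj_mem _ (expect_mem hA hx))
  refine sub_eq_zero.1 (hd ▸ h.eq_zero_of_phi (hA.le d hdA) ?_)
  obtain ⟨b, hb⟩ : ∃ b, b = star d := ⟨_, rfl⟩
  have hbA : b ∈ A := hb ▸ star_mem hdA
  have e1 : ∀ z, star u * (u * b * star u * z) * u = b * (star u * z * u) := fun z => by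
    calc star u * (u * b * star u * z) * u = star u * u * b * (star u * z * u) := by
          simp only [mul_assoc]
      _ = _ := by rw [hu.star_mul, one_mul]
  have hc := hu.conj_mem' b hbA
  have key := normalCentral_expect hA hψ (mul_mem (hA.le _ hc) hx)
  simp only [expect_mul_left hA hc, e1] at key
  rw [← hb]
  conv_lhs => rw [hd, mul_sub, phi_sub]
  rw [key, h.phi_mul_expect hA hbA hxu, sub_self]

include h in
theorem ph_move [AbelianClosed A] (hA : IsMasa M A) (ω : Spec A) {u : H →L[ℂ] H}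
    (hu : IsNormaliser M A u) {x : H →L[ℂ] H} (hx : x ∈ M) :
    ph (move hu ω) x = ph ω (star u * x * u) := by
  rw [ph, ph, chi_move ω hu (expect_mem hA hx), h.expect_conj hA hu hx]

end IsState

end Vale.Agent.P078.Any
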