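import Vale.Agent.P078.Cartan.OperatorPaving
import Vale.Agent.P078.Any.State
import Vale.Agent.P078.Any.RandomPaving.Orbit

/-!
The orbit windows of a finite sum in the Cartan inclusion for a state centralised by the MASA, and
the diagonal value of an even power of a pinching at a point whose window is paved.
-/

namespace Vale.Agent.P078.Any

open scoped InnerProductSpace ComplexOrder
open ContinuousLinearMap Polynomial Vale.Agent.P078.Cartan

set_option linter.unusedSectionVars false

variable {H : Type} [NormedAddCommGroup H] [InnerProductSpace ℂ H] [CompleteSpace H]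
variable {M : VonNeumannAlgebra H} {A : StarSubalgebra ℂ (H →L[ℂ] H)} {ι : Type} {η : ι → H}
variable [AbelianClosed A] {G : H →L[ℂ] H}

/-- The orbit model of a finite sum with diagonal one half. -/
noncomputable def modelS (hA : IsMasa M A) (h : IsState M A η) (D : Gens M A G) (hG0 : 0 ≤ G)
    (hG1 : G ≤ 1) (hhalf : ∀ ω : Spec A, ph ω G = 1 / 2) : Model (Spec A) D.L where
  T := D.T
  inv := D.inv
  T_inv g ω := by
    show move (D.hu (D.inv g)) (move (D.hu g) ω) = ω
    rw [move_of_eq _ (D.hu (D.inv g)) (D.hu g).star' (D.hinv g), move_star_move]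
  ent w w' := ⟨fun ω => ph ω (star (D.word w) * G * D.word w'), continuous_chi _⟩
  isOpen_eq w w' := by
    have e : {ω : Spec A | w.foldr (fun g v => D.T g v) ω = w'.foldr (fun g v => D.T g v) ω}
        = {ω | move ((D.word_normaliser w).star'.mul (D.word_normaliser w')) ω = ω} := by
      ext ω
      simp only [Set.mem_ofPred_eq, D.act_eq]
      rw [move_mul ω (D.word_normaliser w).star' (D.word_normaliser w')]
      constructor
      · intro e
        rw [← e]
        exact move_star_move ω _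
      · intro e
        have := congrArg (move (D.word_normaliser w)) e
        rw [move_move_star] at this
        exact this.symm
    rw [e]
    exact isOpen_move_eq hA _
  gauge n φ φ' ω ω' _ heq := by
    simp only [D.act_eq] at heq
    rcases Nat.eq_zero_or_pos n with rfl | hn
    · exact ⟨fun i => i.elim0, fun i => i.elim0, fun i => i.elim0⟩
    obtain ⟨i₀⟩ : Nonempty (Fin n) := ⟨⟨0, hn⟩⟩
    have hU := fun i => D.word_normaliser (φ i)
    have hU' := fun i => D.word_normaliser (φ' i)
    have hg : ∀ i, ∃ hn : IsNormaliser M A (star (D.word (φ i)) * D.word (φ' i)),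
        move hn ω' = ω := fun i => ⟨(hU i).star'.mul (hU' i), by
      rw [move_mul ω' (hU i).star' (hU' i), ← heq i, move_star_move]⟩
    choose hgn hgω using hg
    obtain ⟨g, hgdef⟩ : ∃ g, g = star (D.word (φ i₀)) * D.word (φ' i₀) := ⟨_, rfl⟩
    have hgn0 : IsNormaliser M A g := hgdef ▸ hgn i₀
    have hg0 : move hgn0 ω' = ω := by rw [move_of_eq _ hgn0 (hgn i₀) hgdef, hgω]
    obtain ⟨t, ht⟩ : ∃ t : Fin n → (H →L[ℂ] H),
        t = fun i => star g * (star (D.word (φ i)) * D.word (φ' i)) := ⟨_, rfl⟩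
    have htn : ∀ i, IsNormaliser M A (t i) := fun i => by rw [ht]; exact hgn0.star'.mul (hgn i)
    have htω : ∀ i, move (htn i) ω' = ω' := fun i => by
      rw [move_of_eq ω' (htn i) (hgn0.star'.mul (hgn i)) (congrFun ht i), move_mul ω' hgn0.star'
      (hgn i), hgω i,
        ← hg0,
        move_star_move]
    have hsplit : ∀ i, D.word (φ' i) = D.word (φ i) * g * t i := fun i => by
      rw [ht]
      simp only [mul_assoc]
      rw [← mul_assoc g (star g), hgn0.mul_star, one_mul, ← mul_assoc, (hU i).mul_star, one_mul]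
    refine ⟨fun i => ph ω' (t i), fun i => (ph_fixed ω' hA (htn i) (htω i)).1, fun i j => ?_⟩
    have hY : star (D.word (φ i)) * G * D.word (φ j) ∈ M :=
      mul_mem (mul_mem (star_mem (D.word_mem _)) (D.mem hA)) (D.word_mem _)
    have hY' : star g * (star (D.word (φ i)) * G * D.word (φ j)) * g ∈ M :=
      mul_mem (mul_mem (star_mem hgn0.mem) hY) hgn0.mem
    show ph ω' (star (D.word (φ' i)) * G * D.word (φ' j))
      = star (ph ω' (t i)) * ph ω (star (D.word (φ i)) * G * D.word (φ j)) * ph ω' (t j)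
    rw [show star (D.word (φ' i)) * G * D.word (φ' j)
        = star (t i) * (star g * (star (D.word (φ i)) * G * D.word (φ j)) * g) * t j by
      rw [hsplit i, hsplit j]; simp only [star_mul, mul_assoc],
      (ph_fixed ω' hA (htn j) (htω j)).2.1 _ (mul_mem (star_mem (htn i).mem) hY'),
      (ph_fixed ω' hA (htn i) (htω i)).2.2 _ hY', ← h.ph_move hA ω' hgn0 hY, hg0]
    rfl
  posSemidef n φ ω hinj := by
    simp only [D.act_eq] at hinj
    have hU := fun i => D.word_normaliser (φ i)
    refine ⟨gram_posSemidef hA (D.mem hA) hG0 _ (fun i => (hU i).mem) ω, ?_⟩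
    have h1 := gram_posSemidef hA (sub_mem (one_mem M) (D.mem hA)) (sub_nonneg.2 hG1) _
      (fun i => (hU i).mem) ω
    convert h1 using 1
    ext i j
    simp only [Matrix.sub_apply, Matrix.one_apply, Matrix.of_apply,
      mul_sub, sub_mul, mul_one]
    rw [ph_sub ω hA (mul_mem (star_mem (hU i).mem) (hU j).mem)
      (mul_mem (mul_mem (star_mem (hU i).mem) (D.mem hA)) (hU j).mem)]
    congr 1
    by_cases hij : i = j
    · subst hij
      rw [if_pos rfl, (hU i).star_mul, ph_self ω hA (one_mem A), chi_one]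
    · rw [if_neg hij]
      have := ph_moved ω hA (hU i) (hU j) (one_mem A) (fun e => hij (hinj e))
      rw [mul_one] at this
      exact this.symm
  diag w ω := by
    show ph ω (star (D.word w) * G * D.word w) = 1 / 2
    rw [← h.ph_move hA ω (D.word_normaliser w) (D.mem hA)]
    exact hhalf _
  range_one w w' ω hne hfar := by
    simp only [D.act_eq] at hne hfar
    have hw := D.word_normaliser w
    have hw' := D.word_normaliser w'
    show ph ω (star (D.word w) * G * D.word w') = 0
    rw [show star (D.word w) * G * D.word w'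
        = ∑ g, star (D.word w) * D.a g * (D.u g * D.word w') by
      refine (congrArg (fun z => star (D.word w) * z * D.word w') D.hG).trans ?_
      simp only [Finset.mul_sum, Finset.sum_mul, mul_assoc],
      ph_sum ω hA _ _ fun g => mul_mem (mul_mem (star_mem hw.mem) (hA.le _ (D.ha g)))
        (mul_mem (D.hu g).mem hw'.mem)]
    refine Finset.sum_eq_zero fun g _ => ph_moved ω hA hw ((D.hu g).mul hw') (D.ha g) fun e => ?_
    refine hfar (D.inv g) ?_
    show move (D.hu (D.inv g)) (move hw ω) = move hw' ω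
    rw [e, move_mul ω (D.hu g) hw', move_of_eq _ (D.hu (D.inv g)) (D.hu g).star' (D.hinv g),
      move_star_move]

/-- The normaliser moving the base to the point named by a word. -/
theorem modelS_act (hA : IsMasa M A) (h : IsState M A η) (D : Gens M A G) (hG0 : 0 ≤ G)
    (hG1 : G ≤ 1) (hhalf : ∀ ω : Spec A, ph ω G = 1 / 2) (w : List (Fin D.L)) (ω : Spec A) :
    (modelS hA h D hG0 hG1 hhalf).act w ω = move (D.word_normaliser w) ω :=
  D.act_eq w ω

section Window

noncomputable local instance (priority := high) decEqSpecS : DecidableEq (Spec A) :=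
  fun a b => Classical.propDecidable (a = b)

variable (hA : IsMasa M A) (h : IsState M A η) (D : Gens M A G) (hG0 : 0 ≤ G) (hG1 : G ≤ 1)
  (hhalf : ∀ ω : Spec A, ph ω G = 1 / 2) {r : ℕ} (κ : Spec A → Fin r)
  (p : Fin r → (H →L[ℂ] H))

/-- The pinched window. -/
noncomputable def winS (ω : Spec A) (m : ℕ) :
    Matrix (ball (modelS hA h D hG0 hG1 hhalf).nb m ω) (ball
      (modelS hA h D hG0 hG1 hhalf).nb m ω) ℂ :=
  Cartan.pinch (Matrix.of fun v u : ball (modelS hA h D hG0 hG1 hhalf).nb m ω =>
      (modelS hA h D hG0 hG1 hhalf).ent ((modelS hA h D hG0 hG1 hhalf).name ω v)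
      ((modelS hA h D hG0 hG1 hhalf).name ω u) ω)
    fun v => κ v

theorem name_specS (ω : Spec A) {m : ℕ} {v : Spec A} (hv : v ∈ ball
      (modelS hA h D hG0 hG1 hhalf).nb m ω) :
    move (D.word_normaliser ((modelS hA h D hG0 hG1 hhalf).name ω v)) ω = v := by
  obtain ⟨w, -, hw⟩ := (modelS hA h D hG0 hG1 hhalf).mem_ball.1 hv
  rw [← modelS_act hA h D hG0 hG1 hhalf]
  exact (modelS hA h D hG0 hG1 hhalf).act_name hw

theorem name_selfS (ω : Spec A) :
      (modelS hA h D hG0 hG1 hhalf).name ω ω = [] := by simp [Model.name]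

theorem winS_pow (hpA : ∀ c, p c ∈ A)
    (hκ : ∀ (ω : Spec A) c, chi ω (p c) = if κ ω = c then 1 else 0) (ω : Spec A) (m : ℕ) :
    ∀ k, k ≤ m + 1 → ∀ v : ball (modelS hA h D hG0 hG1 hhalf).nb m ω,
      (winS hA h D hG0 hG1 hhalf κ ω m ^ k) v ⟨ω, mem_ball_self _ m ω⟩
      = ph ω (star (D.word ((modelS hA h D hG0 hG1 hhalf).name ω v)) * pinching p G ^ k) := by
  have hname0 := name_selfS hA h D hG0 hG1 hhalf ω
  have hGM := D.mem hA
  have hSM : pinching p G ∈ M :=
    sum_mem fun c _ => mul_mem (mul_mem (hA.le _ (hpA c)) hGM) (hA.le _ (hpA c))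
  intro k
  induction k with
  | zero =>
    intro _ v
    have hv := name_specS hA h D hG0 hG1 hhalf ω v.2
    simp only [pow_zero, Matrix.one_apply, mul_one]
    by_cases he : v.1 = ω
    · rw [if_pos (Subtype.ext he), he, hname0, show D.word [] = 1 from rfl, star_one,
        ph_self ω hA (one_mem A), chi_one]
    · rw [if_neg fun e => he (congrArg Subtype.val e)]
      have := ph_moved ω hA (D.word_normaliser _) IsNormaliser.one (one_mem A)
        (u := D.word ((modelS hA h D hG0 hG1 hhalf).name ω v)) (v := 1) (by rwa [hv, move_one])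
      rw [mul_one, mul_one] at this
      exact this.symm
  | succ k ih =>
    intro hk v
    have hv := name_specS hA h D hG0 hG1 hhalf ω v.2
    have hZ : pinching p G ^ k ∈ Submodule.span ℂ {z | ∃ b ∈ A, ∃ w : List (Fin D.L),
        move (D.word_normaliser w) ω ∈ ball
      (modelS hA h D hG0 hG1 hhalf).nb m ω ∧ z = b * D.word w} := by
      refine (Submodule.span_mono ?_) (D.pinching_pow_mem hpA k)
      rintro z ⟨b, hb, w, hw, rfl⟩
      refine ⟨b, hb, w, ?_, rfl⟩
      rw [← modelS_act hA h D hG0 hG1 hhalf]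
      exact (modelS hA h D hG0 hG1 hhalf).act_mem_ball (by omega)
    have e₁ : pinching p G ^ (k + 1) = pinching p G * pinching p G ^ k := pow_succ' _ k
    have e₂ : winS hA h D hG0 hG1 hhalf κ ω m ^ (k + 1)
        = winS hA h D hG0 hG1 hhalf κ ω m * winS hA h D hG0 hG1 hhalf κ ω m ^ k :=
      pow_succ' _ k
    simp only [e₁, e₂, Matrix.mul_apply]
    refine Eq.trans ?_ (congrArg (ph ω) (mul_assoc (star (D.word
      ((modelS hA h D hG0 hG1 hhalf).name ω v)))
      (pinching p G) (pinching p G ^ k)))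
    refine Eq.trans ?_ (D.insert_points hA ω (ball (modelS hA h D hG0 hG1 hhalf).nb m ω)
      ((modelS hA h D hG0 hG1 hhalf).name ω)
      (fun u hu => name_specS hA h D hG0 hG1 hhalf ω (m := m) hu)
      (mul_mem (star_mem (D.word_mem _)) hSM) hZ).symm
    refine Eq.trans ?_ (Finset.sum_coe_sort (ball (modelS hA h D hG0 hG1 hhalf).nb m ω) _)
    refine Finset.sum_congr rfl fun u _ => ?_
    rw [ih (by omega) u]
    congr 1
    rw [pinching_entry hA (D.mem hA) κ p hpA hκ ω (D.word_normaliser _) (D.word_normaliser _),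
      hv, name_specS hA h D hG0 hG1 hhalf ω u.2]
    rfl

theorem ph_aevalS (hpA : ∀ c, p c ∈ A)
    (hκ : ∀ (ω : Spec A) c, chi ω (p c) = if κ ω = c then 1 else 0) (f : ℝ[X]) (ω : Spec A)
    {m : ℕ} (hm : f.natDegree ≤ m + 1) :
    ph ω (aeval (pinching p G) f) = aeval (winS hA h D hG0 hG1 hhalf κ ω m) f
      ⟨ω, mem_ball_self _ m ω⟩ ⟨ω, mem_ball_self _ m ω⟩ := by
  have hSM : pinching p G ∈ M :=
    sum_mem fun c _ => mul_mem (mul_mem (hA.le _ (hpA c)) (D.mem hA)) (hA.le _ (hpA c))
  have hk : ∀ k : ℕ, f.coeff k • pinching p G ^ k ∈ M := fun k => by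
    rw [← Complex.coe_smul]; exact vn_smul_mem _ (pow_mem hSM k)
  simp only [aeval_eq_sum_range, Matrix.sum_apply]
  rw [ph_sum ω hA _ _ hk]
  refine Finset.sum_congr rfl fun k hkr => ?_
  rw [Finset.mem_range] at hkr
  rw [Matrix.smul_apply,
    winS_pow hA h D hG0 hG1 hhalf κ p hpA hκ ω _ k (by omega) ⟨ω, _⟩,
    ← Complex.coe_smul (f.coeff k) (pinching p G ^ k), ph_smul ω hA _ (pow_mem hSM k),
    Complex.real_smul]
  simp [Model.name, Gens.word]

end Window

/-- An eigenvalue is at most any scalar dominating the matrix. -/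
theorem eigenvalue_le_of_posSemidef {κ : Type} [Fintype κ] [DecidableEq κ] {T : Matrix κ κ ℂ}
    (hT : T.IsHermitian) {c : ℝ} (hc : ((c : ℂ) • (1 : Matrix κ κ ℂ) - T).PosSemidef) (i : κ) :
    hT.eigenvalues i ≤ c := by
  set v : κ → ℂ := ⇑(hT.eigenvectorBasis i) with hv
  have hn : star v ⬝ᵥ v = 1 := by
    have := hT.eigenvectorBasis.orthonormal.1 i
    have h2 := inner_self_eq_norm_sq_to_K (𝕜 := ℂ) (hT.eigenvectorBasis i)
    rw [this, EuclideanSpace.inner_eq_star_dotProduct, dotProduct_comm] at h2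
    simpa [hv] using h2
  have h2 := hc.re_dotProduct_nonneg v
  rw [Matrix.sub_mulVec, Matrix.smul_mulVec, Matrix.one_mulVec, dotProduct_sub, dotProduct_smul,
    hn, hT.mulVec_eigenvectorBasis i] at h2
  change 0 ≤ RCLike.re ((c : ℂ) • (1 : ℂ) - star v ⬝ᵥ (hT.eigenvalues i • v)) at h2
  rw [dotProduct_smul, hn] at h2
  simpa using h2

theorem eval_le_diag {κ : Type} [Fintype κ] [DecidableEq κ] {T : Matrix κ κ ℂ}
    (hT : T.IsHermitian) (f : ℝ[X]) {B : ℝ} (hB : ∀ i, f.eval (hT.eigenvalues i) ≤ B) (i : κ) :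
    (aeval T f i i).re ≤ B := by
  set U : Matrix κ κ ℂ := (hT.eigenvectorUnitary : Matrix κ κ ℂ) with hU
  have hUU : U * star U = 1 := Unitary.coe_mul_star_self hT.eigenvectorUnitary
  have hdiag : ∀ (g : ℝ[X]) (d : κ → ℝ), aeval (Matrix.diagonal fun j => (d j : ℂ)) g =
      Matrix.diagonal fun j => ((g.eval (d j) : ℝ) : ℂ) := fun g d => by
    induction g using Polynomial.induction_on' with
    | add p q hp hq =>
      rw [map_add, hp, hq, Matrix.diagonal_add]
      simp
    | monomial k a =>
      rw [aeval_monomial, Matrix.diagonal_pow, Matrix.algebraMap_eq_diagonal,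
        Matrix.diagonal_mul_diagonal]
      simp
  have e : aeval T f = U * Matrix.diagonal (fun j => ((f.eval (hT.eigenvalues j) : ℝ) : ℂ)) *
      star U := by
    conv_lhs => rw [hT.spectral_theorem]
    rw [← hdiag]
    exact aeval_algHom_apply ((Unitary.conjStarAlgAut ℂ (Matrix κ κ ℂ)
      hT.eigenvectorUnitary).toAlgEquiv.toAlgHom.restrictScalars ℝ) _ f
  have h1 := congrArg (fun A : Matrix κ κ ℂ => (A i i).re) hUU
  simp only [Matrix.mul_apply, Matrix.star_apply, Matrix.one_apply_eq, Complex.one_re,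
    Complex.re_sum, RCLike.star_def] at h1
  rw [e, Matrix.mul_apply, Complex.re_sum]
  calc ∑ j, ((U * Matrix.diagonal fun j => ((f.eval (hT.eigenvalues j) : ℝ) : ℂ)) i j *
        (star U) j i).re ≤ ∑ j, B * (U i j * starRingEnd ℂ (U i j)).re := by
        refine Finset.sum_le_sum fun j _ => ?_
        rw [Matrix.mul_diagonal, Matrix.star_apply, RCLike.star_def, mul_right_comm,
          mul_comm, Complex.re_ofReal_mul]
        refine mul_le_mul_of_nonneg_right (hB j) ?_
        rw [Complex.mul_conj, Complex.ofReal_re]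
        exact Complex.normSq_nonneg _
    _ = B := by rw [← Finset.mul_sum, h1, mul_one]

/-- A matrix within `b` of one half has small even moments about one half. -/
theorem paved_diag_le {κ : Type} [Fintype κ] [DecidableEq κ] (T : Matrix κ κ ℂ) {b : ℝ}
    (hlo : (((1 / 2 + b : ℝ) : ℂ) • (1 : Matrix κ κ ℂ) - T).PosSemidef)
    (hhi : (((b - 1 / 2 : ℝ) : ℂ) • (1 : Matrix κ κ ℂ) + T).PosSemidef) (j : ℕ) (i : κ) :
    (aeval T ((C (2 : ℝ) * X - 1) ^ (2 * j)) i i).re ≤ (2 * b) ^ (2 * j) := by
  have hT : T.IsHermitian := by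
    have hone := Matrix.IsHermitian.smul (Matrix.isHermitian_one (n := κ) (α := ℂ))
      (show IsSelfAdjoint (((1 / 2 + b : ℝ) : ℂ)) by simp [IsSelfAdjoint, RCLike.star_def])
    have h1 := hone.sub hlo.1
    rw [sub_sub_cancel] at h1
    exact h1
  refine eval_le_diag hT _ (fun l => ?_) i
  have hu := eigenvalue_le_of_posSemidef hT hlo l
  have hl : 1 / 2 - b ≤ hT.eigenvalues l := by
    obtain ⟨v, hv⟩ : ∃ v : κ → ℂ, v = ⇑(hT.eigenvectorBasis l) := ⟨_, rfl⟩
    have hn : star v ⬝ᵥ v = 1 := by
      have := hT.eigenvectorBasis.orthonormal.1 l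
      have h2 := inner_self_eq_norm_sq_to_K (𝕜 := ℂ) (hT.eigenvectorBasis l)
      rw [this, EuclideanSpace.inner_eq_star_dotProduct, dotProduct_comm] at h2
      simpa [hv] using h2
    have hTv : T.mulVec v = hT.eigenvalues l • v := by
      rw [hv]; exact hT.mulVec_eigenvectorBasis l
    have h2 := hhi.re_dotProduct_nonneg v
    rw [Matrix.add_mulVec, Matrix.smul_mulVec, Matrix.one_mulVec, dotProduct_add,
      dotProduct_smul, hn, hTv, dotProduct_smul, hn] at h2
    simp at h2
    linarith
  rw [eval_pow, eval_sub, eval_mul, eval_C, eval_X, eval_one, pow_mul, pow_mul]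
  refine pow_le_pow_left₀ (sq_nonneg _) ?_ j
  nlinarith

section Moment

noncomputable local instance (priority := high) decEqSpecM : DecidableEq (Spec A) :=
  fun a b => Classical.propDecidable (a = b)

/-- At a paved point the even moments of the pinching of a finite sum are small. -/
theorem ph_moment_le (hA : IsMasa M A) (h : IsState M A η) {x : H →L[ℂ] H}
    (D : Gens M A (halfUp x)) (hG0 : 0 ≤ halfUp x) (hG1 : halfUp x ≤ 1)
    (hhalf : ∀ ω : Spec A, ph ω (halfUp x) = 1 / 2) {r : ℕ} (κ : Spec A → Fin r)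
    {p : Fin r → (H →L[ℂ] H)} (hp : IsPartition A p)
    (hκ : ∀ (ω : Spec A) c, chi ω (p c) = if κ ω = c then 1 else 0) {b : ℝ} (ω : Spec A)
    {j m : ℕ} (hm : 2 * j ≤ m + 1)
    (hpav : (modelS hA h D hG0 hG1 hhalf).Paved b κ m ω) :
    (ph ω (pinching p x ^ (2 * j))).re ≤ (2 * b) ^ (2 * j) := by
  obtain ⟨f, hf⟩ : ∃ f : ℝ[X], f = (C 2 * X - 1) ^ (2 * j) := ⟨_, rfl⟩
  have hdeg : f.natDegree ≤ m + 1 := by
    refine le_trans ?_ hm
    rw [hf]
    refine natDegree_pow_le.trans (le_of_le_of_eq (Nat.mul_le_mul_left _ ?_) (mul_one _))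
    compute_degree
  have e1 : pinching p x ^ (2 * j) = aeval (pinching p (halfUp x)) f := by
    rw [hf, map_pow, map_sub, map_mul, aeval_C, aeval_X, map_one]
    congr 1
    rw [halfUp, pinching_smul, pinching_add, pinching_self hA hp (one_mem A),
      Algebra.algebraMap_eq_smul_one, smul_mul_assoc, one_mul, ← Complex.coe_smul]
    module
  rw [e1, ph_aevalS hA h D hG0 hG1 hhalf κ p hp.mem hκ f ω hdeg, hf]
  exact paved_diag_le _ hpav.1 hpav.2 j _

end Moment

end Vale.Agent.P078.Any
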