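import Vale.Agent.P078.All.SeedsBasic
import Vale.Agent.P078.All.Basic

/-!
Seeds planted in stages that separate finitely many translates are, once decided, independent and
uniform at the distinct translates: the mean of an event of the seeds is at most its uniform
probability plus the undecided mass.
-/

namespace Vale.Agent.P078.Any

open Filter Topology
open Vale.Agent.P078.All (Ev run avg cellProb undecided)

set_option linter.unusedSectionVars false

variable {Ω : Type} [TopologicalSpace Ω] {S : Type}

/-- Different translates of the same point lie in different cells. -/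
def SepOrbit {M : ℕ} (g : Fin M → Ω → Ω) (P : All.Part Ω) : Prop :=
  ∀ ω i j, g i ω ≠ g j ω → P.cell (g i ω) ≠ P.cell (g j ω)

theorem fine_sepOrbit [CompactSpace Ω] [T2Space Ω] [TotallyDisconnectedSpace Ω] {M : ℕ}
    (g : Fin M → Ω → Ω) (hg : ∀ i, Continuous (g i))
    (hne : ∀ i j, IsClosed {ω | g i ω ≠ g j ω}) : All.Part.Fine (SepOrbit g) := by
  classical
  have hpair : ∀ p : Fin M × Fin M, All.Part.Fine fun P : All.Part Ω => ∀ ω,
      g p.1 ω ≠ g p.2 ω → P.cell (g p.1 ω) ≠ P.cell (g p.2 ω) := by
    rintro ⟨i, j⟩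
    have hsep : ∀ ω : {ω | g i ω ≠ g j ω}, ∃ U : Set Ω, IsClopen U ∧ g i ω ∈ U ∧ g j ω ∉ U := by
      intro ω
      obtain ⟨U, hU, h1, h2⟩ := exists_isClopen_of_totally_separated ω.2
      exact ⟨U, hU, h1, h2⟩
    choose U hU hU1 hU2 using hsep
    obtain ⟨t, ht⟩ := (hne i j).isCompact.elim_finite_subcover
      (fun ω : {ω | g i ω ≠ g j ω} => g i ⁻¹' U ω ∩ g j ⁻¹' (U ω)ᶜ)
      (fun ω => ((hU ω).2.preimage (hg i)).inter ((hU ω).compl.2.preimage (hg j)))
      fun ω hω => Set.mem_iUnion.2 ⟨⟨ω, hω⟩, hU1 _, hU2 _⟩
    have hfine : ∀ ω : t, All.Part.Fine fun P : All.Part Ω => ∀ x y, x ∈ U ω.1 → y ∉ U ω.1 →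
        P.cell x ≠ P.cell y := by
      intro ω
      refine ⟨⟨2, LocallyConstant.ofIsClopen (hU ω.1)⟩, fun P hP x y hx hy e => ?_⟩
      have := hP x y e
      simp [LocallyConstant.ofIsClopen, hx, hy] at this
    refine (All.Part.Fine.forall hfine).mono fun P hP ω hω => ?_
    obtain ⟨ω₀, hω₀, h1, h2⟩ := Set.mem_iUnion₂.1 (ht hω)
    exact hP ⟨ω₀, hω₀⟩ _ _ h1 h2
  exact (All.Part.Fine.forall hpair).mono fun P hP ω i j h => hP (i, j) ω h

theorem ev_forall_mem {Q : All.Part Ω → Prop} (h : All.Part.Fine Q) :
    ∀ L : ℕ, Ev L fun Ps => ∀ P ∈ Ps, Q P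
  | 0 => fun _ hP => absurd hP List.not_mem_nil
  | L + 1 => All.Ev.mono (L := L) (ev_forall_mem h L) fun Ps _ hPs => h.mono fun P hP R hR => by
      rcases List.mem_append.1 hR with hR | hR
      · exact hPs R hR
      · rw [List.mem_singleton.1 hR]; exact hP

variable [Fintype S]

/-- The marginal of independent cells along an injection. -/
theorem sum_prod_cells {n : ℕ} {τ : Type*} [Fintype τ] [DecidableEq τ] {O : Type*} [Fintype O]
    (p : O → ℝ) (hp : ∑ o, p o = 1) (e : τ → Fin n) (he : Function.Injective e)
    (h : τ → O → ℝ) :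
    ∑ x : Fin n → O, (∏ c, p (x c)) * ∏ v, h v (x (e v)) = ∏ v, ∑ o, p o * h v o := by
  classical
  have hfib : ∀ x : Fin n → O, ∏ v, h v (x (e v)) =
      ∏ c, ∏ v ∈ Finset.univ.filter (fun v => e v = c), h v (x c) := fun x => by
    rw [← Finset.prod_fiberwise Finset.univ e fun v => h v (x (e v))]
    refine Finset.prod_congr rfl fun c _ => Finset.prod_congr rfl fun v hv => ?_
    rw [(Finset.mem_filter.1 hv).2]
  calc ∑ x : Fin n → O, (∏ c, p (x c)) * ∏ v, h v (x (e v))
      = ∏ c, ∑ o, p o * ∏ v ∈ Finset.univ.filter (fun v => e v = c), h v o := by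
        rw [Fintype.prod_sum]
        exact Finset.sum_congr rfl fun x _ => by rw [hfib, Finset.prod_mul_distrib]
    _ = ∏ c, ∏ v ∈ Finset.univ.filter (fun v => e v = c), ∑ o, p o * h v o := by
        refine Finset.prod_congr rfl fun c _ => ?_
        by_cases hc : ∃ v, e v = c
        · obtain ⟨v, rfl⟩ := hc
          rw [show (Finset.univ.filter fun w => e w = e v) = {v} by
            ext w; simp [he.eq_iff]]
          simp
        · push Not at hc
          rw [Finset.filter_false_of_mem fun v _ => hc v]
          simp [hp]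
    _ = ∏ v, ∑ o, p o * h v o := Finset.prod_fiberwise _ e _

variable [Nonempty S] {θ : ℝ}

open Classical in
/-- The weight of the seed `a` at an option: the undecided option is uniform. -/
noncomputable def fillW (o : Option S) (a : S) : ℝ :=
  o.elim (1 / Fintype.card S) fun v => if v = a then 1 else 0

/-- One cell keeps the weights. -/
theorem sum_cellProb_fillW (o : Option S) (a : S) :
    ∑ x : Option S, cellProb θ x * fillW (o.orElse fun _ => x) a = fillW o a := by
  classical
  rcases o with _ | v
  · simp only [Option.orElse_none, Fintype.sum_option, fillW, Option.elim_none, cellProb,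
      Option.elim_some, mul_ite, mul_one, mul_zero, Finset.sum_ite_eq', Finset.mem_univ, if_true]
    ring
  · simp only [Option.orElse_some]
    rw [← Finset.sum_mul, All.sum_cellProb, one_mul]

/-- The uniform completion of a state on finitely many points. -/
noncomputable def fillMean {τ : Type*} [Fintype τ] [DecidableEq τ] (pt : τ → Ω)
    (G : (τ → S) → ℝ) (s : All.State Ω S) : ℝ :=
  ∑ b : τ → S, (∏ v, fillW (s (pt v)) (b v)) * G b

/-- The completion is preserved by the stages separating the points. -/
theorem run_fillMean {τ : Type*} [Fintype τ] [DecidableEq τ] (pt : τ → Ω) (G : (τ → S) → ℝ) :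
    ∀ (Ps : List (All.Part Ω)), (∀ P ∈ Ps, Function.Injective fun v => P.cell (pt v)) →
      ∀ s : All.State Ω S, run θ Ps (fillMean pt G) s = fillMean pt G s
  | [], _, _ => rfl
  | P :: Ps, h, s => by
    classical
    simp only [run, run_fillMean pt G Ps fun Q hQ => h Q (List.mem_cons_of_mem _ hQ)]
    rw [avg, fillMean]
    simp only [fillMean, smul_eq_mul, Finset.mul_sum]
    rw [Finset.sum_comm]
    refine Finset.sum_congr rfl fun b _ => ?_
    simp only [← mul_assoc, ← Finset.sum_mul]
    congr 1
    refine (sum_prod_cells (cellProb θ) All.sum_cellProb (fun v => P.cell (pt v))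
      (h P List.mem_cons_self) fun v o => fillW ((s (pt v)).orElse fun _ => o) (b v)).trans ?_
    exact Finset.prod_congr rfl fun v _ => sum_cellProb_fillW _ _

/-- The uniform probability of an event of the seeds at the distinct translates. -/
theorem card_cons {M : ℕ} (g : Fin M → Ω) (G : (Fin M → S) → ℝ) [DecidableEq Ω]
    [DecidablePred fun a : Fin M → S => ∀ i j, g i = g j → a i = a j] :
    (∑ a ∈ Finset.univ.filter (fun a : Fin M → S => ∀ i j, g i = g j → a i = a j), G a) /
      (Finset.univ.filter fun a : Fin M → S => ∀ i j, g i = g j → a i = a j).card =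
    ∑ b : Finset.univ.image g → S, (∏ v, fillW (none : Option S) (b v)) *
      G fun i => b ⟨g i, Finset.mem_image_of_mem g (Finset.mem_univ i)⟩ := by
  classical
  set T := Finset.univ.image g
  set C := Finset.univ.filter fun a : Fin M → S => ∀ i j, g i = g j → a i = a j
  let Φ : (T → S) → Fin M → S := fun b i => b ⟨g i, Finset.mem_image_of_mem g (Finset.mem_univ i)⟩
  have hinj : Function.Injective Φ := fun b b' h => by
    funext v
    obtain ⟨i, -, hi⟩ := Finset.mem_image.1 v.2
    have := congrFun h i
    have e : (⟨g i, Finset.mem_image_of_mem g (Finset.mem_univ i)⟩ : T) = v := Subtype.ext hi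
    simpa only [Φ, e] using this
  have hC : C = Finset.univ.image Φ := by
    ext a
    simp only [C, Finset.mem_filter, Finset.mem_univ, true_and, Finset.mem_image]
    constructor
    · intro ha
      choose idx hidx using fun v : T => Finset.mem_image.1 v.2
      exact ⟨fun v => a (idx v), funext fun i => ha _ _ (hidx _).2⟩
    · rintro ⟨b, rfl⟩ i j h
      exact congrArg b (Subtype.ext h)
  rw [hC, Finset.sum_image hinj.injOn, Finset.card_image_of_injective _ hinj, Finset.sum_div]
  refine Finset.sum_congr rfl fun b _ => ?_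
  simp only [Φ, fillW, Option.elim_none, Finset.prod_const, Finset.card_univ, Fintype.card_fun,
    Nat.cast_pow, one_div, inv_pow]
  ring

/-- The mean of an event of the seeds at the translates, after separating stages. -/
theorem run_event_le {M : ℕ} (g : Fin M → Ω) [DecidableEq Ω]
    [DecidablePred fun a : Fin M → S => ∀ i j, g i = g j → a i = a j]
    (G : (Fin M → S) → ℝ) (hG0 : ∀ a, 0 ≤ G a) (hG1 : ∀ a, G a ≤ 1) {T : ℝ} (hθ : 0 < θ)
    (h1 : θ ≤ 1) (Ps : List (All.Part Ω)) (hl : Ps.length = ⌈T / θ⌉₊)
    (hsep : ∀ P ∈ Ps, ∀ i j, g i ≠ g j → P.cell (g i) ≠ P.cell (g j)) :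
    run θ Ps (fun s => G fun i => (s (g i)).getD (Classical.arbitrary S)) (All.State.empty Ω S) ≤
      (∑ a ∈ Finset.univ.filter (fun a : Fin M → S => ∀ i j, g i = g j → a i = a j), G a) /
        (Finset.univ.filter fun a : Fin M → S => ∀ i j, g i = g j → a i = a j).card +
      M * Real.exp (-T) := by
  classical
  set Tg := Finset.univ.image g with hTg
  let G' : (Tg → S) → ℝ := fun b => G fun i => b ⟨g i, Finset.mem_image_of_mem g (Finset.mem_univ i)⟩
  have hpt : ∀ s : All.State Ω S, G (fun i => (s (g i)).getD (Classical.arbitrary S)) ≤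
      fillMean (fun v : Tg => (v : Ω)) G' s + ∑ i, undecided s (g i) := by
    intro s
    have hw : ∀ (o : Option S) a, 0 ≤ fillW o a := fun o a => by
      cases o with
      | none => simp [fillW]
      | some v => simp only [fillW, Option.elim_some]; split_ifs <;> norm_num
    have hu : ∀ i, 0 ≤ undecided s (g i) := fun i => by unfold undecided; split_ifs <;> norm_num
    have hm0 : 0 ≤ fillMean (fun v : Tg => (v : Ω)) G' s := Finset.sum_nonneg fun b _ =>
      mul_nonneg (Finset.prod_nonneg fun v _ => hw _ _) (hG0 _)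
    by_cases hall : ∀ i, (s (g i)).isSome
    · set b₀ : Tg → S := fun v => (s (v : Ω)).getD (Classical.arbitrary S) with hb₀
      have hsome : ∀ v : Tg, s (v : Ω) = some (b₀ v) := fun v => by
        obtain ⟨i, -, hi⟩ := Finset.mem_image.1 v.2
        obtain ⟨a, ha⟩ := Option.isSome_iff_exists.1 (hall i)
        rw [hi] at ha
        simp [hb₀, ha]
      have h2 : fillMean (fun v : Tg => (v : Ω)) G' s = G' b₀ := by
        rw [fillMean, Finset.sum_eq_single b₀]
        · simp [fillW, hsome]
        · intro b _ hb
          obtain ⟨v, hv⟩ := Function.ne_iff.1 hb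
          rw [Finset.prod_eq_zero (Finset.mem_univ v), zero_mul]
          simp [fillW, hsome, Ne.symm hv]
        · simp
      rw [h2]
      exact le_add_of_nonneg_right (Finset.sum_nonneg fun i _ => hu i)
    · push Not at hall
      obtain ⟨i, hi⟩ := hall
      refine (hG1 _).trans (le_add_of_nonneg_of_le hm0 ?_)
      refine le_trans (le_of_eq ?_) (Finset.single_le_sum (fun j _ => hu j) (Finset.mem_univ i))
      simp [undecided, Option.not_isSome_iff_eq_none.1 hi]
  refine (All.run_mono hθ.le h1 Ps _ hpt).trans ?_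
  rw [All.run_add, run_fillMean (θ := θ) _ _ Ps fun P hP => ?_, card_cons g G]
  · refine add_le_add (le_of_eq ?_) ?_
    · simp only [fillMean, All.State.empty_apply]
      rfl
    · refine le_trans (le_of_eq ?_) ((Finset.sum_le_sum fun i (_ : i ∈ Finset.univ) =>
        All.run_undecided_le (S := S) hθ h1 Ps hl (g i)).trans (le_of_eq (by simp)))
      induction (Finset.univ : Finset (Fin M)) using Finset.induction with
      | empty => simpa using All.run_const (0 : ℝ) Ps (All.State.empty Ω S)
      | insert j t hj ih => simp only [Finset.sum_insert hj, All.run_add, ih]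
  · intro v v' h
    obtain ⟨i, -, hi⟩ := Finset.mem_image.1 v.2
    obtain ⟨j, -, hj⟩ := Finset.mem_image.1 v'.2
    by_contra hne
    exact hsep P hP i j (fun e => hne (Subtype.ext (by rw [← hi, ← hj, e])))
      (by rw [hi, hj]; exact h)

end Vale.Agent.P078.Any
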