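import Vale.Agent.P078.Any.RandomPaving.Statement
import Vale.Agent.P078.Any.RunUniform
import Vale.Agent.P078.Any.St.Compress
import Vale.Agent.P078.All.Transfer

/-!
One value of the seeds makes both the compressed moments and the mass of the bad event small.
-/

namespace Vale.Agent.P078.Any

open St
open Vale.Agent.P078.All.Env (reC)

variable {Ω : Type} [TopologicalSpace Ω] [CompactSpace Ω] [T2Space Ω] [TotallyDisconnectedSpace Ω]
  {R : Type} [Ring R] [StarRing R] [Algebra ℂ R] [StarModule ℂ R]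
  {V : Env R Ω} {S : Type} [Fintype S] [Nonempty S] {M : ℕ}

/-- The seeds at the translates. -/
noncomputable def seedsAt (g : Fin M → V.Mover) (s : All.State Ω S) (ω : Ω) : Fin M → S :=
  fun i => (s ((g i).T ω)).getD (Classical.arbitrary S)

/-- The event that a colouring rule gives colour `c`. -/
def colourProj (g : Fin M → V.Mover) {r : ℕ} (F : Ω → (Fin M → S) → Fin r)
    (hF : IsLocallyConstant F) (c : Fin r) : SeedProj V S where
  M := M
  g := g
  rule := ⟨fun ω a => decide (F ω a = c), hF.comp fun f a => decide (f a = c)⟩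

theorem colourProj_val (g : Fin M → V.Mover) {r : ℕ} (F : Ω → (Fin M → S) → Fin r)
    (hF : IsLocallyConstant F) (c : Fin r) (s : All.State Ω S) (ω : Ω) :
    (colourProj g F hF c).val s ω = if F ω (seedsAt g s ω) = c then 1 else 0 := by
  change (if decide (F ω (seedsAt g s ω) = c) = true then (1 : ℂ) else 0) = _
  by_cases h : F ω (seedsAt g s ω) = c <;> simp [h]

/-- The bad event as an event of the seeds. -/
def eventProj (g : Fin M → V.Mover) (B : Ω → (Fin M → S) → Bool) (hB : IsLocallyConstant B) :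
    SeedProj V S where
  M := M
  g := g
  rule := ⟨B, hB⟩

theorem eventProj_val (g : Fin M → V.Mover) (B : Ω → (Fin M → S) → Bool)
    (hB : IsLocallyConstant B) (s : All.State Ω S) (ω : Ω) :
    reC ((eventProj g B hB).val s) ω = if B ω (seedsAt g s ω) = true then 1 else 0 := by
  change ((if B ω (seedsAt g s ω) = true then (1 : ℂ) else 0)).re = _
  split_ifs <;> simp

variable {L : ℕ} (O : Model Ω L) (w : Fin M → List (Fin L))

theorem colourProj_hasMean (g : Fin M → V.Mover) (hT : ∀ i ω, (g i).T ω = O.act (w i) ω) {r : ℕ}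
    (hr : 0 < r) (F : Ω → (Fin M → S) → Fin r) (hF : IsLocallyConstant F)
    (hmarg : ∀ ω c, r * ((O.Cons w S ω).filter fun a => F ω a = c).card = (O.Cons w S ω).card)
    (c : Fin r) : (colourProj g F hF c).HasMean (1 / r) := by
  classical
  intro ω
  have hr' : (r : ℝ) ≠ 0 := Nat.cast_ne_zero.2 hr.ne'
  have h1 : (r : ℝ) * ((O.Cons w S ω).filter fun a => F ω a = c).card = (O.Cons w S ω).card := by
    exact_mod_cast hmarg ω c
  have hset : (Finset.univ.filter fun π : Fin M → S =>
      ∀ i k, (g i).T ω = (g k).T ω → π i = π k) = O.Cons w S ω := by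
    ext π; simp [Model.Cons, hT]
  refine Eq.trans (b := (((O.Cons w S ω).filter fun a => F ω a = c).card : ℝ)) ?_ ?_
  · rw [Finset.natCast_card_filter]
    refine Finset.sum_congr (Eq.trans ?_ hset) fun π _ => ?_
    · ext π
      constructor <;> intro h <;>
        exact Finset.mem_filter.2 ⟨Finset.mem_univ _, (Finset.mem_filter.1 h).2⟩
    · change (if decide (F ω π = c) = true then (1 : ℝ) else 0) = _
      by_cases h : F ω π = c <;> simp [h]
  · rw [one_div, eq_inv_mul_iff_mul_eq₀ hr', h1, ← hset]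
    congr 2

/-- The mean mass of the event. -/
theorem run_eventProj_le (g : Fin M → V.Mover) (hT : ∀ i ω, (g i).T ω = O.act (w i) ω)
    (B : Ω → (Fin M → S) → Bool) (hB : IsLocallyConstant B) (Dm : C(Ω, ℝ))
    (hDm : ∀ ω, Dm ω = (((O.Cons w S ω).filter fun a => B ω a = true).card : ℝ) /
      (O.Cons w S ω).card)
    {θ T : ℝ} (hθ : 0 < θ) (h1 : θ ≤ 1) (Ps : List (All.Part Ω)) (hl : Ps.length = ⌈T / θ⌉₊)
    (hsep : ∀ P ∈ Ps, SepOrbit (fun i => (g i).T) P) :
    All.run θ Ps (fun s => V.μR (reC ((eventProj g B hB).val s))) (All.State.empty Ω S) ≤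
      V.μR Dm + M * Real.exp (-T) := by
  classical
  rw [← All.map_run, ← V.μR_const ((M : ℝ) * Real.exp (-T)), ← map_add]
  refine V.μR_mono fun ω => ?_
  let evω : C(Ω, ℝ) →ₗ[ℝ] ℝ :=
    { toFun := fun f => f ω, map_add' := fun _ _ => rfl, map_smul' := fun _ _ => rfl }
  have he : ∀ s : All.State Ω S, evω (reC ((eventProj g B hB).val s)) =
      (fun a => if B ω a = true then (1 : ℝ) else 0)
        fun i => (s (O.act (w i) ω)).getD (Classical.arbitrary S) := fun s => by
    show reC ((eventProj g B hB).val s) ω = _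
    rw [eventProj_val]
    have e : seedsAt g s ω = fun i => (s (O.act (w i) ω)).getD (Classical.arbitrary S) :=
      funext fun i => congrArg (fun z => (s z).getD _) (hT i ω)
    rw [e]
  show evω _ ≤ _
  rw [All.map_run, All.run_congr _ _ he]
  refine (run_event_le (fun i => O.act (w i) ω) (fun a => if B ω a = true then (1 : ℝ) else 0)
    (fun a => by split_ifs <;> norm_num) (fun a => by split_ifs <;> norm_num) hθ h1 Ps hl
    fun Q hQ i k hik => ?_).trans ?_
  · have := hsep Q hQ ω i k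
    simp only [hT] at this
    exact this hik
  · rw [Finset.sum_boole, ContinuousMap.add_apply, ContinuousMap.const_apply, hDm]
    exact add_le_add (le_of_eq (by simp [Model.Cons])) le_rfl

/-- One value of the seeds is good for both. -/
theorem exists_seeds (hC : CompressionStatement V) (g : Fin M → V.Mover)
    (hT : ∀ i ω, (g i).T ω = O.act (w i) ω) {r : ℕ} (hr : 0 < r)
    (F : Ω → (Fin M → S) → Fin r) (hF : IsLocallyConstant F)
    (hmarg : ∀ ω c, r * ((O.Cons w S ω).filter fun a => F ω a = c).card = (O.Cons w S ω).card)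
    (B : Ω → (Fin M → S) → Bool) (hB : IsLocallyConstant B) (Dm : C(Ω, ℝ))
    (hDm : ∀ ω, Dm ω = (((O.Cons w S ω).filter fun a => B ω a = true).card : ℝ) /
      (O.Cons w S ω).card)
    {e : ℝ} (he : 0 < e) (hDle : V.μR Dm ≤ e / 4) {Y : R} (hYs : star Y = Y)
    (hYo : V.OrthNormaliser Y) (hYb : V.Bdd Y 1) {j : ℕ} (hj : 0 < j) :
    ∃ s : All.State Ω S,
      ∑ c, (V.τ ((V.ι ((colourProj g F hF c).val s) * Y *
          V.ι ((colourProj g F hF c).val s)) ^ (2 * j))).re +
        V.μR (reC ((eventProj g B hB).val s)) ≤ (2 / Real.sqrt r) ^ (2 * j) + e := by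
  classical
  have hr' : (0 : ℝ) < r := Nat.cast_pos.2 hr
  choose T₀ hT₀ hTT using fun c => hC S (colourProj g F hF c) (1 / r) (by positivity)
    (colourProj_hasMean O w g hT hr F hF hmarg c) Y 1 hYs hYo hYb j hj
    (e / (4 * r)) (by positivity)
  obtain ⟨T, hTc, hTe⟩ : ∃ T : ℝ, (∀ c, T₀ c ≤ T) ∧ M * Real.exp (-T) ≤ e / 4 := by
    obtain ⟨U, hU⟩ : ∃ U : ℝ, U = max (∑ c, T₀ c) (M / (e / 4)) := ⟨_, rfl⟩
    refine ⟨U, fun c => (Finset.single_le_sum (fun d _ => (hT₀ d).le) (Finset.mem_univ c)).trans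
      (hU ▸ le_max_left _ _), ?_⟩
    have h1 : (M : ℝ) ≤ U * (e / 4) := (div_le_iff₀ (by positivity)).1 (hU ▸ le_max_right _ _)
    have h2 : (M : ℝ) ≤ e / 4 * Real.exp U := by nlinarith [Real.add_one_le_exp U]
    rw [Real.exp_neg, ← div_eq_mul_inv, div_le_iff₀ (Real.exp_pos U)]
    exact h2
  choose θ₀ hθ₀ hθθ using fun c => hTT c T (hTc c)
  obtain ⟨θ, hθ0, hθ1, hθc⟩ : ∃ θ : ℝ, 0 < θ ∧ θ ≤ 1 ∧ ∀ c, θ < θ₀ c := by
    have : Nonempty (Fin r) := ⟨⟨0, hr⟩⟩
    obtain ⟨m, hm⟩ := Finite.exists_min θ₀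
    exact ⟨min (θ₀ m / 2) 1, lt_min (half_pos (hθ₀ m)) one_pos, min_le_right _ _,
      fun c => (min_le_left _ _).trans_lt ((half_lt_self (hθ₀ m)).trans_le (hm c))⟩
  have hne : ∀ i k, IsClosed {ω | (g i).T ω ≠ (g k).T ω} := fun i k => by
    simp only [hT]
    exact (O.isOpen_eq (w i) (w k)).isClosed_compl
  obtain ⟨Ps, ⟨hPs, hsep⟩, hlen⟩ := All.Ev.exists <|
    All.Ev.mono (All.Ev.and (All.Ev.forall_finset Finset.univ fun c _ =>
      hθθ c θ hθ0 (hθc c) hθ1)
        (ev_forall_mem (fine_sepOrbit (fun i => (g i).T) (fun i => (g i).T.continuous) hne) _))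
      fun Ps hl hQ => And.intro hQ hl
  by_contra hcon
  push Not at hcon
  have hlow := All.run_mono hθ0.le hθ1 Ps (All.State.empty Ω S) fun t => (hcon t).le
  rw [All.run_const, All.run_add, All.run_sum_seeds] at hlow
  have h1 := (hlow.trans (add_le_add (Finset.sum_le_sum fun c hc => hPs c hc)
    (run_eventProj_le O w g hT B hB Dm hDm hθ0 hθ1 Ps hlen hsep)))
  rw [Finset.sum_const, Finset.card_univ, Fintype.card_fin, nsmul_eq_mul,
    Real.sqrt_div zero_le_one, Real.sqrt_one, mul_one, mul_one_div, mul_add] at h1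
  have h2 : (r : ℝ) * (1 / r * (2 / Real.sqrt r) ^ (2 * j)) = (2 / Real.sqrt r) ^ (2 * j) := by
    field_simp
  have h3 : (r : ℝ) * (e / (4 * r)) = e / 4 := by field_simp
  linarith

end Vale.Agent.P078.Any
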