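import Vale.Agent.P078.Any.OperatorCut
import Vale.Agent.P078.Any.OperatorModel
import Vale.Agent.P078.Any.OperatorSeeds
import Vale.Agent.P078.Any.St.StateCompression

/-!
One value of the seeds gives a colouring whose pinching has small even moments on a finite sum over
the normaliser and on an element orthogonal to the normaliser, under the state.
-/

namespace Vale.Agent.P078.Any

open scoped InnerProductSpace ComplexOrder
open ContinuousLinearMap Cartan St
open Vale.Agent.P078.All.Env (reC)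

variable {H : Type} [NormedAddCommGroup H] [InnerProductSpace ℂ H] [CompleteSpace H]
variable {M : VonNeumannAlgebra H} {A : StarSubalgebra ℂ (H →L[ℂ] H)} {ι : Type} {η : ι → H}
variable [AbelianClosed A]

/-- The value at a point of the diagonal is at most the norm. -/
theorem norm_ph_le (hA : IsMasa M A) {X : H →L[ℂ] H} (hX : X ∈ M) (ω : Spec A) :
    ‖ph ω X‖ ≤ ‖X‖ := by
  have hE := expect_mem hA hX
  have : Nontrivial A := ⟨1, 0, fun h => by simpa using congrArg ω h⟩
  rw [ph, chi_of_mem ω hE]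
  exact (AlgHom.norm_apply_le_self (ω : Spec A) _).trans (expect_norm_le X)

variable [TotallyDisconnectedSpace (Spec A)]

theorem re_phi_eq_μR (hA : IsMasa M A) (h : IsState M A η) {X : H →L[ℂ] H} (hX : X ∈ M) :
    (h.phi X).re = (stEnv hA h).μR ⟨fun ω => (ph ω X).re,
      Complex.continuous_re.comp (continuous_chi _)⟩ := by
  rw [← stEnv_τ hA h ⟨X, hX⟩, Env.τ, (stEnv hA h).μ_re]
  rfl

/-- The blocks in the environment give the moment of the pinching. -/
theorem re_phi_pinching_pow (hA : IsMasa M A) (h : IsState M A η) {r : ℕ}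
    {p : Fin r → (H →L[ℂ] H)} (hp : IsPartition A p) (Y : M.toStarSubalgebra)
    (f : Fin r → C(Spec A, ℂ)) (hf : ∀ c, ofFun (f c) = p c) {m : ℕ} :
    (h.phi (pinching p (Y : H →L[ℂ] H) ^ (m + 1))).re =
      ∑ c, ((stEnv hA h).τ
        (((stEnv hA h).ι (f c) * Y * (stEnv hA h).ι (f c)) ^ (m + 1))).re := by
  rw [All.pinching_pow hp _ m, h.phi_sum, Complex.re_sum]
  refine Finset.sum_congr rfl fun c _ => congrArg Complex.re ?_
  refine ((stEnv_τ hA h _).trans (congrArg h.phi ?_)).symm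
  rw [SubmonoidClass.coe_pow]
  show (((stEnv hA h).ι (f c) : H →L[ℂ] H) * (Y : H →L[ℂ] H) *
    ((stEnv hA h).ι (f c) : H →L[ℂ] H)) ^ (m + 1) = _
  rw [stEnv_ι, hf]

/-- A colouring of the seeds is locally constant. -/
theorem isLocallyConstant_seeded {M' : ℕ} {S : Type} [Fintype S] [Nonempty S] {r : ℕ}
    {hA : IsMasa M A} {h : IsState M A η} (g : Fin M' → (stEnv hA h).Mover)
    (F : Spec A → (Fin M' → S) → Fin r) (hF : IsLocallyConstant F) (s : All.State (Spec A) S) :
    IsLocallyConstant fun v => F v (seedsAt g s v) := by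
  refine (hF.prodMk ((IsLocallyConstant.iff_eventually_eq _).2 fun ω => ?_)).comp
    fun q : ((Fin M' → S) → Fin r) × (Fin M' → S) => q.1 q.2
  have h1 : ∀ᶠ v in nhds ω, ∀ i, s ((g i).T v) = s ((g i).T ω) :=
    Filter.eventually_all.2 fun i =>
      (s.isLocallyConstant.comp_continuous (g i).T.continuous).eventually_eq ω
  filter_upwards [h1] with v hv
  funext i
  simp only [hv i]

/-- The moment of a finite sum, pointwise paved or bad. -/
theorem re_phi_pow_le_paved (hA : IsMasa M A) (h : IsState M A η) {x : H →L[ℂ] H}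
    (hxM : x ∈ M) (hxs : IsSelfAdjoint x) (hx1 : ‖x‖ ≤ 1) (D : Gens M A (halfUp x))
    (hG0 : 0 ≤ halfUp x) (hG1 : halfUp x ≤ 1)
    (hhalf : ∀ ω : Spec A, ph ω (halfUp x) = 1 / 2) {r : ℕ} (κ : Spec A → Fin r)
    {p : Fin r → (H →L[ℂ] H)} (hp : IsPartition A p)
    (hκ : ∀ (ω : Spec A) c, chi ω (p c) = if κ ω = c then 1 else 0) {b : ℝ} (hb : 0 ≤ b) {j : ℕ}
    (hj : 0 < j) (bad : C(Spec A, ℝ)) (hbad0 : ∀ ω, 0 ≤ bad ω)
    (hbad : ∀ ω, ¬(modelS hA h D hG0 hG1 hhalf).Paved b κ (2 * j) ω → 1 ≤ bad ω) :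
    (h.phi (pinching p x ^ (2 * j))).re ≤ (2 * b) ^ (2 * j) + (stEnv hA h).μR bad := by
  have hXM := pow_mem (pinching_mem hA hp hxM) (2 * j)
  rw [re_phi_eq_μR hA h hXM, ← (stEnv hA h).μR_const ((2 * b) ^ (2 * j)), ← map_add]
  refine (stEnv hA h).μR_mono fun ω => ?_
  simp only [ContinuousMap.coe_mk, ContinuousMap.add_apply, ContinuousMap.const_apply]
  by_cases hω : (modelS hA h D hG0 hG1 hhalf).Paved b κ (2 * j) ω
  · exact (ph_moment_le hA h D hG0 hG1 hhalf κ hp hκ ω (Nat.le_succ (2 * j)) hω).trans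
      (le_add_of_nonneg_right (hbad0 ω))
  · refine ((Complex.re_le_norm _).trans ((norm_ph_le hA hXM ω).trans ?_)).trans
      (le_add_of_nonneg_of_le (by positivity) (hbad ω hω))
    exact (norm_pow_le' _ (by omega)).trans
      (pow_le_one₀ (norm_nonneg _) (All.norm_pinching_le_one hp hxs hx1))

/-- One colouring pinches both parts to small moments. -/
theorem exists_pinching_moments (hR : RandomPavingStatement) (hA : IsMasa M A)
    (h : IsState M A η) {n₀ : H →L[ℂ] H} (hnS : n₀ ∈ spanN M A) (hns : IsSelfAdjoint n₀)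
    (hn1 : ‖n₀‖ ≤ 1) (hnE : expect A n₀ = 0) {y : H →L[ℂ] H} (hyM : y ∈ M)
    (hys : IsSelfAdjoint y) (hy1 : ‖y‖ ≤ 1) (hyo : Orth M A y) {r : ℕ} (hr : 0 < r) {j : ℕ}
    (hj : 0 < j) {e : ℝ} (he : 0 < e) :
    ∃ p : Fin r → (H →L[ℂ] H), IsPartition A p ∧
      (h.phi (pinching p y ^ (2 * j))).re ≤ (2 / Real.sqrt r) ^ (2 * j) + e ∧
      (h.phi (pinching p n₀ ^ (2 * j))).re ≤
        (20 / Real.sqrt r) ^ (2 * j) + ((2 / Real.sqrt r) ^ (2 * j) + e) := by
  have hnM := spanN_le hA hnS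
  obtain ⟨hG0, hG1⟩ := halfUp_bounds hns hn1
  obtain ⟨D⟩ := exists_gens (halfUp_mem_spanN hnS)
  have hhalf : ∀ ω : Spec A, ph ω (halfUp n₀) = 1 / 2 := fun ω => ph_halfUp hA hnM hnE ω
  obtain ⟨M', w, S, hS1, hS2, F, B, hFc, hBc, hmarg, hpav, Dm, hDm, hDle⟩ :=
    hR (Spec A) D.L r (2 * j) (e / 4) (modelS hA h D hG0 hG1 hhalf) (stEnv hA h).μR hr
      (by positivity) (fun f hf => (stEnv hA h).μR_nonneg hf)
      (by rw [show (1 : C(Spec A, ℝ)) = ContinuousMap.const _ 1 from rfl, (stEnv hA h).μR_const])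
  obtain ⟨g, hg⟩ : ∃ g : Fin M' → (stEnv hA h).Mover,
      g = fun i => toMoverS hA h (D.word_normaliser (w i)).star' := ⟨_, rfl⟩
  have hT : ∀ i ω, (g i).T ω = (modelS hA h D hG0 hG1 hhalf).act (w i) ω := fun i ω => by
    rw [hg, modelS_act]
    exact (toMoverS_T hA h _ ω).trans (move_of_eq ω _ (D.word_normaliser (w i)) (star_star _))
  obtain ⟨s, hs⟩ := exists_seeds (modelS hA h D hG0 hG1 hhalf) w (stEnv_compression hA h) g hT hr
    F hFc hmarg B hBc Dm hDm he hDle (Y := (⟨y, hyM⟩ : M.toStarSubalgebra))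
    (Subtype.ext hys.star_eq) (stEnv_orth' hA h hyo) (stEnv_bdd hA h _ hy1) hj
  obtain ⟨p, hp, hκp⟩ :=
    exists_colouring_partition (A := A) (isLocallyConstant_seeded g F hFc s)
  refine ⟨p, hp, ?_⟩
  obtain ⟨m, hm⟩ : ∃ m, 2 * j = m + 1 := ⟨2 * j - 1, by omega⟩
  have hphiY : (h.phi (pinching p y ^ (2 * j))).re = ∑ c, ((stEnv hA h).τ
      (((stEnv hA h).ι ((colourProj g F hFc c).val s) * (⟨y, hyM⟩ : M.toStarSubalgebra) *
        (stEnv hA h).ι ((colourProj g F hFc c).val s)) ^ (2 * j))).re := by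
    simp only [hm]
    refine re_phi_pinching_pow hA h hp ⟨y, hyM⟩ _ fun c => ?_
    exact eq_of_chi_eq (ofFun_mem _) (hp.mem c) fun ω => by
      rw [chi_ofFun, hκp, colourProj_val]
  rw [← hphiY] at hs
  have hY0 := h.re_phi_pow_nonneg (pinching_isSelfAdjoint hp hys) j
  have hb0 : ∀ ω, 0 ≤ reC ((eventProj g B hBc).val s) ω := fun ω => by
    rw [eventProj_val]; split_ifs <;> norm_num
  have hbad0 := (stEnv hA h).μR_nonneg hb0
  refine ⟨by linarith, ?_⟩
  refine (re_phi_pow_le_paved hA h hnM hns hn1 D hG0 hG1 hhalf _ hp hκp (b := 10 / Real.sqrt r)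
    (by positivity) hj (reC ((eventProj g B hBc).val s)) hb0 fun ω hω => ?_).trans ?_
  · rw [eventProj_val]
    rcases hb : B ω (seedsAt g s ω) with _ | _
    · exfalso
      have e1 : ∀ v, seedsAt g s v = fun i => (s ((modelS hA h D hG0 hG1 hhalf).act (w i) v)).getD
          (Classical.arbitrary S) := fun v =>
        funext fun i => congrArg (fun z => (s z).getD _) (hT i v)
      rw [e1] at hb
      refine hω ?_
      simp only [e1]
      exact hpav (fun v => (s v).getD (Classical.arbitrary S)) ω hb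
    · simp
  · have e20 : 2 * (10 / Real.sqrt (r : ℝ)) = 20 / Real.sqrt r := by ring
    rw [e20]
    linarith

end Vale.Agent.P078.Any
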