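import Vale.Agent.P078.Any.Progress

/-!
The parameters: first the exponent of the gap, then the number of rounds.
-/

namespace Vale.Agent.P078.Any

open Finset Function Filter Topology

set_option linter.unusedSectionVars false

/-- The level of all thresholds that the choice of the gap must pass. -/
structure Gap (x Lam w γ δ₀ R₀ cA cRep cLin G : ℝ) (d : ℕ) : Prop where
  four : 4 ≤ x
  expo : 4 * (x ^ 24 * Real.exp (-(x / Real.sqrt 10))) ≤ 1 / 2
  gam : 1 ≤ x * γ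
  start : R₀ ≤ x
  lam : 5600 * Lam ≤ x * w
  pot : 8 * (17 * (4 * cRep * cA / w) + 1) * ((d : ℝ) + 1) ≤ x
  last : 16 * (((d : ℝ) + 1) * ((3 + 2 * (d : ℝ)) + 8 * (17 * (4 * cRep * cA / w) + 1) *
      (4 + 2 * (d : ℝ))) * G + (3 + 2 * (d : ℝ))) ≤ x * min 1 δ₀

theorem exists_gap (Lam cA cRep cLin G : ℝ) {w γ δ₀ : ℝ} (R₀ : ℝ) (d : ℕ) (hw : 0 < w) (hγ : 0 < γ)
    (hδ : 0 < δ₀) : ∃ N : ℕ, Gap ((N : ℝ) + 2) Lam w γ δ₀ R₀ cA cRep cLin G d := by
  have hN : Tendsto (fun N : ℕ => (N : ℝ) + 2) atTop atTop :=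
    tendsto_atTop_add_const_right atTop 2 tendsto_natCast_atTop_atTop
  have he : Tendsto (fun x : ℝ => 4 * (x ^ 24 * Real.exp (-(x / Real.sqrt 10)))) atTop (𝓝 0) := by
    have h := ((Real.tendsto_pow_mul_exp_neg_atTop_nhds_zero 24).comp
      (tendsto_id.atTop_div_const (r := Real.sqrt 10) (by positivity))).const_mul
        (4 * Real.sqrt 10 ^ 24)
    rw [mul_zero] at h
    refine h.congr fun x => ?_
    simp only [Function.comp, id, div_pow]
    have : Real.sqrt 10 ≠ 0 := by positivity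
    field_simp
  have hm : 0 < min 1 δ₀ := lt_min one_pos hδ
  obtain ⟨N, h4, h5, hγ', hR, hl, hp, hlast⟩ :=
    ((hN.eventually_ge_atTop 4).and (((he.comp hN).eventually_le_const
      (show (0 : ℝ) < 1 / 2 by norm_num)).and ((hN.eventually_ge_atTop (1 / γ)).and
        ((hN.eventually_ge_atTop R₀).and ((hN.eventually_ge_atTop (5600 * Lam / w)).and
          ((hN.eventually_ge_atTop (8 * (17 * (4 * cRep * cA / w) + 1) * ((d : ℝ) + 1))).and
            (hN.eventually_ge_atTop (16 * (((d : ℝ) + 1) * ((3 + 2 * (d : ℝ)) +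
              8 * (17 * (4 * cRep * cA / w) + 1) * (4 + 2 * (d : ℝ))) * G +
                (3 + 2 * (d : ℝ))) / min 1 δ₀)))))))).exists
  exact ⟨N, h4, h5, (div_le_iff₀ hγ).1 hγ', hR, (div_le_iff₀ hw).1 hl, hp,
    (div_le_iff₀ hm).1 hlast⟩

/-- The thresholds that the number of rounds must pass. -/
structure Rounds (m : ℕ) (S γ g w Lam lip₁ dom₁ bnd₁ Lam2 J₀ cRep small : ℝ) : Prop where
  pos : 0 < m
  h_le : S / m ≤ 1
  rise_g : γ / m ≤ g
  rise_w : 6500 * Lam ^ 2 * (γ / m) ≤ w / 16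
  lip_g : Real.sqrt (S / m) * lip₁ ≤ Lam * g / 4
  lip_w : 26 * Lam * (Real.sqrt (S / m) * lip₁) ≤ w / 16
  dom : Real.sqrt (S / m) * dom₁ ≤ bnd₁
  sign : 9 * Real.sqrt (S / m) * Lam2 ≤ 1
  jump : S / m * J₀ ≤ 1 / 4
  jump_small : S / m * J₀ ≤ small
  rep : 2 * (S / m * cRep * Lam2) ≤ small

theorem exists_rounds (S γ Lam lip₁ dom₁ Lam2 J₀ cRep : ℝ) {g w bnd₁ small : ℝ} (hg : 0 < g)
    (hw : 0 < w) (hb : 0 < bnd₁) (hs : 0 < small) (hL : 0 < Lam) :
    ∃ m : ℕ, Rounds m S γ g w Lam lip₁ dom₁ bnd₁ Lam2 J₀ cRep small := by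
  have h0 : ∀ c : ℝ, Tendsto (fun m : ℕ => c / (m : ℝ)) atTop (𝓝 0) :=
    tendsto_const_div_atTop_nhds_zero_nat
  have hmul : ∀ (a b : ℝ) {B : ℝ}, 0 < B → ∀ᶠ m : ℕ in atTop, b * (a / (m : ℝ)) ≤ B :=
    fun a b B hB => by
      have h := (h0 a).const_mul b
      rw [mul_zero] at h
      exact h.eventually_le_const hB
  have hsq : ∀ (a b : ℝ) {B : ℝ}, 0 < B → ∀ᶠ m : ℕ in atTop,
      b * Real.sqrt (a / (m : ℝ)) ≤ B := fun a b B hB => by
    have h := ((Real.continuous_sqrt.tendsto 0).comp (h0 a)).const_mul b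
    rw [Real.sqrt_zero, mul_zero] at h
    exact h.eventually_le_const hB
  obtain ⟨m, e0, e1, e2, e3, e4, e5, e6, e7, e8, e9, e10⟩ :=
    ((eventually_gt_atTop 0).and ((hmul S 1 one_pos).and ((hmul γ 1 hg).and
      ((hmul γ (6500 * Lam ^ 2) (show 0 < w / 16 by positivity)).and
      ((hsq S lip₁ (show 0 < Lam * g / 4 by positivity)).and
      ((hsq S (26 * Lam * lip₁) (show 0 < w / 16 by positivity)).and
      ((hsq S dom₁ hb).and ((hsq S (9 * Lam2) one_pos).and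
      ((hmul S J₀ (show (0 : ℝ) < 1 / 4 by norm_num)).and ((hmul S J₀ hs).and
      (hmul S (2 * (cRep * Lam2)) hs))))))))))).exists
  exact ⟨m, e0, by linarith, by linarith, e3, by linarith, by linarith, by linarith, by linarith,
    by linarith, by linarith, by linarith⟩

theorem rootLevel_le {r : ℕ} (hr : 0 < r) : rootLevel r ≤ 2 := by
  have h1 : Real.sqrt (1 / 2) ≤ 1 / Real.sqrt 2 := by rw [Real.sqrt_div zero_le_one, Real.sqrt_one]
  have h2 : 1 / Real.sqrt (2 * r) ≤ 1 / Real.sqrt 2 := by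
    refine one_div_le_one_div_of_le (by positivity) (Real.sqrt_le_sqrt ?_)
    have : (1 : ℝ) ≤ r := by exact_mod_cast hr
    linarith
  unfold rootLevel
  calc (1 / Real.sqrt (2 * r) + Real.sqrt (1 / 2)) ^ 2
      ≤ (1 / Real.sqrt 2 + 1 / Real.sqrt 2) ^ 2 :=
        pow_le_pow_left₀ (by positivity) (add_le_add h2 h1) 2
    _ = 2 := by
        have := Real.sq_sqrt (show (0 : ℝ) ≤ 2 by norm_num)
        field_simp
        linarith

theorem rootLevel_nonneg (r : ℕ) : 0 ≤ rootLevel r := sq_nonneg _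

namespace Cfg

variable {V X : Type} [DecidableEq V] [Fintype X] [DecidableEq X] {r : ℕ} (C : Cfg V X r)

/-- The constants are small when the gap is small. -/
theorem const_bounds {x w δ₀ G S : ℝ} {d : ℕ} {Lam γ R₀ : ℝ}
    (hg : C.P.g = (x ^ 8)⁻¹) (hL2 : C.Lam2 = x ^ 16) (hL : (C.P.L : ℝ) = x ^ 5)
    (hrise : C.P.rise = w * C.P.h) (hh : 0 < C.P.h) (hw : 0 < w)
    (hS : C.P.h * C.P.m = S) (hG : Real.exp (2 * S * C.cLin * ((d : ℝ) + 2)) ≤ G)
    (hA : 0 ≤ C.cA) (hR : 0 ≤ C.cRep) (hLin : 0 ≤ C.cLin)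
    (hgap : Gap x Lam w γ δ₀ R₀ C.cA C.cRep C.cLin G d)
    (hj : C.P.h * C.J₀ ≤ (x ^ 15)⁻¹) (hrep : 2 * (C.P.h * C.cRep * C.Lam2) ≤ (x ^ 15)⁻¹) :
    C.θ * (d + 1) ≤ 1 / 4 ∧ 16 * C.bK d C.P.m / C.P.g ≤ min 1 δ₀ := by
  have hx := hgap.four
  have hx0 : (0 : ℝ) < x := by linarith
  set C2 := 17 * (4 * C.cRep * C.cA / w) + 1 with hC2
  have hC20 : 0 ≤ C2 := by positivity
  have hi : ∀ {a b : ℕ}, a ≤ b → (x ^ b)⁻¹ ≤ (x ^ a)⁻¹ := fun h =>
    inv_anti₀ (by positivity) (pow_le_pow_right₀ (by linarith) h)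
  have hlog : Real.log (1 + C.Lam2) ≤ 17 * x := by
    rw [hL2]
    refine (Real.log_le_log (by positivity)
      (show 1 + x ^ 16 ≤ 2 * x ^ 16 by linarith [one_le_pow₀ (n := 16) (by linarith : (1 : ℝ) ≤ x)])).trans ?_
    rw [Real.log_mul (by norm_num) (by positivity), Real.log_pow]
    have := Real.log_le_sub_one_of_pos hx0
    have := Real.log_le_sub_one_of_pos (show (0 : ℝ) < 2 by norm_num)
    push_cast
    linarith
  have hB0 : 0 ≤ C.bRep := by
    have : 0 ≤ Real.log (1 + C.Lam2) := Real.log_nonneg (by rw [hL2]; linarith [pow_pos hx0 16])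
    have : 0 ≤ C.P.rise := by rw [hrise]; positivity
    have : 0 ≤ C.Lam2 := by rw [hL2]; positivity
    unfold bRep cPsi
    positivity
  have hB : C.bRep ≤ C2 * (x ^ 15)⁻¹ := by
    have e : C.cPsi = 4 * C.cRep * C.cA / w * (x ^ 16)⁻¹ := by
      rw [cPsi, hrise, hg]
      field_simp
    have h1 := mul_le_mul_of_nonneg_left hlog
      (show 0 ≤ 4 * C.cRep * C.cA / w * (x ^ 16)⁻¹ by positivity)
    rw [← e] at h1
    have e2 : C.cPsi * (17 * x) = 17 * (4 * C.cRep * C.cA / w) * (x ^ 15)⁻¹ := by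
      rw [e]
      field_simp
    rw [bRep, hC2, add_mul, one_mul]
    linarith
  have hθ0 : 0 ≤ C.θ := by unfold θ; rw [hg]; positivity
  have hθ : C.θ ≤ 2 * C2 * (x ^ 2)⁻¹ := by
    rw [θ, hL, hg]
    calc 2 * x ^ 5 * C.bRep / (x ^ 8)⁻¹ = 2 * x ^ 13 * C.bRep := by field_simp
      _ ≤ 2 * x ^ 13 * (C2 * (x ^ 15)⁻¹) := mul_le_mul_of_nonneg_left hB (by positivity)
      _ = 2 * C2 * (x ^ 2)⁻¹ := by field_simp
  have hθd : C.θ * (d + 1) ≤ 1 / 4 := by
    refine (mul_le_mul_of_nonneg_right hθ (by positivity)).trans ?_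
    have h2 : (x ^ 2)⁻¹ ≤ x⁻¹ := by simpa using hi (show 1 ≤ 2 by norm_num)
    calc 2 * C2 * (x ^ 2)⁻¹ * ((d : ℝ) + 1) ≤ 2 * C2 * x⁻¹ * ((d : ℝ) + 1) := by gcongr
      _ ≤ 1 / 4 := by
          rw [mul_right_comm, ← div_eq_mul_inv, div_le_iff₀ hx0]
          linarith [hgap.pot]
  refine ⟨hθd, ?_⟩
  have hJ0 : 0 ≤ C.P.h * C.J₀ := by
    have : 0 ≤ C.Lam2 := by rw [hL2]; positivity
    unfold J₀
    rw [hg]
    positivity
  have hP : C.cP = 2 * (x ^ 11)⁻¹ := by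
    rw [cP, hL, hL2]
    field_simp
  set C3 := 3 + 2 * (d : ℝ)
  have hQ : C.bQ d ≤ C3 * (x ^ 11)⁻¹ := by
    rw [bQ, hP]
    have := hj.trans (hi (show 11 ≤ 15 by norm_num))
    linarith
  have hQ0 : 0 ≤ C.bQ d := by rw [bQ, hP]; positivity
  set C4 := C3 + 8 * C2 * (4 + 2 * (d : ℝ))
  have hD : C.bD d ≤ C4 * (x ^ 10)⁻¹ := by
    have h1 : C.bQ d ≤ C3 * (x ^ 10)⁻¹ :=
      hQ.trans (mul_le_mul_of_nonneg_left (hi (by norm_num)) (by positivity))
    have h2 : C.P.g + C.bQ d ≤ (4 + 2 * (d : ℝ)) * (x ^ 8)⁻¹ := by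
      have := hQ.trans (mul_le_mul_of_nonneg_left (hi (show 8 ≤ 11 by norm_num)) (by positivity))
      rw [hg]
      linarith
    have h3 := mul_le_mul hθ h2 (by rw [hg]; positivity) (by positivity)
    have e : 2 * C2 * (x ^ 2)⁻¹ * ((4 + 2 * (d : ℝ)) * (x ^ 8)⁻¹) =
        2 * C2 * (4 + 2 * (d : ℝ)) * (x ^ 10)⁻¹ := by field_simp
    rw [e] at h3
    rw [bD, show C4 = C3 + 8 * C2 * (4 + 2 * (d : ℝ)) from rfl, add_mul]
    linarith
  have hgr : C.growth d ^ C.P.m ≤ G := by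
    refine le_trans (pow_le_pow_left₀ (by unfold growth; positivity)
      (show C.growth d ≤ Real.exp (2 * C.P.h * C.cLin * (d + 2)) by
        unfold growth; linarith [Real.add_one_le_exp (2 * C.P.h * C.cLin * ((d : ℝ) + 2))]) _) ?_
    rw [← Real.exp_nat_mul]
    refine le_trans (le_of_eq (congrArg Real.exp ?_)) hG
    rw [← hS]
    ring
  have hG0 : 0 ≤ G := (Real.exp_pos _).le.trans hG
  have hK : C.bK d C.P.m ≤ (((d : ℝ) + 1) * C4 * G + C3) * (x ^ 10)⁻¹ := by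
    have h1 : C.bD d * C.growth d ^ C.P.m ≤ C4 * (x ^ 10)⁻¹ * G :=
      mul_le_mul hD hgr (pow_nonneg (by unfold growth; positivity) _) (by positivity)
    have h2 : C.bQ d ≤ C3 * (x ^ 10)⁻¹ :=
      hQ.trans (mul_le_mul_of_nonneg_left (hi (by norm_num)) (by positivity))
    have h3 := mul_le_mul_of_nonneg_left h1 (show (0 : ℝ) ≤ (d : ℝ) + 1 by positivity)
    rw [bK]
    linarith
  rw [hg]
  calc 16 * C.bK d C.P.m / (x ^ 8)⁻¹
      ≤ 16 * ((((d : ℝ) + 1) * C4 * G + C3) * (x ^ 10)⁻¹) / (x ^ 8)⁻¹ := by gcongr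
    _ = 16 * (((d : ℝ) + 1) * C4 * G + C3) / x ^ 2 := by field_simp
    _ ≤ min 1 δ₀ := by
        rw [div_le_iff₀ (by positivity)]
        have h := hgap.last
        have hm : 0 ≤ x * min 1 δ₀ := le_trans (by positivity) h
        have := le_mul_of_one_le_right hm (show (1 : ℝ) ≤ x by linarith)
        calc 16 * (((d : ℝ) + 1) * C4 * G + C3) ≤ x * min 1 δ₀ := h
          _ ≤ x * min 1 δ₀ * x := this
          _ = _ := by ring

end Cfg

end Vale.Agent.P078.Any
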