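import Vale.Agent.P078.Any.Resolvent

/-!
Quantitative perturbation of expected determinants above the roots.
-/

namespace Vale.Agent.P078.Any

open Finset Function

set_option linter.unusedSectionVars false

variable {V : Type} [DecidableEq V] {r : ℕ} {S : Sys V r} {w w' : V → Fin r → ℝ} {U : Finset V}
  {z : V → ℝ} {u : V}

/-- A lower bound for an expected determinant moved above a valid level. -/
theorem pow_le_F_shift (hw : LawOn w U) (hV : S.Valid w U z) {t : ℝ} (ht : 0 ≤ t) :
    t ^ U.card ≤ S.F w U (shift z t) := by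
  induction U using Finset.induction generalizing z with
  | empty => simp [S.empty]
  | insert a U ha ih =>
    have hw' := hw.mono (Finset.subset_insert a U)
    have h2 := ih hw' (hV.mono (Finset.subset_insert a U))
    have hz : shift z t = Function.update (Function.update (shift z t) a (z a)) a (z a + t) := by
      rw [Function.update_idem]; exact (Function.update_eq_self a (shift z t)).symm
    set z₁ := Function.update (shift z t) a (z a) with hz₁
    have hcg : S.F w U z₁ = S.F w U (shift z t) :=
      S.congr _ _ _ _ _ (fun _ _ => rfl) fun v hv =>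
        Function.update_of_ne (by rintro rfl; exact ha hv) _ _
    have h0 : 0 ≤ S.F w (insert a U) z₁ := by
      refine (S.facts.valid_mono hw hV (fun v hv => ?_) _ subset_rfl).le
      by_cases hva : v = a
      · simp [z₁, hva]
      · rw [hz₁, Function.update_of_ne hva]
        exact le_add_of_nonneg_right ht
    rw [hz, S.affine w _ _ hw a (Finset.mem_insert_self a U), Finset.erase_insert ha, hcg,
      Finset.card_insert_of_notMem ha, pow_succ', show z₁ a = z a from Function.update_self _ _ _,
      add_sub_cancel_left]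
    nlinarith [mul_le_mul_of_nonneg_left h2 ht]

/-- The bound of an expected determinant in the range of levels. -/
def fBound (n : ℕ) : ℝ := 8 ^ n * (Nat.factorial n : ℝ)

theorem fBound_nonneg (n : ℕ) : 0 ≤ fBound n := by unfold fBound; positivity

theorem fBound_mono {m n : ℕ} (h : m ≤ n) : fBound m ≤ fBound n :=
  mul_le_mul (pow_le_pow_right₀ (by norm_num) h) (by exact_mod_cast Nat.factorial_le h)
    (Nat.cast_nonneg _) (by positivity)

theorem abs_F_le {N : ℕ} (hw : LawOn w U) (hz : ∀ v ∈ U, |z v| ≤ 5) (hN : U.card ≤ N) :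
    |S.F w U z| ≤ fBound N :=
  (S.bound w U z hw hz).trans (fBound_mono hN)

/-- Lipschitz dependence on the laws. -/
theorem F_lip {N : ℕ} {ε : ℝ} (hw : LawOn w U) (hw' : LawOn w' U) (hz : ∀ v ∈ U, |z v| ≤ 5)
    (hN : U.card ≤ N) (hε : ∀ v ∈ U, ∑ c, |w' v c - w v c| ≤ ε) :
    |S.F w' U z - S.F w U z| ≤ U.card * (ε * fBound N) := by
  have main : ∀ A ⊆ U,
      |S.F (A.piecewise w' w) U z - S.F w U z| ≤ A.card * (ε * fBound N) := by
    intro A hA
    induction A using Finset.induction with
    | empty => simp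
    | insert a A ha ih =>
      have ih := ih ((Finset.subset_insert _ _).trans hA)
      have haU := hA (Finset.mem_insert_self a A)
      set q := A.piecewise w' w with hqdef
      have hq : LawOn q U := fun v hv => by
        by_cases h : v ∈ A <;> simp [hqdef, h, hw v hv, hw' v hv]
      rw [Finset.piecewise_insert]
      have e : ∀ c, Function.update (Function.update q a (w' a)) a (Pi.single c 1) =
          Function.update q a (Pi.single c 1) := fun c => Function.update_idem _ _ _
      have h1 := S.split q U z a haU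
      have h2 := S.split (Function.update q a (w' a)) U z a haU
      simp only [e, Function.update_self] at h2
      have hqa : q a = w a := by simp [hqdef, ha]
      have h3 : |S.F (Function.update q a (w' a)) U z - S.F q U z| ≤ ε * fBound N := by
        rw [h1, h2, hqa, ← Finset.sum_sub_distrib]
        refine (Finset.abs_sum_le_sum_abs _ _).trans ?_
        refine le_trans (Finset.sum_le_sum (g := fun c => |w' a c - w a c| * fBound N)
          fun c _ => ?_) ?_
        · rw [← sub_mul, abs_mul]
          exact mul_le_mul_of_nonneg_left (abs_F_le (hq.dirac a c) hz hN) (abs_nonneg _)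
        · rw [← Finset.sum_mul]
          exact mul_le_mul_of_nonneg_right (hε a haU) (fBound_nonneg N)
      rw [Finset.card_insert_of_notMem ha, Nat.cast_succ, add_mul, one_mul, add_comm]
      exact (abs_sub_le _ (S.F q U z) _).trans (add_le_add h3 ih)
  convert main U subset_rfl using 3
  exact S.congr _ _ _ _ _ (fun v hv => by simp [hv]) fun _ _ => rfl

/-- Perturbation of a ratio. -/
theorem abs_div_sub_div_le {a b a' b' β γ A : ℝ} (hγ : 0 < γ) (hb : γ ≤ b) (hb' : γ ≤ b')
    (hA : |a| ≤ A) (hb2 : |b| ≤ A) (ha : |a' - a| ≤ β) (hbb : |b' - b| ≤ β) :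
    |a' / b' - a / b| ≤ 2 * A * β / γ ^ 2 := by
  have h1 : 0 < b := hγ.trans_le hb
  have h2 : 0 < b' := hγ.trans_le hb'
  have hA0 : 0 ≤ A := (abs_nonneg _).trans hA
  have hβ0 : 0 ≤ β := (abs_nonneg _).trans ha
  have e : a' / b' - a / b = ((a' - a) * b - a * (b' - b)) / (b' * b) := by
    field_simp
    ring
  rw [e, abs_div, abs_of_pos (mul_pos h2 h1)]
  refine div_le_div₀ (by positivity) ?_ (by positivity) (by rw [sq]; exact mul_le_mul hb' hb hγ.le h2.le)
  refine (abs_sub _ _).trans ?_
  rw [abs_mul, abs_mul]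
  nlinarith [mul_le_mul ha hb2 (abs_nonneg _) hβ0, mul_le_mul hA hbb (abs_nonneg _) hA0]

/-- Data of a perturbation of the laws on a window above a valid level. -/
structure Close (S : Sys V r) (w w' : V → Fin r → ℝ) (U : Finset V) (z : V → ℝ) (N : ℕ)
    (β γ : ℝ) : Prop where
  lawOn : LawOn w U
  lawOn' : LawOn w' U
  card : U.card ≤ N
  z_le : ∀ v ∈ U, |z v| ≤ 5
  pos : 0 < γ
  lip : ∀ T ⊆ U, |S.F w' T z - S.F w T z| ≤ β
  low : ∀ T ⊆ U, γ ≤ S.F w T z
  low' : ∀ T ⊆ U, γ ≤ S.F w' T z

theorem Close.of_shift {N : ℕ} {z₀ : V → ℝ} {t ε : ℝ} (hw : LawOn w U) (hw' : LawOn w' U)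
    (hN : U.card ≤ N) (hV : S.Valid w U z₀) (ht : 0 < t) (ht1 : t ≤ 1)
    (hz : ∀ v ∈ U, |z₀ v + t| ≤ 5) (hε0 : 0 ≤ ε) (hε : ∀ v ∈ U, ∑ c, |w' v c - w v c| ≤ ε)
    (hsmall : N * (ε * fBound N) ≤ t ^ N / 2) :
    Close S w w' U (shift z₀ t) N (N * (ε * fBound N)) (t ^ N / 2) := by
  have hl : ∀ T ⊆ U, |S.F w' T (shift z₀ t) - S.F w T (shift z₀ t)| ≤ N * (ε * fBound N) :=
    fun T hT => by
      refine (F_lip (N := N) (hw.mono hT) (hw'.mono hT) (fun v hv => hz v (hT hv))
        ((Finset.card_le_card hT).trans hN) fun v hv => hε v (hT hv)).trans ?_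
      exact mul_le_mul_of_nonneg_right (by exact_mod_cast (Finset.card_le_card hT).trans hN)
        (mul_nonneg hε0 (fBound_nonneg N))
  have hp : ∀ T ⊆ U, t ^ N ≤ S.F w T (shift z₀ t) := fun T hT =>
    (pow_le_pow_of_le_one ht.le ht1 ((Finset.card_le_card hT).trans hN)).trans
      (pow_le_F_shift (hw.mono hT) (hV.mono hT) ht.le)
  refine ⟨hw, hw', hN, hz, by positivity, hl, fun T hT => ?_, fun T hT => ?_⟩
  · linarith [hp T hT, pow_pos ht N]
  · linarith [hp T hT, (abs_sub_le_iff.1 (hl T hT)).2]

variable {N : ℕ} {β γ : ℝ}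

theorem Close.valid' (h : Close S w w' U z N β γ) : S.Valid w' U z :=
  fun T hT => h.pos.trans_le (h.low' T hT)

theorem Close.res (h : Close S w w' U z N β γ) (u : V) :
    |S.Res w' U z u - S.Res w U z u| ≤ 2 * fBound N * β / γ ^ 2 :=
  abs_div_sub_div_le h.pos (h.low U subset_rfl) (h.low' U subset_rfl)
    (abs_F_le (h.lawOn.mono (erase_subset _ _)) (fun v hv => h.z_le v (mem_of_mem_erase hv))
      ((Finset.card_le_card (erase_subset _ _)).trans h.card))
    (abs_F_le h.lawOn h.z_le h.card) (h.lip _ (erase_subset _ _)) (h.lip U subset_rfl)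

theorem Close.hc (h : Close S w w' U z N β γ) {ε : ℝ}
    (hε : ∀ v ∈ U, ∑ c, |w' v c - w v c| ≤ ε) (hε0 : 0 ≤ ε) (hβ : N * (ε * fBound N) ≤ β)
    (c : Fin r) : |S.hc w' U z u c - S.hc w U z u c| ≤ 2 * fBound N * β / γ ^ 2 := by
  have e : S.hc w' U z u c - S.hc w U z u c =
      -(S.F (Function.update w' u (Pi.single c 1)) U z / S.F w' (U.erase u) z -
        S.F (Function.update w u (Pi.single c 1)) U z / S.F w (U.erase u) z) := by
    simp only [Sys.hc]; ring
  rw [e, abs_neg]
  refine abs_div_sub_div_le h.pos (h.low _ (erase_subset _ _)) (h.low' _ (erase_subset _ _))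
    (abs_F_le (h.lawOn.dirac u c) h.z_le h.card)
    (abs_F_le (h.lawOn.mono (erase_subset _ _)) (fun v hv => h.z_le v (mem_of_mem_erase hv))
      ((Finset.card_le_card (erase_subset _ _)).trans h.card)) ?_ (h.lip _ (erase_subset _ _))
  refine ((F_lip (ε := ε) (h.lawOn.dirac u c) (h.lawOn'.dirac u c) h.z_le h.card
    fun v hv => ?_).trans ?_).trans hβ
  · by_cases hvu : v = u
    · subst hvu; simpa using hε0
    · simpa [Function.update_of_ne hvu] using hε v hv
  · exact mul_le_mul_of_nonneg_right (by exact_mod_cast h.card)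
      (mul_nonneg hε0 (fBound_nonneg N))

end Vale.Agent.P078.Any
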