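import Vale.Agent.P078.Cartan.Quad.Decouple
import Vale.Agent.P078.Cartan.Stable

/-!
Expected determinants of windows at real points, and their Rayleigh inequality.
-/

namespace Vale.Agent.P078.Any

open Matrix Function Filter Topology
open Vale.Agent.P078.Cartan (ofR dirac mask maskE isHermitian_mask weight_update weight_split
  sum_weight isLaw_dirac_update)
open Vale.Agent.P078.Quad (Fdet maskF maskEF pinch lead rest IsLaw weight)
open scoped ComplexOrder

set_option linter.unusedSectionVars false

variable {ι : Type*} [Fintype ι] [DecidableEq ι] {R : ℕ}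

/-- The expected determinant of the window `U` at the real point `z`. -/
noncomputable def win (G : Fin R → Matrix ι ι ℂ) (w : ι → Fin R → ℝ) (z : ι → ℝ)
    (U : Finset ι) : ℝ :=
  (Fdet (maskF G U) w (ofR (U.piecewise z 1))).re

/-- The point lies above the roots of every subwindow. -/
def Valid (G : Fin R → Matrix ι ι ℂ) (w : ι → Fin R → ℝ) (z : ι → ℝ) (U : Finset ι) : Prop :=
  ∀ V ⊆ U, 0 < win G w z V

variable {G : Fin R → Matrix ι ι ℂ} {w : ι → Fin R → ℝ} {z : ι → ℝ} {U : Finset ι} {u v : ι}

theorem maskEF_maskF_erase (G : Fin R → Matrix ι ι ℂ) (U : Finset ι) (u : ι) :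
    maskEF (maskF G U) u = maskF G (U.erase u) := by
  funext c
  ext i j
  simp only [maskEF, maskF, maskE, mask, Matrix.of_apply, Finset.mem_erase, Finset.mem_univ,
    and_true]
  split_ifs <;> tauto

theorem isHermitian_maskF (hG : ∀ c, (G c).IsHermitian) (U : Finset ι) (c : Fin R) :
    (maskF G U c).IsHermitian := isHermitian_mask (hG c) U

theorem Fdet_real (hG : ∀ c, (G c).IsHermitian) (w : ι → Fin R → ℝ) (x : ι → ℝ) :
    (Fdet G w (ofR x)).im = 0 := by
  apply Complex.conj_eq_iff_im.1
  unfold Fdet
  rw [map_sum]
  refine Finset.sum_congr rfl fun s _ => ?_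
  rw [map_mul]
  congr 1
  · simp [weight, map_prod]
  · have h : (diagonal (ofR x) - pinch G s).IsHermitian :=
      (isHermitian_diagonal_of_self_adjoint _ (funext fun i => by simp [ofR])).sub
        (Quad.isHermitian_pinch hG s)
    rw [show starRingEnd ℂ (diagonal (ofR x) - pinch G s).det =
      (diagonal (ofR x) - pinch G s)ᴴ.det from (det_conjTranspose _).symm, h.eq]

theorem ofR_update_piecewise (hu : u ∈ U) (z : ι → ℝ) (t : ℝ) :
    ofR (U.piecewise (update z u t) 1) = update (ofR (U.piecewise z 1)) u (t : ℂ) := by
  rw [← Cartan.ofR_update]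
  congr 1
  funext i
  rcases eq_or_ne i u with rfl | h
  · simp [hu]
  · simp [Finset.piecewise, h]

theorem win_congr {z' : ι → ℝ} (h : ∀ i ∈ U, z i = z' i) : win G w z U = win G w z' U := by
  unfold win
  rw [show U.piecewise z 1 = U.piecewise z' 1 from funext fun i => by
    by_cases hi : i ∈ U <;> simp [hi, h]]

theorem win_update_of_notMem (hu : u ∉ U) (t : ℝ) :
    win G w (update z u t) U = win G w z U :=
  win_congr fun i hi => update_of_ne (ne_of_mem_of_not_mem hi hu) _ _

theorem Fdet_update_law (G : Fin R → Matrix ι ι ℂ) (hw : IsLaw w) (u : ι) (c : Fin R)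
    (x : ι → ℂ) :
    Fdet (maskEF G u) (update w u (dirac c)) x = Fdet (maskEF G u) w x := by
  rw [Quad.Fdet_maskE, Quad.Fdet_maskE, Quad.lead_dirac G hw]

theorem win_split (G : Fin R → Matrix ι ι ℂ) (w : ι → Fin R → ℝ) (z : ι → ℝ) (U : Finset ι)
    (u : ι) : win G w z U = ∑ c, w u c * win G (update w u (dirac c)) z U := by
  unfold win
  rw [Quad.Fdet_split _ w u, Complex.re_sum]
  simp only [Complex.re_ofReal_mul]

theorem maskF_eq_maskEF (G : Fin R → Matrix ι ι ℂ) (hu : u ∉ U) :
    maskEF (maskF G U) u = maskF G U := by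
  rw [maskEF_maskF_erase, Finset.erase_eq_of_notMem hu]

theorem isLaw_update (hw : IsLaw w) {a : Fin R → ℝ} (ha : ∀ c, 0 ≤ a c) (ha1 : ∑ c, a c = 1) :
    IsLaw (update w u a) := fun j => by
  rcases eq_or_ne j u with rfl | h
  · rw [update_self]; exact ⟨ha, ha1⟩
  · rw [update_of_ne h]; exact hw j

theorem win_dirac_of_notMem (hw : IsLaw w) (hu : u ∉ U) (c : Fin R) :
    win G (update w u (dirac c)) z U = win G w z U := by
  unfold win
  rw [← maskF_eq_maskEF G hu, Fdet_update_law _ hw]

/-- The law at a point outside the window is irrelevant. -/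
theorem win_law_of_notMem (hw : IsLaw w) (hu : u ∉ U) {a : Fin R → ℝ} (ha1 : ∑ c, a c = 1) :
    win G (update w u a) z U = win G w z U := by
  rw [win_split G (update w u a) z U u]
  simp only [update_self, update_idem, win_dirac_of_notMem hw hu, ← Finset.sum_mul, ha1, one_mul]

theorem win_law_congr {w' : ι → Fin R → ℝ} (hw : IsLaw w) (hw' : IsLaw w')
    (h : ∀ i ∈ U, w i = w' i) : win G w z U = win G w' z U := by
  suffices H : ∀ S : Finset ι, Disjoint S U → win G (S.piecewise w' w) z U = win G w z U by
    have := H Uᶜ disjoint_compl_left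
    rw [← this]
    congr 1
    funext i
    by_cases hi : i ∈ U <;> simp [hi, h]
  intro S
  induction S using Finset.induction with
  | empty => intro _; simp
  | @insert i S hi ih =>
    intro hd
    rw [Finset.disjoint_insert_left] at hd
    rw [Finset.piecewise_insert, win_law_of_notMem _ hd.1 (hw' i).2, ih hd.2]
    intro j
    by_cases hj : j ∈ S <;> simp [hj, hw j, hw' j]

@[simp] theorem win_empty (hw : IsLaw w) : win G w z ∅ = 1 := by
  have : maskF G (∅ : Finset ι) = 0 := by funext c; ext i j; simp [maskF, mask]
  have h2 : ∀ s : ι → Fin R, pinch (0 : Fin R → Matrix ι ι ℂ) s = 0 := fun s => by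
    ext i j; simp [pinch]
  simp [win, this, Fdet, h2, ofR, det_diagonal, sum_weight hw]

theorem lead_maskF (hu : u ∈ U) (z : ι → ℝ) :
    lead (maskF G U) w u (ofR (U.piecewise z 1)) =
      Fdet (maskF G (U.erase u)) w (ofR ((U.erase u).piecewise z 1)) := by
  rw [lead, maskEF_maskF_erase]
  congr 1
  funext i
  rcases eq_or_ne i u with rfl | h
  · simp [ofR]
  · simp [ofR, Finset.piecewise, h]

/-- The window is affine in each coordinate, with the deleted window as the slope. -/
theorem win_update (G : Fin R → Matrix ι ι ℂ) (w : ι → Fin R → ℝ) (z : ι → ℝ) (hu : u ∈ U)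
    (t : ℝ) :
    win G w (update z u t) U = win G w z U + (t - z u) * win G w z (U.erase u) := by
  have key : ∀ s : ℝ, win G w (update z u s) U =
      s * win G w z (U.erase u) + (rest (maskF G U) w u (ofR (U.piecewise z 1))).re := fun s => by
    rw [win, ofR_update_piecewise hu, Quad.Fdet_affine, Complex.add_re, Complex.re_ofReal_mul,
      lead_maskF hu]
    rfl
  have h := key (z u)
  rw [update_eq_self] at h
  rw [key t, h]
  ring

theorem Valid.mono (h : Valid G w z U) {V : Finset ι} (hV : V ⊆ U) : Valid G w z V :=
  fun W hW => h W (hW.trans hV)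

theorem Valid.update_le (h : Valid G w z U) {t : ℝ} (ht : z u ≤ t) :
    Valid G w (update z u t) U := fun V hV => by
  by_cases hu : u ∈ V
  · rw [win_update _ _ _ hu]
    exact add_pos_of_pos_of_nonneg (h V hV)
      (mul_nonneg (sub_nonneg.2 ht) (h _ ((Finset.erase_subset _ _).trans hV)).le)
  · rw [win_update_of_notMem hu]
    exact h V hV

/-- Validity is upward closed. -/
theorem Valid.le (h : Valid G w z U) {z' : ι → ℝ} (hz : ∀ i ∈ U, z i ≤ z' i) :
    Valid G w z' U := by
  have key : ∀ S ⊆ U, Valid G w (S.piecewise z' z) U := by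
    intro S
    induction S using Finset.induction with
    | empty => intro _; simpa using h
    | @insert i S hi ih =>
      intro hS
      rw [Finset.insert_subset_iff] at hS
      rw [Finset.piecewise_insert]
      exact (ih hS.2).update_le (by simpa [hi] using hz i hS.1)
  intro V hV
  have := key U subset_rfl V hV
  rwa [win_congr (z' := z') fun i hi => by simp [hV hi]] at this

theorem affine_pair (G : Fin R → Matrix ι ι ℂ) (w : ι → Fin R → ℝ) (huv : u ≠ v) (x : ι → ℂ)
    (s t : ℂ) :
    Fdet G w (update (update x u s) v t) =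
      t * (s * lead (maskEF G v) w u (update x v 1) + rest (maskEF G v) w u (update x v 1)) +
        (s * lead G w u (update x v 0) + rest G w u (update x v 0)) := by
  rw [Quad.Fdet_affine, lead, rest, update_comm huv, update_comm huv, Quad.Fdet_affine,
    Quad.Fdet_affine]

/-- The Rayleigh inequality of a stable expected determinant at a real point. -/
theorem rayleigh_coeff (hG : ∀ c, (G c).IsHermitian) (hw : IsLaw w) (huv : u ≠ v) (x : ι → ℝ) :
    (lead (maskEF G v) w u (update (ofR x) v 1)).re * (rest G w u (update (ofR x) v 0)).re ≤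
      (rest (maskEF G v) w u (update (ofR x) v 1)).re *
        (lead G w u (update (ofR x) v 0)).re := by
  set y : ℝ → ι → ℂ := fun e k => (x k : ℂ) + (e : ℂ) * Complex.I with hy
  set num : ℝ → ℂ := fun e =>
    Complex.I * lead G w u (update (y e) v 0) + rest G w u (update (y e) v 0)
  set den : ℝ → ℂ := fun e =>
    Complex.I * lead (maskEF G v) w u (update (y e) v 1) +
      rest (maskEF G v) w u (update (y e) v 1)
  set f : ℝ → ℝ := fun e => (num e * starRingEnd ℂ (den e)).im with hf
  have hpos : ∀ e, 0 < e → 0 ≤ f e := by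
    intro e he
    by_cases hd : den e = 0
    · simp [hf, hd]
    by_contra hlt
    push Not at hlt
    set t₀ := -(num e / den e)
    have ht₀ : 0 < t₀.im := by
      have e1 : num e / den e = num e * starRingEnd ℂ (den e) / (Complex.normSq (den e) : ℂ) := by
        rw [← Complex.mul_conj, mul_div_mul_right _ _
          ((map_ne_zero (starRingEnd ℂ)).2 hd)]
      simp only [t₀, Complex.neg_im, e1, Complex.div_ofReal_im, Left.neg_pos_iff]
      exact div_neg_of_neg_of_pos hlt (Complex.normSq_pos.2 hd)
    have hz : Fdet G w (update (update (y e) u Complex.I) v t₀) = 0 := by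
      rw [affine_pair G w huv]
      show -(num e / den e) * den e + num e = 0
      field_simp
      ring
    refine Quad.Fdet_ne_zero hG hw (fun k => ?_) hz
    rcases eq_or_ne k v with rfl | hk
    · simpa using ht₀
    rw [update_of_ne hk]
    rcases eq_or_ne k u with rfl | hk'
    · simp
    · simp [update_of_ne hk', hy, he]
  have hy0 : y 0 = ofR x := by funext k; simp [hy, ofR]
  have hcont : Continuous f := by
    have hyc : Continuous y := by fun_prop
    have h1 : ∀ (H : Fin R → Matrix ι ι ℂ), Continuous fun x : ι → ℂ => Fdet H w x := fun H => by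
      unfold Fdet
      fun_prop
    have hu' : ∀ (a : ℂ) (b : ℂ), Continuous fun e => update (update (y e) v a) u b :=
      fun a b => (hyc.update v continuous_const).update u continuous_const
    refine Complex.continuous_im.comp ?_
    simp only [num, den, lead, rest]
    exact (((continuous_const.mul ((h1 _).comp (hu' 0 1))).add ((h1 _).comp (hu' 0 0))).mul
      (Complex.continuous_conj.comp
        ((continuous_const.mul ((h1 _).comp (hu' 1 1))).add ((h1 _).comp (hu' 1 0)))))
  have h0 : 0 ≤ f 0 := ge_of_tendsto
    ((hcont.tendsto 0).mono_left nhdsWithin_le_nhds)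
    (by filter_upwards [self_mem_nhdsWithin] with e (he : e ∈ Set.Ioi (0 : ℝ)) using hpos e he)
  have real : ∀ (H : Fin R → Matrix ι ι ℂ), (∀ c, (H c).IsHermitian) → ∀ a b : ℝ,
      (Fdet H w (update (update (ofR x) v (a : ℂ)) u (b : ℂ))).im = 0 := fun H hH a b => by
    rw [← Cartan.ofR_update, ← Cartan.ofR_update]
    exact Fdet_real hH w _
  have hv : ∀ c, (maskEF G v c).IsHermitian := fun c => isHermitian_mask (hG c) _
  have huv' : ∀ c, (maskEF (maskEF G v) u c).IsHermitian := fun c => isHermitian_mask (hv c) _
  have hu'' : ∀ c, (maskEF G u c).IsHermitian := fun c => isHermitian_mask (hG c) _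
  have a1 : (lead (maskEF G v) w u (update (ofR x) v 1)).im = 0 := by
    simpa [lead] using real _ huv' 1 1
  have a2 : (rest (maskEF G v) w u (update (ofR x) v 1)).im = 0 := by
    simpa [rest] using real _ hv 1 0
  have a3 : (lead G w u (update (ofR x) v 0)).im = 0 := by
    simpa [lead] using real _ hu'' 0 1
  have a4 : (rest G w u (update (ofR x) v 0)).im = 0 := by
    simpa [rest] using real _ hG 0 0
  simp only [hf, num, den, hy0] at h0
  simp [Complex.mul_im, a1, a2, a3, a4] at h0
  nlinarith [h0]

theorem win_rayleigh (hG : ∀ c, (G c).IsHermitian) (hw : IsLaw w) (hu : u ∈ U) (hv : v ∈ U)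
    (huv : u ≠ v) :
    win G w z U * win G w z ((U.erase u).erase v) ≤
      win G w z (U.erase u) * win G w z (U.erase v) := by
  set x := U.piecewise z 1
  set a := (lead (maskEF (maskF G U) v) w u (update (ofR x) v 1)).re
  set b := (rest (maskEF (maskF G U) v) w u (update (ofR x) v 1)).re
  set c := (lead (maskF G U) w u (update (ofR x) v 0)).re
  set d := (rest (maskF G U) w u (update (ofR x) v 0)).re
  have key := rayleigh_coeff (G := maskF G U) (isHermitian_maskF hG U) hw huv x
  have hval : ∀ s t : ℝ, win G w (update (update z u s) v t) U =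
      t * (s * a + b) + (s * c + d) := fun s t => by
    rw [win, ofR_update_piecewise hv, ofR_update_piecewise hu, affine_pair _ _ huv]
    simp [a, b, c, d, x]
  have h : win G w z U = z v * (z u * a + b) + (z u * c + d) := by
    rw [← hval, update_eq_self, update_eq_self]
  have hu1 := win_update G w z hu (z u + 1)
  have e1 : update (update z u (z u + 1)) v (z v) = update z u (z u + 1) := by
    conv_lhs => rw [← update_of_ne huv.symm (z u + 1) z]
    rw [update_eq_self]
  rw [← e1, hval] at hu1
  have hv1 := win_update G w z hv (z v + 1)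
  have e2 : update (update z u (z u)) v (z v + 1) = update z v (z v + 1) := by
    rw [update_eq_self]
  rw [← e2, hval] at hv1
  have hvu := win_update G w (update z v (z v + 1)) hu (z u + 1)
  rw [update_comm huv.symm, hval, update_of_ne huv, win_update G w z hv,
    win_update G w z (U := U.erase u) (Finset.mem_erase.2 ⟨huv.symm, hv⟩)] at hvu
  have E1 : win G w z (U.erase u) = z v * a + c := by linarith [hu1, h]
  have E2 : win G w z (U.erase v) = z u * a + b := by linarith [hv1, h]
  have E3 : win G w z ((U.erase u).erase v) = a := by linarith [hvu, E1, E2, h]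
  rw [h, E1, E2, E3]
  nlinarith [key]

end Vale.Agent.P078.Any
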