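import Vale.Agent.P078.Any.Stable

/-!
The two potentials: a resolvent entry pays for the pushes, and its logarithm for the repairs.
-/

namespace Vale.Agent.P078.Any

open Finset Function

set_option linter.unusedSectionVars false

variable {V X : Type} [DecidableEq V] [Fintype X] [DecidableEq X] {r : ℕ}

namespace Cfg

variable (C : Cfg V X r)

/-- The increment of a repair, without its weight. -/
noncomputable def dRep (v : V) : Op X → St V X r → Fin 3 → ℝ
  | .visit j _ x, s, i =>
    if i ≠ 0 ∧ C.moved j x s v then C.P.h * (C.cRep * C.amt s v) else 0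
  | _, _, _ => 0

/-- The weight of a repair. -/
noncomputable def wt (v : V) (s : St V X r) : ℝ := 1 + C.Kmax s v / C.P.g

/-- The constant of the logarithmic potential. -/
noncomputable def cPsi : ℝ := 4 * C.P.h * C.cRep * C.cA * C.P.g ^ 2 / C.P.rise

/-- The repair that is due in the current slot. -/
noncomputable def pend (v : V) : List (Op X) → St V X r → ℝ
  | .visit j _ x :: l, s =>
    if x = C.cell v then
      if C.moved j x s v then 1 / (C.K : ℝ) * (C.P.h * (C.cRep * C.amt s v)) else 0
    else pend v l s
  | _, _ => 0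

/-- The number of visits. -/
def visits : List (Op X) → ℕ
  | [] => 0
  | .visit _ _ _ :: l => visits l + 1
  | _ :: l => visits l

/-- The potential of the repairs. -/
noncomputable def potRep (v : V) (l : List (Op X)) (s : St V X r) : ℝ :=
  C.cPsi * (Real.log (C.P.Lam + C.RP v s) - Real.log C.P.Lam) + C.pend v l s +
    C.P.h * C.cRep * C.Lam2 / (C.K : ℝ) ^ 2 * visits l

/-- The bound of the potential of the repairs. -/
noncomputable def bRep : ℝ :=
  C.cPsi * Real.log (1 + C.Lam2) + 2 * (C.P.h * C.cRep * C.Lam2)

variable {C} {d : ℕ} {e₀ η : ℝ} (hC : C.OK d e₀ η) {M : ℕ}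

include hC

theorem inv_base {l : List (Op X)} {s : St V X r} (hI : C.Inv M l s) : ∃ j, C.Base j s := by
  rcases hI.2 with ⟨i, n, -, -, hs⟩ | ⟨j, n', cs, t, a, n, -, -, -, -, -, hs⟩
  · exact ⟨i, hs.base⟩
  · exact ⟨j, hs.base⟩

theorem pr_eq_zero {o : Op X} {s : St V X r} {i : Fin 3}
    (ho : ∀ j t x, o = .visit j t x → s.seen x ≠ none) (hi : 0 < C.pr o s i) : i = 0 := by
  cases o with
  | visit j t x =>
    simp only [pr, if_neg (ho j t x rfl)] at hi
    by_contra h
    simp [h] at hi
  | _ =>
    simp only [pr] at hi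
    by_contra h
    simp [h] at hi

theorem visit_inv {j t : ℕ} {x : X} {l : List (Op X)} {s : St V X r}
    (hI : C.Inv M (.visit j t x :: l) s) :
    C.Base j s ∧ C.InLevel j s ∧ t < C.K ∧
      ∃ cs tail, x ∉ cs ∧ l = List.map (Op.visit j t) cs ++ tail ∧
        ∀ v s', C.pend v tail s' = 0 := by
  rcases hI.2 with ⟨i, n, -, hl, -⟩ | ⟨j', n', cs, t', a, n, hjn, han, hcs, hnd, hl, hs⟩
  · cases n <;> simp [rounds, round] at hl
  · cases cs with
    | nil => cases n <;> simp [slots] at hl
    | cons y cs =>
      simp only [List.map_cons, List.cons_append, List.cons.injEq, Op.visit.injEq] at hl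
      obtain ⟨⟨rfl, rfl, rfl⟩, rfl⟩ := hl
      exact ⟨hs.base, hs.inLevel C hC, hcs (by simp), cs, _, (List.nodup_cons.1 hnd).1, rfl,
        fun v s' => by cases n <;> simp [slots, pend]⟩

theorem pend_map_eq_zero {v : V} {j t : ℕ} {cs : List X} {tail : List (Op X)} {s : St V X r}
    (hv : C.cell v ∉ cs) (ht : C.pend v tail s = 0) :
    C.pend v (List.map (Op.visit j t) cs ++ tail) s = 0 := by
  induction cs with
  | nil => exact ht
  | cons x cs ih =>
    simp only [List.mem_cons, not_or] at hv
    simp only [List.map_cons, List.cons_append, pend, if_neg (Ne.symm hv.1)]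
    exact ih hv.2

theorem pend_le (v : V) {s : St V X r} {B : ℝ} (hB : 0 ≤ B)
    (h : v ∈ s.W → C.P.h * (C.cRep * C.amt s v) ≤ B) :
    ∀ l, C.pend v l s ≤ 1 / (C.K : ℝ) * B
  | [] => by simp only [pend]; positivity
  | o :: l => by
    cases o with
    | visit j t x =>
      simp only [pend]
      split_ifs with h1 h2
      · exact mul_le_mul_of_nonneg_left (h h2.2.2.1) (by positivity)
      · positivity
      · exact pend_le v hB h l
    | _ => simp only [pend]; positivity

theorem coef_nonneg : 0 ≤ C.P.h * C.cRep * C.Lam2 ∧ 0 ≤ C.cPsi := by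
  have := hC.h_nonneg
  have := hC.g_pos
  have := hC.Lam_le
  have := hC.Lam2_le
  have := hC.rise_nonneg
  have := hC.e₀_pos
  unfold cPsi
  rw [hC.cRep_eq, hC.cA_eq]
  constructor <;> positivity

theorem rep_amt_le {j : ℕ} {s : St V X r} (hs : C.Base j s) {v : V} (hv : v ∈ s.W) :
    0 ≤ C.P.h * (C.cRep * C.amt s v) ∧
      C.P.h * (C.cRep * C.amt s v) ≤ C.P.h * C.cRep * C.Lam2 := by
  obtain ⟨h1, h2⟩ := amt_nonneg hC hs hv
  have hR : 0 ≤ C.cRep := by rw [hC.cRep_eq]; linarith [hC.Lam_le]
  exact ⟨by have := hC.h_nonneg; positivity,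
    by rw [mul_assoc]; exact mul_le_mul_of_nonneg_left (mul_le_mul_of_nonneg_left h2 hR) hC.h_nonneg⟩

theorem pend_nonneg (v : V) {j : ℕ} {s : St V X r} (hs : C.Base j s) :
    ∀ l, 0 ≤ C.pend v l s
  | [] => le_rfl
  | o :: l => by
    cases o with
    | visit j' t x =>
      simp only [pend]
      split_ifs with h1 h2
      · exact mul_nonneg (by positivity) (rep_amt_le hC hs h2.2.2.1).1
      · exact le_rfl
      · exact pend_nonneg v hs l
    | _ => exact le_rfl

theorem visits_map (j t : ℕ) (cs : List X) (l : List (Op X)) :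
    visits (List.map (Op.visit j t) cs ++ l) = cs.length + visits l := by
  induction cs with
  | nil => simp
  | cons x cs ih => simp [visits, ih]; omega

theorem visits_slots (j a : ℕ) (l : List (Op X)) :
    ∀ n, visits (slots j a n ++ l) = n * Fintype.card X + visits l := by
  intro n
  induction n generalizing a with
  | zero => simp [slots]
  | succ n ih =>
    simp only [slots, List.cons_append, List.append_assoc, visits, visits_map hC, ih,
      Finset.length_toList, Finset.card_univ, add_mul]
    omega

theorem visits_rounds : ∀ i n, visits (C.rounds i n) = n * (C.K * Fintype.card X) := by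
  intro i n
  induction n generalizing i with
  | zero => simp [rounds, visits]
  | succ n ih =>
    simp only [rounds, round, List.cons_append, List.append_assoc, List.nil_append, visits,
      visits_slots hC, ih, add_mul]
    omega

theorem visits_le {l : List (Op X)} {s : St V X r} (hI : C.Inv M l s) :
    visits l ≤ (C.P.m + 1) * (C.K + 1) * Fintype.card X := by
  obtain ⟨hM, h⟩ := hI
  rcases h with ⟨i, n, hin, rfl, -⟩ | ⟨j, n', cs, t, a, n, hjn, han, -, hnd, rfl, -⟩
  · rw [visits_rounds hC]
    calc n * (C.K * Fintype.card X) ≤ (C.P.m + 1) * ((C.K + 1) * Fintype.card X) :=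
          Nat.mul_le_mul (by omega) (Nat.mul_le_mul (by omega) le_rfl)
      _ = _ := (mul_assoc _ _ _).symm
  · rw [visits_map hC, visits_slots hC]
    simp only [visits, visits_rounds hC]
    have hcard := hnd.length_le_card
    have h1 : n * Fintype.card X ≤ C.K * Fintype.card X := Nat.mul_le_mul_right _ (by omega)
    have h2 : n' * (C.K * Fintype.card X) ≤ C.P.m * (C.K * Fintype.card X) :=
      Nat.mul_le_mul_right _ (by omega)
    simp only [add_mul, mul_add, one_mul, mul_one, mul_assoc]
    omega

/-- A resolvent entry is a supermartingale that pays for the pushes. -/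
theorem push_step {o : Op X} {l : List (Op X)} {s : St V X r} (hI : C.Inv M (o :: l) s) (v : V) :
    ∑ i, C.pr o s i * ((C.nx o s i).kP v - s.kP v + C.RP v (C.nx o s i) / C.Lam2 ^ 2) ≤
      C.RP v s / C.Lam2 ^ 2 := by
  obtain ⟨j₀, hb⟩ := inv_base hC hI
  have hL := Lam2_pos hC
  have hl : LawOn s.q s.W := hb.q_eq ▸ law_next hC j₀ hb.law _ _
  have raise : ∀ τ : ℝ, 0 ≤ τ →
      C.RP v { s with T := s.T + τ, dirty := false } ≤ C.RP v s := by
    intro τ hτ
    unfold RP
    dsimp only
    split_ifs with hv
    · exact C.S.facts.res_anti hl hb.valid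
        (fun u _ => by simp only [St.z, St.ktot]; linarith) hv
    · exact le_rfl
  cases o with
  | start k =>
    simp only [Fin.sum_univ_three, pr, nx, Fin.isValue, if_true, Fin.reduceEq, if_false, zero_mul,
      add_zero, one_mul, sub_self, zero_add]
    exact div_le_div_of_nonneg_right (raise _ (by linarith [hC.rise_nonneg])) (by positivity)
  | rise k =>
    simp only [Fin.sum_univ_three, pr, nx, Fin.isValue, if_true, Fin.reduceEq, if_false, zero_mul,
      add_zero, one_mul, sub_self, zero_add]
    exact div_le_div_of_nonneg_right (raise _ (div_nonneg hC.rise_nonneg (by positivity)))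
      (by positivity)
  | fin j =>
    have hfin : C.RP v (C.nx (.fin j) s 0) ≤ C.RP v s := by
      rcases hI.2 with ⟨i, n, -, hl', -⟩ | ⟨j', n', cs, t, a, n, -, -, -, -, hl', hs⟩
      · cases n <;> simp [rounds, round] at hl'
      · cases cs with
        | cons y cs => simp at hl'
        | nil =>
          cases n with
          | succ n => simp [slots] at hl'
          | zero =>
            simp only [List.map_nil, List.nil_append, slots, List.cons.injEq, Op.fin.injEq] at hl'
            obtain ⟨rfl, -⟩ := hl'
            have hres := (fin_res_le hC hs.base 0).2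
            unfold RP
            split_ifs with h1 h2 h2
            · exact hres v h1
            · exact absurd (Finset.mem_inter.1 h1).1 h2
            · exact (res_pos hl hb.valid h2).le
            · exact le_rfl
    simp only [Fin.sum_univ_three, pr, Fin.isValue, if_true, Fin.reduceEq, if_false, zero_mul,
      add_zero, one_mul]
    rw [show (C.nx (.fin j) s 0).kP v = s.kP v from rfl, sub_self, zero_add]
    exact div_le_div_of_nonneg_right hfin (by positivity)
  | visit j t x =>
    obtain ⟨hs, hT, -⟩ := visit_inv hC hI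
    by_cases hx : s.seen x = none
    · have h := hit_super hC hs hT hx v
      simp only [Fin.sum_univ_three, pr, if_pos hx, nx, Fin.isValue, if_true, Fin.reduceEq,
        if_false, sub_self, zero_add]
      have h2 : ((C.hit j x true s).kP v - s.kP v + C.RP v (C.hit j x true s) / C.Lam2 ^ 2) +
          ((C.hit j x false s).kP v - s.kP v + C.RP v (C.hit j x false s) / C.Lam2 ^ 2) ≤
            2 * (C.RP v s / C.Lam2 ^ 2) := by
        have := div_le_div_of_nonneg_right h (pow_pos hL 2).le
        simp only [add_div, mul_div_cancel_left₀ _ (pow_pos hL 2).ne', mul_div_assoc] at this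
        linarith
      nlinarith [mul_le_mul_of_nonneg_left h2 (C.haz_nonneg t)]
    · simp [pr, hx, nx]

theorem log_mid {a b c Lam : ℝ} (hL : 0 < Lam) (ha : 0 ≤ a) (hb : 0 ≤ b) (h : a + b ≤ 2 * c) :
    (Real.log (Lam + a) - Real.log Lam) + (Real.log (Lam + b) - Real.log Lam) ≤
      2 * (Real.log (Lam + c) - Real.log Lam) := by
  have h1 : 0 < Lam + a := by linarith
  have h2 : 0 < Lam + b := by linarith
  have h3 : (Lam + a) * (Lam + b) ≤ (Lam + c) ^ 2 := by
    nlinarith [sq_nonneg (a - b), mul_le_mul h h (by linarith : 0 ≤ a + b) (by linarith)]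
  have := Real.log_le_log (mul_pos h1 h2) h3
  rw [Real.log_mul h1.ne' h2.ne', Real.log_pow] at this
  push_cast at this
  linarith

/-- The logarithm pays for the repairs. -/
theorem rep_step (hrise : 0 < C.P.rise) {o : Op X} {l : List (Op X)} {s : St V X r}
    (hI : C.Inv M (o :: l) s) (v : V) :
    ∑ i, C.pr o s i * (C.dRep v o s i + C.potRep v l (C.nx o s i)) ≤ C.potRep v (o :: l) s := by
  obtain ⟨j₀, hb⟩ := inv_base hC hI
  obtain ⟨hM, hcase⟩ := id hI
  obtain ⟨hcoef, hc⟩ := coef_nonneg hC
  have hLam : 0 < C.P.Lam := by linarith [hC.Lam_le]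
  have hK : (0 : ℝ) < C.K := Nat.cast_pos.2 hC.K_pos
  have hRP0 := RP_nonneg hC hb v
  cases o with
  | start k =>
    have hp : ∀ s', C.pend v l s' = 0 := by
      intro s'
      rcases hcase with ⟨i, n, -, hl, -⟩ | ⟨j, n', cs, t, a, n, -, -, -, -, hl, -⟩
      · cases n with
        | zero => simp [rounds] at hl
        | succ n =>
          simp only [rounds, round, List.cons_append, List.append_assoc, List.cons.injEq] at hl
          obtain ⟨-, rfl⟩ := hl
          cases hn : C.K <;> simp [slots, pend]
      · cases cs <;> cases n <;> simp [slots] at hl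
    have hb' := base_raise hC hb (τ := C.P.rise / 4) (by linarith)
    have := push_step hC hI v
    simp only [Fin.sum_univ_three, pr, nx, Fin.isValue, if_true, Fin.reduceEq, if_false, zero_mul,
      add_zero, one_mul, sub_self, zero_add] at this ⊢
    rw [div_le_div_iff_of_pos_right (pow_pos (Lam2_pos hC) 2)] at this
    have h1 := Real.log_le_log (add_pos_of_pos_of_nonneg hLam (RP_nonneg hC hb' v))
      (add_le_add (le_refl C.P.Lam) this)
    simp only [dRep, potRep, hp, visits]
    rw [show C.pend v (Op.start k :: l) s = 0 from rfl]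
    nlinarith [mul_le_mul_of_nonneg_left h1 hc]
  | rise k =>
    have hl : LawOn s.q s.W := hb.q_eq ▸ law_next hC j₀ hb.law _ _
    set τ := C.P.rise / (4 * C.K) with hτdef
    set s' : St V X r := { s with T := s.T + τ, dirty := false } with hs'
    have hτ : 0 ≤ τ := by positivity
    have hb' := base_raise hC hb hτ
    have hz : s'.z = shift s.z τ := funext fun u => by
      simp only [s', shift, St.z, St.ktot]; ring
    simp only [Fin.sum_univ_three, pr, nx, Fin.isValue, if_true, Fin.reduceEq, if_false, zero_mul,
      add_zero, one_mul]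
    rw [show C.dRep v (Op.rise k) s 0 = 0 from rfl, zero_add, ← hs']
    simp only [potRep, visits]
    rw [show C.pend v (Op.rise k :: l) s = 0 from rfl]
    by_cases hv : v ∈ s.W
    · have hd := log_drop hl hb.valid hv hLam hτ
      rw [← hz] at hd
      have hR1 : C.RP v s' = C.S.Res s.q s.W s'.z v := if_pos hv
      have hR0 : C.RP v s = C.S.Res s.q s.W s.z v := if_pos hv
      rw [hR1, hR0]
      have hp := pend_le hC v (s := s')
        (B := C.P.h * (C.cRep * (C.cA * C.P.g ^ 2 *
          (C.S.slope s.q s.W s'.z v / (C.P.Lam + C.S.Res s.q s.W s'.z v))))) (by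
          have h1 := slope_nonneg hl hb'.valid hv
          have h2 := res_pos hl hb'.valid hv
          have := hC.h_nonneg
          have := hC.Lam_le
          have := hC.e₀_pos
          rw [hC.cRep_eq, hC.cA_eq]
          positivity) (fun _ => by
          have : C.amt s' v ≤ C.cA * C.P.g ^ 2 *
              (C.S.slope s.q s.W s'.z v / (C.P.Lam + C.S.Res s.q s.W s'.z v)) := by
            simp only [amt, s', Bool.false_eq_true, if_false]
            exact min_le_left _ _
          have hR : 0 ≤ C.cRep := by rw [hC.cRep_eq]; linarith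
          exact mul_le_mul_of_nonneg_left (mul_le_mul_of_nonneg_left this hR) hC.h_nonneg) l
      have key : 1 / (C.K : ℝ) * (C.P.h * (C.cRep * (C.cA * C.P.g ^ 2 *
          (C.S.slope s.q s.W s'.z v / (C.P.Lam + C.S.Res s.q s.W s'.z v))))) =
          C.cPsi * (τ * C.S.slope s.q s.W s'.z v / (C.P.Lam + C.S.Res s.q s.W s'.z v)) := by
        rw [hτdef, cPsi]
        field_simp
      have := mul_le_mul_of_nonneg_left hd hc
      linarith
    · have hR1 : C.RP v s' = 0 := if_neg hv
      have hR0 : C.RP v s = 0 := if_neg hv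
      have hp := pend_le hC v (s := s') le_rfl (fun h => absurd h hv) l
      rw [hR1, hR0]
      linarith
  | fin j =>
    have hp : ∀ s', C.pend v l s' = 0 := by
      intro s'
      rcases hcase with ⟨i, n, -, hl, -⟩ | ⟨j', n', cs, t, a, n, -, -, -, -, hl, -⟩
      · cases n <;> simp [rounds, round] at hl
      · cases cs with
        | cons y cs => simp at hl
        | nil =>
          cases n with
          | succ n => simp [slots] at hl
          | zero =>
            simp only [List.map_nil, List.nil_append, slots, List.cons.injEq] at hl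
            obtain ⟨-, rfl⟩ := hl
            cases n' <;> simp [rounds, round, pend]
    have := push_step hC hI v
    have hst := stable hC (.fin j) l s 0 hI (by simp [prog', pr])
    obtain ⟨j', hb'⟩ := inv_base hC hst
    simp only [Fin.sum_univ_three, pr, Fin.isValue, if_true, Fin.reduceEq, if_false, zero_mul,
      add_zero, one_mul] at this ⊢
    rw [show (C.nx (.fin j) s 0).kP v = s.kP v from rfl, sub_self, zero_add,
      div_le_div_iff_of_pos_right (pow_pos (Lam2_pos hC) 2)] at this
    have h1 := Real.log_le_log (add_pos_of_pos_of_nonneg hLam (RP_nonneg hC hb' v))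
      (add_le_add (le_refl C.P.Lam) this)
    simp only [potRep, hp, visits]
    rw [show C.dRep v (Op.fin j) s 0 = 0 from rfl, show C.pend v (Op.fin j :: l) s = 0 from rfl]
    have h2 := mul_le_mul_of_nonneg_left h1 hc
    simp only [prog'] at h2
    linarith
  | visit j t x =>
    obtain ⟨hs, hT, ht, cs, tail, hnd, rfl, htail⟩ := visit_inv hC hI
    have hstay : C.pend v (List.map (Op.visit j t) cs ++ tail) s ≤
        C.pend v (Op.visit j t x :: (List.map (Op.visit j t) cs ++ tail)) s := by
      simp only [pend]
      split_ifs with h1 h2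
      · rw [pend_map_eq_zero hC (h1 ▸ hnd) (htail v s)]
        exact mul_nonneg (by positivity) (rep_amt_le hC hs h2.2.2.1).1
      · rw [pend_map_eq_zero hC (h1 ▸ hnd) (htail v s)]
      · exact le_rfl
    simp only [Fin.sum_univ_three, potRep, nx, Fin.isValue, if_true, Fin.reduceEq, if_false,
      visits, Nat.cast_succ]
    set err := C.P.h * C.cRep * C.Lam2 / (C.K : ℝ) ^ 2 with herr
    have herr0 : 0 ≤ err := by positivity
    rw [show C.dRep v (Op.visit j t x) s 0 = 0 by simp [dRep]]
    by_cases hx : s.seen x = none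
    swap
    · simp only [pr, if_neg hx, Fin.isValue, if_true, Fin.reduceEq, if_false, zero_mul, add_zero,
        one_mul, zero_add]
      linarith
    simp only [pr, if_pos hx, Fin.isValue, if_true, Fin.reduceEq, if_false]
    have ha0 := C.haz_nonneg t
    have haK : C.haz t ≤ 1 / (C.K : ℝ) := by
      unfold haz
      exact one_div_le_one_div_of_le hK (by exact_mod_cast (by omega : C.K ≤ 2 * C.K - t))
    have hsuper : C.RP v (C.hit j x true s) + C.RP v (C.hit j x false s) ≤ 2 * C.RP v s := by
      obtain ⟨hV, -⟩ := mid_super hC hs hT hx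
      have hp : ∀ b, 0 ≤ C.Lam2 ^ 2 * ((C.hit j x b s).kP v - s.kP v) := fun b =>
        mul_nonneg (sq_nonneg _) (by simpa [hit, push, mid] using pushBy_nonneg hC (C.mid j x b s) v)
      linarith [hit_super hC hs hT hx v, hp true, hp false]
    have hlog := mul_le_mul_of_nonneg_left (log_mid hC hLam
      (RP_nonneg hC (hit_base hC hs hT hx true) v)
      (RP_nonneg hC (hit_base hC hs hT hx false) v) hsuper) hc
    by_cases hxv : x = C.cell v
    · have hpz : ∀ s', C.pend v (List.map (Op.visit j t) cs ++ tail) s' = 0 := fun s' =>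
        pend_map_eq_zero hC (hxv ▸ hnd) (htail v s')
      simp only [hpz, pend, if_pos hxv, dRep, ne_eq, Fin.isValue, Fin.reduceEq, not_false_eq_true,
        true_and, add_zero]
      split_ifs with hm
      · have := mul_le_mul_of_nonneg_right haK (rep_amt_le hC hs hm.2.2.1).1
        nlinarith [mul_le_mul_of_nonneg_left hlog ha0]
      · nlinarith [mul_le_mul_of_nonneg_left hlog ha0]
    · have hnm : ¬ C.moved j x s v := fun h => hxv h.1.symm
      have hp2 : ∀ b, C.pend v (List.map (Op.visit j t) cs ++ tail) (C.hit j x b s) ≤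
          1 / (C.K : ℝ) * (C.P.h * C.cRep * C.Lam2) := fun b =>
        pend_le hC v hcoef
          (fun h => (rep_amt_le hC (hit_base hC hs hT hx b) h).2) _
      have hp0 := pend_nonneg hC v hs (List.map (Op.visit j t) cs ++ tail)
      have herr2 : C.haz t * (1 / (C.K : ℝ) * (C.P.h * C.cRep * C.Lam2)) ≤ err := by
        calc C.haz t * (1 / (C.K : ℝ) * (C.P.h * C.cRep * C.Lam2))
            ≤ 1 / (C.K : ℝ) * (1 / (C.K : ℝ) * (C.P.h * C.cRep * C.Lam2)) :=
              mul_le_mul_of_nonneg_right haK (by positivity)
          _ = err := by rw [herr]; field_simp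
      simp only [pend, if_neg hxv, dRep, hnm, and_false, if_false, zero_add]
      nlinarith [mul_le_mul_of_nonneg_left hlog ha0,
        mul_le_mul_of_nonneg_left (hp2 true) ha0, mul_le_mul_of_nonneg_left (hp2 false) ha0,
        mul_nonneg ha0 hp0]

theorem potRep_bounds {l : List (Op X)} {s : St V X r} (hI : C.Inv M l s) (v : V)
    (hK : (C.P.m + 1) * (C.K + 1) * Fintype.card X ≤ C.K ^ 2) :
    0 ≤ C.potRep v l s ∧ C.potRep v l s ≤ C.bRep := by
  obtain ⟨j, hb⟩ := inv_base hC hI
  obtain ⟨hcoef, hc⟩ := coef_nonneg hC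
  have hLam := hC.Lam_le
  have hK0 : (0 : ℝ) < C.K := Nat.cast_pos.2 hC.K_pos
  have hR0 := RP_nonneg hC hb v
  have hR1 : C.RP v s ≤ C.Lam2 := by
    unfold RP
    split_ifs with h
    · exact hb.res v h
    · exact (Lam2_pos hC).le
  have hlog0 : Real.log C.P.Lam ≤ Real.log (C.P.Lam + C.RP v s) :=
    Real.log_le_log (by linarith) (by linarith)
  have hlog1 : Real.log (C.P.Lam + C.RP v s) - Real.log C.P.Lam ≤ Real.log (1 + C.Lam2) := by
    rw [← Real.log_div (by linarith) (by linarith)]
    refine Real.log_le_log (by positivity) ?_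
    rw [div_le_iff₀ (by linarith)]
    nlinarith
  have hp0 := pend_nonneg hC v hb l
  have hp1 := pend_le hC v hcoef (fun h => (rep_amt_le hC hb h).2) l
  have h1K : 1 / (C.K : ℝ) ≤ 1 := (div_le_one hK0).2 (by exact_mod_cast hC.K_pos)
  have hv : (visits l : ℝ) ≤ (C.K : ℝ) ^ 2 := by
    exact_mod_cast (visits_le hC hI).trans hK
  have herr : C.P.h * C.cRep * C.Lam2 / (C.K : ℝ) ^ 2 * visits l ≤ C.P.h * C.cRep * C.Lam2 := by
    rw [div_mul_eq_mul_div, div_le_iff₀ (by positivity)]
    exact mul_le_mul_of_nonneg_left hv hcoef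
  unfold potRep bRep
  exact ⟨add_nonneg (add_nonneg (mul_nonneg hc (sub_nonneg.2 hlog0)) hp0) (by positivity),
    by nlinarith [mul_le_mul_of_nonneg_left hlog1 hc, mul_le_mul_of_nonneg_right h1K hcoef]⟩

end Cfg

end Vale.Agent.P078.Any
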