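import Vale.Agent.P078.Any.Frequency

/-!
Moves make the laws more concentrated, so there are few of them.
-/

namespace Vale.Agent.P078.Any

open Finset Function

set_option linter.unusedSectionVars false

variable {V X : Type} [DecidableEq V] [Fintype X] [DecidableEq X] {r : ℕ}

/-- A sum over all seeds of a function of the seed of one cell. -/
theorem sum_seed (x : X) (f : Bool × Bool → ℝ) :
    4 * ∑ τ : X → Bool × Bool, f (τ x) =
      (Fintype.card (X → Bool × Bool) : ℝ) * ∑ b, f b := by
  rw [← (Equiv.funSplitAt x (Bool × Bool)).symm.sum_comp, Fintype.sum_prod_type,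
    Fintype.card_congr (Equiv.funSplitAt x (Bool × Bool)), Fintype.card_prod]
  simp [Finset.mul_sum, Equiv.funSplitAt, Equiv.piSplitAt, mul_assoc]

/-- The mean square weight grows with every move. -/
theorem sum_sq_next (P : Par) (rule : Rule V r) (hh : 0 ≤ P.h) (j : ℕ) (q : V → Fin r → ℝ)
    (cell : V → X) (u : V) :
    ∑ τ : X → Bool × Bool, ∑ c, next P rule j q (fun v => τ (cell v)) u c ^ 2 =
      (Fintype.card (X → Bool × Bool) : ℝ) * (∑ c, q u c ^ 2 +
        match rule j q u with
        | some x => P.h / 2 * ∑ c, (q u c * x c) ^ 2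
        | none => 0) := by
  let f : Bool × Bool → ℝ := fun b => ∑ c, next P rule j q (fun _ => b) u c ^ 2
  have e : ∀ τ : X → Bool × Bool,
      ∑ c, next P rule j q (fun v => τ (cell v)) u c ^ 2 = f (τ (cell u)) := fun τ => rfl
  have h4 := sum_seed (cell u) f
  rw [Fintype.sum_prod_type] at h4
  simp only [Fintype.sum_bool, f, next, if_true, Bool.false_eq_true, if_false] at h4
  simp only [e]
  refine mul_left_cancel₀ (four_ne_zero (α := ℝ)) ?_
  simp only [f, next]
  rw [h4]
  cases rule j q u with
  | none => simp only; ring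
  | some x =>
    simp only [sgn, if_true, Bool.false_eq_true, if_false, mul_add, Finset.mul_sum,
      ← Finset.sum_add_distrib]
    refine Finset.sum_congr rfl fun c _ => ?_
    have := Real.sq_sqrt hh
    linear_combination (2 * (Fintype.card (X → Bool × Bool) : ℝ) * q u c ^ 2 * x c ^ 2) * this

/-- The marginal of one round, as a hypothesis. -/
def Cfg.RoundMarginal (C : Cfg V X r) : Prop :=
  ∀ (j : ℕ) (s : St V X r), (s.seen = fun _ => none) → ∀ f : (V → Fin r → ℝ) → ℝ,
    C.prog'.E (C.round j) (fun s' => f s'.q0) s * Fintype.card (X → Bool × Bool) =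
      ∑ τ : X → Bool × Bool, f (next C.P C.rule j s.q0 fun u => τ (C.cell u))

namespace Cfg

variable {C : Cfg V X r} {d : ℕ} {e₀ η R₀ : ℝ} (hC : C.OK d e₀ η) (hS : C.Start R₀)

include hC hS

open Classical in
/-- There are few moves. -/
theorem moves_le (hM : C.RoundMarginal) (heps : 0 < C.P.eps) (u : V) :
    ∑ i ∈ range C.P.m, C.prog'.E (C.rounds 0 i)
        (fun s => if (C.rule i s.q0 u).isSome = true then 1 else 0) C.init ≤
      2 / (C.P.h * C.P.eps ^ 2) := by
  set c := C.P.h * C.P.eps ^ 2 / 2 with hcdef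
  have hc : 0 < c := by have := hS.h_pos; positivity
  let φ : St V X r → ℝ := fun s => ∑ a, s.q0 u a ^ 2
  have hstep : ∀ i < C.P.m,
      C.prog'.E (C.rounds 0 i) φ C.init + c * C.prog'.E (C.rounds 0 i)
        (fun s => if (C.rule i s.q0 u).isSome = true then 1 else 0) C.init ≤
      C.prog'.E (C.rounds 0 (i + 1)) φ C.init := by
    intro i hi
    rw [rounds_snoc, zero_add, Prog.E_append, ← Prog.E_smul, ← Prog.E_add]
    refine Prog.E_le_E (stable hC) (fun s hs => ?_) (init_inv hC hS hi.le)
    have ha := inv_nil hC hs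
    have h := hM i s ha.seen (fun q => ∑ a, q u a ^ 2)
    rw [sum_sq_next C.P C.rule hC.h_nonneg i s.q0 C.cell u, mul_comm] at h
    have hn : (Fintype.card (X → Bool × Bool) : ℝ) ≠ 0 := by exact_mod_cast Fintype.card_ne_zero
    rw [mul_left_cancel₀ hn h]
    refine add_le_add le_rfl ?_
    cases hr : C.rule i s.q0 u with
    | none => simp
    | some x =>
      obtain ⟨-, -, -, -, hsq⟩ := (hC.rule i s.q0 ha.base.law u).1 x hr
      simp only [Option.isSome_some, if_true, mul_one]
      rw [hcdef]
      have := mul_le_mul_of_nonneg_left hsq (by linarith [hC.h_nonneg] : 0 ≤ C.P.h / 2)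
      linarith
  have hsum := Finset.sum_le_sum (s := range C.P.m) fun i hi => hstep i (Finset.mem_range.1 hi)
  rw [Finset.sum_add_distrib, ← Finset.mul_sum] at hsum
  have htel := Finset.sum_range_sub (fun i => C.prog'.E (C.rounds 0 i) φ C.init) C.P.m
  rw [Finset.sum_sub_distrib] at htel
  have hup : C.prog'.E (C.rounds 0 C.P.m) φ C.init ≤ 1 := by
    refine le_trans (Prog.E_le_E (stable hC) (f' := fun _ => (1 : ℝ)) (fun s hs => ?_)
      (init_inv hC hS le_rfl)) (le_of_eq (C.prog'.E_const _ _ _))
    obtain ⟨h0, h1⟩ := (inv_nil hC hs).base.law {u} u (Finset.mem_singleton_self u)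
    calc ∑ a, s.q0 u a ^ 2 ≤ ∑ a, s.q0 u a := Finset.sum_le_sum fun a _ => by
          rw [sq]
          exact mul_le_of_le_one_left (h0 a)
            (h1 ▸ Finset.single_le_sum (fun b _ => h0 b) (Finset.mem_univ a))
      _ = 1 := h1
  have hlow : 0 ≤ C.prog'.E (C.rounds 0 0) φ C.init :=
    Finset.sum_nonneg fun _ _ => sq_nonneg _
  have e : 2 / (C.P.h * C.P.eps ^ 2) = 1 / c := by rw [hcdef, one_div_div]
  rw [e, le_div_iff₀ hc]
  linarith

end Cfg

end Vale.Agent.P078.Any
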