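import Vale.Agent.P078.Any.Bicommutant
import Vale.Agent.P078.Dense

/-!
A representation in which the sums `∑ a * u` have a cyclic vector and approximate every element
together with its adjoint: a self-adjoint element is then approximated by sums of no larger norm.
-/

namespace Vale.Agent.P078.Any

open scoped InnerProductSpace ComplexOrder
open ContinuousLinearMap Filter Topology Cartan

variable {H : Type} [NormedAddCommGroup H] [InnerProductSpace ℂ H] [CompleteSpace H]
variable {G : Type} [NormedAddCommGroup G] [InnerProductSpace ℂ G] [CompleteSpace G]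
variable {M : VonNeumannAlgebra H} {A : StarSubalgebra ℂ (H →L[ℂ] H)}
variable {L : (H →L[ℂ] H) →ₗ[ℂ] (G →L[ℂ] G)} {o : G}

/-- The abstract compressed left multiplication. -/
structure IsRep (M : VonNeumannAlgebra H) (A : StarSubalgebra ℂ (H →L[ℂ] H))
    (L : (H →L[ℂ] H) →ₗ[ℂ] (G →L[ℂ] G)) (o : G) : Prop where
  map_star : ∀ x, L (star x) = star (L x)
  map_mul : ∀ x, ∀ n ∈ spanN M A, L (x * n) = L x * L n
  map_one : L 1 = 1
  norm_le : ∀ x, ‖L x‖ ≤ ‖x‖
  norm_vec : ‖o‖ ≤ 1
  cyclic : ∀ v : G, (∀ n ∈ spanN M A, ⟪L n o, v⟫_ℂ = 0) → v = 0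
  graph : ∀ x ∈ M, ∀ γ : ℝ, 0 < γ → ∃ k ∈ spanN M A,
    ‖L k o - L x o‖ ≤ γ ∧ ‖L (star k) o - L (star x) o‖ ≤ γ

namespace IsRep

variable (R : IsRep M A L o)
include R

theorem map_mul' {n : H →L[ℂ] H} (hn : n ∈ spanN M A) (x : H →L[ℂ] H) :
    L (n * x) = L n * L x := by
  apply star_injective
  rw [← R.map_star, star_mul, R.map_mul _ _ (star_mem_spanN hn), R.map_star, R.map_star, star_mul]

theorem map_sa {x : H →L[ℂ] H} (hx : IsSelfAdjoint x) : IsSelfAdjoint (L x) := by
  rw [IsSelfAdjoint, ← R.map_star, hx.star_eq]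

theorem map_aeval {n : H →L[ℂ] H} (hn : n ∈ spanN M A) (p : Polynomial ℝ) :
    L (Polynomial.aeval n p) = Polynomial.aeval (L n) p := by
  induction p using Polynomial.induction_on' with
  | add p q hp hq => rw [map_add, map_add, map_add, hp, hq]
  | monomial k c =>
    rw [Polynomial.aeval_monomial, Polynomial.aeval_monomial, ← Algebra.smul_def,
      ← Algebra.smul_def, ← Complex.coe_smul, map_smul, ← Complex.coe_smul]
    congr 1
    induction k with
    | zero => simpa using R.map_one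
    | succ k ih => rw [pow_succ, R.map_mul _ _ hn, ih, pow_succ]

/-- The representation lies in the double commutant of the sums. -/
theorem commute_map (hA : IsMasa M A) {x : H →L[ℂ] H} (hx : x ∈ M) {S : G →L[ℂ] G}
    (hS : ∀ n ∈ spanN M A, Commute S (L n)) : Commute S (L x) := by
  have swap : ∀ W ∈ M, ⟪L (star W) o, S o⟫_ℂ = ⟪star S o, L W o⟫_ℂ := by
    intro W hW
    refine eq_of_forall_dist_le fun e he => ?_
    obtain ⟨γ, hγ, hγe⟩ : ∃ γ : ℝ, 0 < γ ∧ γ * (‖S o‖ + ‖star S o‖) ≤ e := by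
      refine ⟨e / (‖S o‖ + ‖star S o‖ + 1), by positivity, ?_⟩
      rw [div_mul_eq_mul_div, div_le_iff₀ (by positivity)]
      nlinarith [norm_nonneg (S o), norm_nonneg (star S o)]
    obtain ⟨k, hk, h1, h2⟩ := R.graph W hW γ hγ
    have e1 : ⟪L (star k) o, S o⟫_ℂ = ⟪star S o, L k o⟫_ℂ := by
      rw [R.map_star, ContinuousLinearMap.star_eq_adjoint, ContinuousLinearMap.star_eq_adjoint,
        ContinuousLinearMap.adjoint_inner_left, ContinuousLinearMap.adjoint_inner_left,
        ← mul_apply', ← mul_apply', (hS k hk).eq]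
    have b1 := norm_inner_le_norm (𝕜 := ℂ) (L (star W) o - L (star k) o) (S o)
    have b2 := norm_inner_le_norm (𝕜 := ℂ) (star S o) (L k o - L W o)
    rw [norm_sub_rev] at h2
    rw [dist_eq_norm]
    have e2 : ⟪L (star W) o, S o⟫_ℂ - ⟪star S o, L W o⟫_ℂ
        = ⟪L (star W) o - L (star k) o, S o⟫_ℂ + ⟪star S o, L k o - L W o⟫_ℂ := by
      rw [inner_sub_left, inner_sub_right, e1]; ring
    rw [e2]
    refine (norm_add_le _ _).trans ?_
    nlinarith [mul_le_mul_of_nonneg_right h2 (norm_nonneg (S o)),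
      mul_le_mul_of_nonneg_left h1 (norm_nonneg (star S o))]
  obtain ⟨T, hT⟩ : ∃ T, T = L x := ⟨_, rfl⟩
  rw [← hT]
  have h0 : ∀ m ∈ spanN M A, (T * S - S * T) (L m o) = 0 := by
    intro m hm
    refine R.cyclic _ fun n hn => ?_
    obtain ⟨W, hW⟩ : ∃ W, W = star n * x * m := ⟨_, rfl⟩
    have hWM : W ∈ M :=
      hW ▸ mul_mem (mul_mem (star_mem (spanN_le hA hn)) hx) (spanN_le hA hm)
    have eW : L W = star (L n) * T * L m := by
      rw [hW, R.map_mul _ _ hm, R.map_mul' (star_mem_spanN hn), R.map_star, hT]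
    have hSn : Commute S (star (L n)) := by
      rw [← R.map_star]; exact hS _ (star_mem_spanN hn)
    have ea : star (L n) * (T * S * L m) = L W * S := by
      calc star (L n) * (T * S * L m) = star (L n) * T * (S * L m) := by simp only [mul_assoc]
        _ = _ := by rw [(hS m hm).eq, ← mul_assoc, eW]
    have eb : star (L n) * (S * T * L m) = S * L W := by
      calc star (L n) * (S * T * L m) = (star (L n) * S) * (T * L m) := by simp only [mul_assoc]
        _ = _ := by rw [← hSn.eq, eW]; simp only [mul_assoc]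
    have := swap W hWM
    rw [R.map_star, ContinuousLinearMap.star_eq_adjoint, ContinuousLinearMap.star_eq_adjoint,
      ContinuousLinearMap.adjoint_inner_left, ContinuousLinearMap.adjoint_inner_left,
      ← mul_apply', ← ea, ← mul_apply' S, ← eb] at this
    simp only [mul_apply', ContinuousLinearMap.star_eq_adjoint,
      ContinuousLinearMap.adjoint_inner_right] at this
    rw [sub_apply, inner_sub_right, sub_eq_zero]
    simpa only [mul_apply'] using this
  obtain ⟨D, hD⟩ : ∃ D, D = T * S - S * T := ⟨_, rfl⟩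
  have h2 : star D = 0 := by
    ext1 v
    refine R.cyclic _ fun m hm => ?_
    rw [ContinuousLinearMap.star_eq_adjoint, ContinuousLinearMap.adjoint_inner_right, hD,
      h0 m hm, inner_zero_left]
  rw [star_eq_zero, hD, sub_eq_zero] at h2
  exact h2.symm

/-- A self-adjoint element is approximated at the vector by sums of no larger norm. -/
theorem exists_near (hA : IsMasa M A) {x : H →L[ℂ] H} (hx : x ∈ M) (hxs : IsSelfAdjoint x)
    {e : ℝ} (he : 0 < e) :
    ∃ n ∈ spanN M A, IsSelfAdjoint n ∧ ‖n‖ ≤ ‖x‖ ∧ ‖L n o - L x o‖ ≤ e := by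
  rcases eq_or_ne x 0 with rfl | hx0
  · exact ⟨0, zero_mem _, IsSelfAdjoint.zero _, le_rfl, by simp [he.le]⟩
  obtain ⟨C, hC⟩ : ∃ C, C = ‖x‖ := ⟨_, rfl⟩
  rw [← hC]
  have hC0 : 0 < C := hC ▸ norm_pos_iff.2 hx0
  obtain ⟨g, hg⟩ : ∃ g, g = e / (5 * C) := ⟨_, rfl⟩
  have hg0 : 0 < g := hg ▸ by positivity
  obtain ⟨T, hT⟩ : ∃ T, T = ((C⁻¹ : ℝ) : ℂ) • L x := ⟨_, rfl⟩
  have hTs : IsSelfAdjoint T := by
    rw [hT, IsSelfAdjoint, star_smul, (R.map_sa hxs).star_eq, RCLike.star_def,
      Complex.conj_ofReal]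
  have hT1 : ‖T‖ ≤ 1 := by
    rw [hT, norm_smul, Complex.norm_real, Real.norm_of_nonneg (by positivity),
      inv_mul_le_iff₀ hC0, mul_one, hC]
    exact R.norm_le x
  obtain ⟨x₀, Q, hx₀s, hx₀N, hnear⟩ := exists_clamp_near hTs hT1
  obtain ⟨W, hW⟩ : ∃ W, W = (spanN M A).map L := ⟨_, rfl⟩
  have hWstar : ∀ a ∈ W, star a ∈ W := by
    rw [hW]; rintro _ ⟨a, ha, rfl⟩; exact ⟨star a, star_mem_spanN ha, R.map_star a⟩
  have hcomm : ∀ S : G →L[ℂ] G, (∀ a ∈ W, Commute S a) → Commute S x₀ := by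
    intro S hS
    have hS' : ∀ a ∈ W, Commute (star S) a := fun a ha => by
      have := hS _ (hWstar a ha)
      rw [Commute, SemiconjBy] at this ⊢
      have e1 := congrArg star this
      rw [star_mul, star_mul, star_star] at e1
      exact e1.symm
    have mem : ∀ S' : G →L[ℂ] G, (∀ a ∈ W, Commute S' a) → Commute S' T := fun S' hS' =>
      hT ▸ (R.commute_map hA hx fun n hn => hS' _ (hW ▸ ⟨n, hn, rfl⟩)).smul_right _
    let N : VonNeumannAlgebra G :=
      ⟨StarSubalgebra.centralizer ℂ ({S} : Set (G →L[ℂ] G)), by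
        show Set.centralizer (Set.centralizer
          ((StarSubalgebra.centralizer ℂ ({S} : Set (G →L[ℂ] G)) : StarSubalgebra ℂ (G →L[ℂ] G)) :
            Set (G →L[ℂ] G))) =
          ((StarSubalgebra.centralizer ℂ ({S} : Set (G →L[ℂ] G)) : StarSubalgebra ℂ (G →L[ℂ] G)) :
            Set (G →L[ℂ] G))
        simp⟩
    have hTN : T ∈ N := by
      show T ∈ StarSubalgebra.centralizer ℂ ({S} : Set (G →L[ℂ] G))
      rw [StarSubalgebra.mem_centralizer_iff]
      intro S' hS''
      rw [Set.mem_singleton_iff] at hS''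
      rw [hS'']
      exact ⟨(mem S hS).eq, (mem _ hS').eq⟩
    have h0 := hx₀N N hTN
    change x₀ ∈ StarSubalgebra.centralizer ℂ ({S} : Set (G →L[ℂ] G)) at h0
    rw [StarSubalgebra.mem_centralizer_iff] at h0
    exact (h0 S rfl).1
  obtain ⟨F, hF⟩ : ∃ F : lp (fun _ : Bool => G) 2, F true = Q o ∧ F false = T o :=
    ⟨⟨fun b => cond b (Q o) (T o), memℓp_gen Summable.of_finite⟩, rfl, rfl⟩
  obtain ⟨a, ha, has, had⟩ := exists_sa_diag_near W (hW ▸ ⟨1, one_mem_spanN, R.map_one⟩)
    (by rw [hW]; rintro _ ⟨a, ha, rfl⟩ _ ⟨b, hb, rfl⟩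
        exact ⟨a * b, mul_mem_spanN ha hb, R.map_mul a b hb⟩)
    hWstar hx₀s hcomm F hg0
  rw [hW] at ha
  obtain ⟨b, hb, rfl⟩ := ha
  obtain ⟨n, hn, hns, hne⟩ : ∃ n ∈ spanN M A, IsSelfAdjoint n ∧ L n = L b := by
    refine ⟨(1 / 2 : ℂ) • (b + star b),
      Submodule.smul_mem _ _ (add_mem hb (star_mem_spanN hb)), ?_, ?_⟩
    · rw [IsSelfAdjoint, star_smul, star_add, star_star, add_comm (star b) b]
      norm_num
    · rw [map_smul, map_add, R.map_star, has.star_eq, ← two_smul ℂ, smul_smul]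
      norm_num
  rw [← hne] at had
  have hcoord : ∀ i, ‖(L n - x₀) (F i)‖ ≤ g := fun i =>
    le_trans (by
      have := lp.norm_apply_le_norm (by norm_num) (diagMul (L n) F - diagMul x₀ F) i
      simpa [diagMul_apply] using this) had.le
  have hd := hnear _ (R.map_sa hns) o
  have h1 := hcoord true
  have h2 := hcoord false
  rw [hF.1] at h1
  rw [hF.2] at h2
  obtain ⟨p, hp⟩ := exists_polynomial_near_of_continuousOn (-‖n‖) ‖n‖ clampMap
    continuous_clampMap.continuousOn g hg0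
  have hspec : ∀ {E : Type} [NormedAddCommGroup E] [InnerProductSpace ℂ E] [CompleteSpace E]
      (y : E →L[ℂ] E), ‖y‖ ≤ ‖n‖ → ∀ s ∈ spectrum ℝ y, |p.eval s - clampMap s| ≤ g := by
    intro E _ _ _ y hy s hs
    refine (hp s (abs_le.1 ?_)).le
    refine le_trans ?_ hy
    refine le_trans ?_ (mul_le_of_le_one_right (norm_nonneg _)
      (ContinuousLinearMap.norm_id_le (𝕜 := ℂ) (E := E)))
    exact spectrum.norm_le_norm_mul_of_mem hs
  obtain ⟨m, hm⟩ : ∃ m, m = Polynomial.aeval n p := ⟨_, rfl⟩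
  have hm1 : ‖m‖ ≤ 1 + g := by
    rw [hm, ← cfc_polynomial p n hns]
    refine norm_cfc_le (by positivity) fun s hs => ?_
    rw [Real.norm_eq_abs]
    have := hspec n le_rfl s hs
    have := abs_clampMap_le s
    calc |p.eval s| = |(p.eval s - clampMap s) + clampMap s| := by rw [sub_add_cancel]
      _ ≤ _ := (abs_add_le _ _).trans (by linarith)
  have hm2 : ‖L m - cfc clampMap (L n)‖ ≤ g := by
    rw [hm, R.map_aeval hn, ← cfc_polynomial p _ (R.map_sa hns), ← cfc_sub _ _ _ (by fun_prop)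
      continuous_clampMap.continuousOn]
    exact norm_cfc_le hg0.le fun s hs => by
      rw [Real.norm_eq_abs]
      exact hspec _ (R.norm_le n) s hs
  have hmN : m ∈ spanN M A := hm ▸ aeval_mem_spanN hn p
  have hms : IsSelfAdjoint m := by rw [hm, ← cfc_polynomial p n hns]; exact cfc_predicate _ n
  obtain ⟨c, hc⟩ : ∃ c : ℝ, c = 1 / (1 + g) := ⟨_, rfl⟩
  have hc0 : 0 ≤ c := hc ▸ by positivity
  have hcm : c * (1 + g) = 1 := hc ▸ div_mul_cancel₀ 1 (by positivity)
  have hc1 : c ≤ 1 := by nlinarith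
  refine ⟨((C * c : ℝ) : ℂ) • m, Submodule.smul_mem _ _ hmN, ?_, ?_, ?_⟩
  · rw [IsSelfAdjoint, star_smul, hms.star_eq, RCLike.star_def, Complex.conj_ofReal]
  · rw [norm_smul, Complex.norm_real, Real.norm_of_nonneg (by positivity)]
    calc C * c * ‖m‖ ≤ C * c * (1 + g) := mul_le_mul_of_nonneg_left hm1 (by positivity)
      _ = C := by rw [mul_assoc, hcm, mul_one]
  · have e0 : L x = (C : ℂ) • T := by
      rw [hT, smul_smul, ← Complex.ofReal_mul, mul_inv_cancel₀ hC0.ne', Complex.ofReal_one,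
        one_smul]
    obtain ⟨v, hv⟩ : ∃ v, v = L m o := ⟨_, rfl⟩
    rw [map_smul, smul_apply, e0, smul_apply, Complex.ofReal_mul, mul_smul, ← smul_sub,
      norm_smul, Complex.norm_real, Real.norm_of_nonneg hC0.le, ← hv]
    have b1 : ‖v‖ ≤ 1 + g := by
      rw [hv]
      refine ((L m).le_opNorm _).trans ?_
      exact (mul_le_of_le_one_right (norm_nonneg _) R.norm_vec).trans ((R.norm_le m).trans hm1)
    have b2 : ‖(c : ℂ) • v - v‖ ≤ g := by
      rw [show (c : ℂ) • v - v = ((c - 1 : ℝ) : ℂ) • v by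
        push_cast; rw [sub_smul, one_smul], norm_smul, Complex.norm_real,
        Real.norm_of_nonpos (by linarith)]
      nlinarith [mul_le_mul_of_nonneg_left b1 (by linarith : 0 ≤ 1 - c)]
    have b3 : ‖v - cfc clampMap (L n) o‖ ≤ g := by
      rw [hv, ← sub_apply]
      exact (le_opNorm _ _).trans ((mul_le_of_le_one_right (norm_nonneg _) R.norm_vec).trans hm2)
    rw [sub_apply, norm_sub_rev] at hd
    have b4 : ‖(c : ℂ) • v - T o‖ ≤ 5 * g := by
      have t1 := norm_sub_le_norm_sub_add_norm_sub ((c : ℂ) • v) v (T o)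
      have t2 := norm_sub_le_norm_sub_add_norm_sub v (cfc clampMap (L n) o) (T o)
      linarith
    calc C * ‖(c : ℂ) • v - T o‖ ≤ C * (5 * g) := mul_le_mul_of_nonneg_left b4 hC0.le
      _ = e := by rw [hg]; field_simp

end IsRep

end Vale.Agent.P078.Any
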