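import Vale.Agent.P078.Any.Facts

/-!
Resolvent entries along the diagonal: slopes, Cauchy-Schwarz and the drop of the logarithm.
-/

namespace Vale.Agent.P078.Any

open Finset

set_option linter.unusedSectionVars false

variable {V : Type} [DecidableEq V] {r : ℕ} {S : Sys V r} {w : V → Fin r → ℝ} {U : Finset V}
  {z : V → ℝ} {u : V}

theorem Sys.Valid.mono {T : Finset V} (h : S.Valid w U z) (hT : T ⊆ U) : S.Valid w T z :=
  fun _ hT' => h _ (hT'.trans hT)

/-- The variables moved along the diagonal. -/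
def shift (z : V → ℝ) (t : ℝ) : V → ℝ := fun v => z v + t

theorem shift_zero (z : V → ℝ) : shift z 0 = z := funext fun _ => add_zero _

theorem shift_shift (z : V → ℝ) (a b : ℝ) : shift (shift z a) b = shift z (a + b) :=
  funext fun _ => add_assoc _ _ _

/-- Minus the derivative of a resolvent entry along the diagonal. -/
noncomputable def Sys.slope (S : Sys V r) (w : V → Fin r → ℝ) (U : Finset V) (z : V → ℝ)
    (u : V) : ℝ :=
  -derivWithin (fun t => S.Res w U (shift z t) u) (Set.Ici 0) 0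

/-- A sum of simple poles that represents a resolvent entry on a half line. -/
structure Rep (S : Sys V r) (w : V → Fin r → ℝ) (U : Finset V) (z : V → ℝ) (u : V) where
  /-- The number of poles. -/
  n : ℕ
  /-- The masses. -/
  m : Fin n → ℝ
  /-- The distances of the poles. -/
  d : Fin n → ℝ
  m_nonneg : ∀ i, 0 ≤ m i
  m_sum : ∑ i, m i = 1
  d_pos : ∀ i, 0 < d i
  eq : ∀ t, 0 ≤ t → S.Res w U (shift z t) u = ∑ i, m i / (t + d i)

theorem exists_rep (hw : LawOn w U) (hV : S.Valid w U z) (hu : u ∈ U) :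
    Nonempty (Rep S w U z u) := by
  obtain ⟨n, m, d, h1, h2, h3, -, h5⟩ := S.stieltjes w U z hw hV u hu
  exact ⟨⟨n, m, d, h1, h2, h3, h5⟩⟩

namespace Rep

variable (p : Rep S w U z u)

theorem eq_zero : S.Res w U z u = ∑ i, p.m i / p.d i := by
  simpa [shift_zero] using p.eq 0 le_rfl

theorem slope_eq : S.slope w U z u = ∑ i, p.m i / p.d i ^ 2 := by
  have hd : HasDerivAt (fun t : ℝ => ∑ i, p.m i / (t + p.d i))
      (∑ i, -(p.m i / p.d i ^ 2)) 0 := by
    refine HasDerivAt.fun_sum fun i _ => ?_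
    have h := ((hasDerivAt_id (0 : ℝ)).add_const (p.d i)).inv
      (by simpa using (p.d_pos i).ne')
    simpa [div_eq_mul_inv, neg_mul] using h.const_mul (p.m i)
  have hd' : HasDerivWithinAt (fun t => S.Res w U (shift z t) u)
      (∑ i, -(p.m i / p.d i ^ 2)) (Set.Ici 0) 0 :=
    hd.hasDerivWithinAt.congr (fun t ht => p.eq t ht) (p.eq 0 le_rfl)
  rw [Sys.slope, hd'.derivWithin (uniqueDiffOn_Ici 0 0 Set.self_mem_Ici), Finset.sum_neg_distrib,
    neg_neg]

/-- Move the base point along the diagonal. -/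
noncomputable def move {τ : ℝ} (hτ : 0 ≤ τ) : Rep S w U (shift z τ) u where
  n := p.n
  m := p.m
  d := fun i => τ + p.d i
  m_nonneg := p.m_nonneg
  m_sum := p.m_sum
  d_pos := fun i => by linarith [p.d_pos i]
  eq := fun t ht => by
    rw [shift_shift, p.eq _ (by linarith)]
    exact Finset.sum_congr rfl fun i _ => by rw [← add_assoc, add_comm t]

theorem res_sub {a b : ℝ} (ha : 0 ≤ a) (hb : 0 ≤ b) :
    S.Res w U (shift z a) u - S.Res w U (shift z b) u =
      (b - a) * ∑ i, p.m i / ((a + p.d i) * (b + p.d i)) := by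
  rw [p.eq a ha, p.eq b hb, ← Finset.sum_sub_distrib, Finset.mul_sum]
  refine Finset.sum_congr rfl fun i _ => ?_
  have h1 : a + p.d i ≠ 0 := (by linarith [p.d_pos i] : 0 < a + p.d i).ne'
  have h2 : b + p.d i ≠ 0 := (by linarith [p.d_pos i] : 0 < b + p.d i).ne'
  field_simp
  ring

end Rep

variable (hw : LawOn w U) (hV : S.Valid w U z) (hu : u ∈ U)
include hw hV hu

theorem res_pos : 0 < S.Res w U z u :=
  div_pos (hV _ (Finset.erase_subset _ _)) (hV _ subset_rfl)

theorem slope_nonneg : 0 ≤ S.slope w U z u := by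
  obtain ⟨p⟩ := exists_rep hw hV hu
  rw [p.slope_eq]
  exact Finset.sum_nonneg fun i _ => div_nonneg (p.m_nonneg i) (sq_nonneg _)

theorem res_sub_le_slope {t : ℝ} (ht : 0 ≤ t) :
    S.Res w U z u - S.Res w U (shift z t) u ≤ t * S.slope w U z u := by
  obtain ⟨p⟩ := exists_rep hw hV hu
  have h := p.res_sub le_rfl ht
  rw [shift_zero, sub_zero] at h
  rw [h, p.slope_eq]
  refine mul_le_mul_of_nonneg_left (Finset.sum_le_sum fun i _ => ?_) ht
  refine div_le_div_of_nonneg_left (p.m_nonneg i) (pow_pos (p.d_pos i) 2) ?_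
  rw [zero_add, sq]
  exact mul_le_mul_of_nonneg_left (by linarith) (p.d_pos i).le

theorem slope_shift_le {τ : ℝ} (hτ : 0 ≤ τ) :
    τ * S.slope w U (shift z τ) u ≤ S.Res w U z u - S.Res w U (shift z τ) u := by
  obtain ⟨p⟩ := exists_rep hw hV hu
  have h := p.res_sub le_rfl hτ
  rw [shift_zero, sub_zero] at h
  rw [h, (p.move hτ).slope_eq]
  refine mul_le_mul_of_nonneg_left (Finset.sum_le_sum fun i _ => ?_) hτ
  simp only [Rep.move, zero_add]
  exact div_le_div_of_nonneg_left (p.m_nonneg i) (mul_pos (p.d_pos i) (by linarith [p.d_pos i]))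
    (by rw [sq]; exact mul_le_mul_of_nonneg_right (by linarith) (by linarith [p.d_pos i]))

/-- A later difference quotient is smaller. -/
theorem quotient_le {a b a' b' : ℝ} (ha : 0 ≤ a) (hab : a ≤ b) (ha' : a ≤ a') (hb' : b ≤ b')
    (h : a' ≤ b') :
    (b - a) * (S.Res w U (shift z a') u - S.Res w U (shift z b') u) ≤
      (b' - a') * (S.Res w U (shift z a) u - S.Res w U (shift z b) u) := by
  obtain ⟨p⟩ := exists_rep hw hV hu
  rw [p.res_sub (ha.trans ha') (by linarith), p.res_sub ha (ha.trans hab), mul_left_comm]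
  refine mul_le_mul_of_nonneg_left (mul_le_mul_of_nonneg_left (Finset.sum_le_sum fun i _ => ?_)
    (by linarith)) (by linarith)
  have h1 : 0 < a + p.d i := by linarith [p.d_pos i]
  have h2 : 0 < b + p.d i := by linarith [p.d_pos i]
  exact div_le_div_of_nonneg_left (p.m_nonneg i) (mul_pos h1 h2)
    (mul_le_mul (by linarith) (by linarith) h2.le (by linarith))

/-- Cauchy-Schwarz for the drop across a gap. -/
theorem sq_drop_le {g : ℝ} (hg : 0 < g) :
    (S.Res w U z u - S.Res w U (shift z g) u) ^ 2 ≤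
      2 * g * S.slope w U z u *
        (S.Res w U (shift z (g / 2)) u - S.Res w U (shift z g) u) := by
  obtain ⟨p⟩ := exists_rep hw hV hu
  have h := p.res_sub (a := 0) (b := g) le_rfl hg.le
  rw [shift_zero, sub_zero] at h
  have h' := p.res_sub (a := g / 2) (b := g) (by linarith) hg.le
  rw [h, h', p.slope_eq, mul_pow]
  have hcs := Finset.sum_mul_sq_le_sq_mul_sq univ (fun i => Real.sqrt (p.m i) / p.d i)
    (fun i => Real.sqrt (p.m i) / (g + p.d i))
  have e1 : ∀ i, Real.sqrt (p.m i) / p.d i * (Real.sqrt (p.m i) / (g + p.d i)) =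
      p.m i / ((0 + p.d i) * (g + p.d i)) := fun i => by
    rw [div_mul_div_comm, Real.mul_self_sqrt (p.m_nonneg i), zero_add]
  have e2 : ∀ c i, (Real.sqrt (p.m i) / c) ^ 2 = p.m i / c ^ 2 := fun c i => by
    rw [div_pow, Real.sq_sqrt (p.m_nonneg i)]
  simp only [e1, e2] at hcs
  have hs : ∑ i, p.m i / (g + p.d i) ^ 2 ≤
      ∑ i, p.m i / ((g / 2 + p.d i) * (g + p.d i)) := Finset.sum_le_sum fun i _ => by
    have := p.d_pos i
    exact div_le_div_of_nonneg_left (p.m_nonneg i) (mul_pos (by linarith) (by linarith))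
      (by rw [sq]; exact mul_le_mul_of_nonneg_right (by linarith) (by linarith))
  have h0 : 0 ≤ ∑ i, p.m i / p.d i ^ 2 :=
    Finset.sum_nonneg fun i _ => div_nonneg (p.m_nonneg i) (sq_nonneg _)
  have h1 := mul_le_mul_of_nonneg_left
    (hcs.trans (mul_le_mul_of_nonneg_left hs h0)) (sq_nonneg g)
  nlinarith [h1]

/-- The logarithm drops at least at the rate of its derivative at the end. -/
theorem log_drop {Lam τ : ℝ} (hL : 0 < Lam) (hτ : 0 ≤ τ) :
    τ * S.slope w U (shift z τ) u / (Lam + S.Res w U (shift z τ) u) ≤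
      Real.log (Lam + S.Res w U z u) - Real.log (Lam + S.Res w U (shift z τ) u) := by
  obtain ⟨p⟩ := exists_rep hw hV hu
  have hy : S.Res w U (shift z τ) u = ∑ i, p.m i / (τ + p.d i) := p.eq τ hτ
  have hm : S.slope w U (shift z τ) u = ∑ i, p.m i / (τ + p.d i) ^ 2 := (p.move hτ).slope_eq
  rw [hm, p.eq_zero, hy]
  set R1 := ∑ i, p.m i / (τ + p.d i) with hR1
  have hR1' : 0 ≤ R1 := Finset.sum_nonneg fun i _ =>
    div_nonneg (p.m_nonneg i) (by linarith [p.d_pos i])
  set y := Lam + R1
  have hy0 : 0 < y := by positivity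
  let wt : Option (Fin p.n) → ℝ := fun o => o.elim (Lam / y) fun i => p.m i / (τ + p.d i) / y
  let ρ : Option (Fin p.n) → ℝ := fun o => o.elim 0 fun i => τ / (τ + p.d i)
  have hwt : ∀ o ∈ (univ : Finset (Option (Fin p.n))), 0 ≤ wt o := by
    rintro (_ | i) -
    · exact div_nonneg hL.le hy0.le
    · exact div_nonneg (div_nonneg (p.m_nonneg i) (by linarith [p.d_pos i])) hy0.le
  have hsum : ∑ o, wt o = 1 := by
    simp only [Fintype.sum_option, wt, Option.elim, ← Finset.sum_div, ← hR1, ← add_div]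
    exact div_self hy0.ne'
  have hj := convexOn_exp.map_sum_le hwt hsum (p := ρ) fun o _ => Set.mem_univ _
  simp only [smul_eq_mul, Fintype.sum_option, wt, ρ, Option.elim, mul_zero, zero_add,
    Real.exp_zero, mul_one] at hj
  have hlhs : τ * (∑ i, p.m i / (τ + p.d i) ^ 2) / y =
      ∑ i, p.m i / (τ + p.d i) / y * (τ / (τ + p.d i)) := by
    rw [Finset.mul_sum, Finset.sum_div]
    refine Finset.sum_congr rfl fun i _ => ?_
    have : τ + p.d i ≠ 0 := (by linarith [p.d_pos i] : 0 < τ + p.d i).ne'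
    field_simp
  have hy1 : 0 < Lam + ∑ i, p.m i / p.d i :=
    add_pos_of_pos_of_nonneg hL (Finset.sum_nonneg fun i _ =>
      div_nonneg (p.m_nonneg i) (p.d_pos i).le)
  rw [hlhs, ← Real.log_div hy1.ne' hy0.ne', Real.le_log_iff_exp_le (div_pos hy1 hy0)]
  refine hj.trans ?_
  rw [add_div, Finset.sum_div]
  refine add_le_add le_rfl (Finset.sum_le_sum fun i _ => ?_)
  have hd := p.d_pos i
  have h1 : τ / (τ + p.d i) < 1 := by rw [div_lt_one (by linarith)]; linarith
  refine (mul_le_mul_of_nonneg_left (Real.exp_bound_div_one_sub_of_interval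
    (div_nonneg hτ (by linarith)) h1) (hwt (some i) (Finset.mem_univ _))).trans (le_of_eq ?_)
  simp only [wt, Option.elim]
  have : τ + p.d i ≠ 0 := by positivity
  have hd' : p.d i ≠ 0 := hd.ne'
  rw [show 1 - τ / (τ + p.d i) = p.d i / (τ + p.d i) by rw [one_sub_div this, add_sub_cancel_left]]
  field_simp

end Vale.Agent.P078.Any
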