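import Vale.Agent.P078.Any.Facts

/-!
One visit: a point whose law jumps to one of two children at opposite sides, with equal
probability, after a small shift of its variable. All windows stay positive and every resolvent
entry decreases on average.
-/

namespace Vale.Agent.P078.Any

open Function Finset

set_option linter.unusedSectionVars false

variable {V : Type} [DecidableEq V] {r : ℕ}

/-- The inequality behind a visit for another point: `b₀` and `b₁` are the two Schur complements
at the moving point, `M` and `M₁` their changes. -/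
theorem visit_ratio {b₀ b₁ k ε M M₁ : ℝ} (hb₀ : 0 < b₀) (hk : 0 ≤ k) (hle : b₀ ≤ b₁)
    (hM : |M - M₁| ≤ b₁ - b₀) (hcost : ε ^ 2 * (M ^ 2 + b₀ * |M|) ≤ (b₀ + k) * k)
    (hpos : ε * |M| < b₀ + k) (hε : 0 ≤ ε) :
    (b₁ + k - ε * M₁) / (b₀ + k - ε * M) + (b₁ + k + ε * M₁) / (b₀ + k + ε * M) ≤
      2 * (b₁ / b₀) := by
  have hab : |ε * M| < b₀ + k := by
    refine lt_of_le_of_lt ?_ hpos
    rw [abs_mul, abs_of_nonneg hε]
  obtain ⟨h1, h2⟩ := abs_lt.1 hab
  have hm : 0 < b₀ + k - ε * M := by linarith
  have hp : 0 < b₀ + k + ε * M := by linarith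
  rw [div_add_div _ _ hm.ne' hp.ne', mul_div_assoc', div_le_div_iff₀ (mul_pos hm hp) hb₀]
  have hcross : M * (M - M₁) ≤ |M| * (b₁ - b₀) := by
    calc M * (M - M₁) ≤ |M * (M - M₁)| := le_abs_self _
      _ = |M| * |M - M₁| := abs_mul _ _
      _ ≤ |M| * (b₁ - b₀) := mul_le_mul_of_nonneg_left hM (abs_nonneg M)
  have hβ : 0 ≤ b₁ - b₀ := by linarith
  nlinarith [mul_le_mul_of_nonneg_left hcross (mul_nonneg (sq_nonneg ε) hb₀.le),
    mul_le_mul_of_nonneg_left hcost hβ]

namespace Pre

variable (S : Pre V r) {w : V → Fin r → ℝ} {U T : Finset V} {z : V → ℝ} {u v : V}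

/-- The determinant after a change of the law and of the variable at one point. -/
theorem F_child (hw : LawOn w U) (hu : u ∈ U) (hF : S.F w (U.erase u) z ≠ 0) {f : Fin r → ℝ}
    (hf : ∑ c, f c = 1) (a : ℝ) :
    S.F (update w u f) U (update z u a) =
      S.F w (U.erase u) z * (a - ∑ c, f c * S.hc w U z u c) := by
  rw [S.split (update w u f) U _ u hu]
  simp only [update_self, update_idem]
  have e : ∀ c, S.F (update w u (Pi.single c 1)) U (update z u a) =
      S.F w (U.erase u) z * (a - S.hc w U z u c) := by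
    intro c
    rw [← S.hc_update_self hw hu hF a c, hc, update_self, S.F_erase_var, sub_sub_cancel]
    field_simp
  simp only [e]
  calc ∑ c, f c * (S.F w (U.erase u) z * (a - S.hc w U z u c))
      = S.F w (U.erase u) z * ((∑ c, f c) * a - ∑ c, f c * S.hc w U z u c) := by
        rw [Finset.sum_mul, ← Finset.sum_sub_distrib, Finset.mul_sum]
        exact Finset.sum_congr rfl fun c _ => by ring
    _ = _ := by rw [hf, one_mul]

theorem F_eq (hw : LawOn w U) (hu : u ∈ U) (hF : S.F w (U.erase u) z ≠ 0) :
    S.F w U z = S.F w (U.erase u) z * (z u - ∑ c, w u c * S.hc w U z u c) := by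
  have := S.F_child hw hu hF (hw u hu).2 (z u)
  rwa [update_eq_self, update_eq_self] at this

/-- The signed change is dominated by the self energy. -/
theorem abs_change_le (hw : LawOn w U) (hu : u ∈ U) (h : S.Valid w U z) {x : Fin r → ℝ}
    (hx : ∀ c, |x c| ≤ 1) :
    |∑ c, w u c * x c * S.hc w U z u c| ≤ z u := by
  have hh : ∀ c, 0 ≤ S.hc w U z u c := fun c =>
    le_trans (by norm_num) (S.hc_ge hw hu (h.mono (erase_subset u U)) c)
  refine (Finset.abs_sum_le_sum_abs _ _).trans ?_
  refine le_trans (Finset.sum_le_sum fun c _ => ?_)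
    (b := ∑ c, w u c * S.hc w U z u c) ?_
  · rw [abs_mul, abs_mul, abs_of_nonneg ((hw u hu).1 c), abs_of_nonneg (hh c)]
    exact mul_le_mul_of_nonneg_right
      (mul_le_of_le_one_right ((hw u hu).1 c) (hx c)) (hh c)
  · rw [S.hc_sum hw hu (h.mono (erase_subset u U))]
    have := S.res_pos (u := u) h
    have := one_div_pos.2 this
    linarith

theorem visit (hw : LawOn w U) (h : S.Valid w U z) (hu : u ∈ U) {x : Fin r → ℝ}
    (hx : ∀ c, |x c| ≤ 1) (hx0 : ∑ c, w u c * x c = 0) {ε : ℝ} (hε : 0 ≤ ε)
    (hsmall : 2 * ε * z u * S.Res w U z u ≤ 1) :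
    let M := ∑ c, w u c * x c * S.hc w U z u c
    let z' := update z u (z u + 2 * ε ^ 2 * |M| * (|M| * S.Res w U z u + 1))
    let qp := update w u fun c => w u c * (1 + ε * x c)
    let qm := update w u fun c => w u c * (1 - ε * x c)
    S.Valid qp U z' ∧ S.Valid qm U z' ∧
      ∀ v ∈ U, S.Res qp U z' v + S.Res qm U z' v ≤ 2 * S.Res w U z v := by
  intro M z' qp qm
  set R := S.Res w U z u with hR
  set k := 2 * ε ^ 2 * |M| * (|M| * R + 1) with hk
  have hRpos : 0 < R := S.res_pos h
  have hk0 : 0 ≤ k := by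
    have := abs_nonneg M
    positivity
  have hz : ∀ y ∈ U, z y ≤ z' y := fun y _ => by
    rcases eq_or_ne y u with rfl | hne
    · simp only [z', update_self]; linarith
    · simp only [z', update_of_ne hne, le_refl]
  have hf : ∀ s : ℝ, ∑ c, w u c * (1 + s * x c) = 1 := fun s => by
    simp only [mul_add, mul_one, Finset.sum_add_distrib, mul_left_comm _ s, ← Finset.mul_sum,
      hx0, (hw u hu).2]
    ring
  have hfm : ∑ c, w u c * (1 - ε * x c) = 1 := by
    have := hf (-ε)
    simpa [sub_eq_add_neg] using this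
  -- the determinant of a child on a window containing `u`
  have child : ∀ T, T ⊆ U → u ∈ T → ∀ s : ℝ,
      S.F (update w u fun c => w u c * (1 + s * x c)) T z' =
        S.F w (T.erase u) z *
          (1 / S.Res w T z u + k - s * ∑ c, w u c * x c * S.hc w T z u c) := by
    intro T hT huT s
    have hv := h.mono hT
    have hne : S.F w (T.erase u) z ≠ 0 := (hv _ (erase_subset u T)).ne'
    rw [S.F_child (hw.mono hT) huT hne (hf s)]
    congr 1
    have e1 : ∑ c, w u c * (1 + s * x c) * S.hc w T z u c =
        ∑ c, w u c * S.hc w T z u c + s * ∑ c, w u c * x c * S.hc w T z u c := by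
      rw [Finset.mul_sum, ← Finset.sum_add_distrib]
      exact Finset.sum_congr rfl fun c _ => by ring
    rw [e1, S.hc_sum (hw.mono hT) huT (hv.mono (erase_subset u T))]
    ring
  have childm : ∀ T, T ⊆ U → u ∈ T →
      S.F qm T z' = S.F w (T.erase u) z *
          (1 / S.Res w T z u + k + ε * ∑ c, w u c * x c * S.hc w T z u c) := by
    intro T hT huT
    have := child T hT huT (-ε)
    simp only [neg_mul, ← sub_eq_add_neg, sub_neg_eq_add] at this
    exact this
  have small : ∀ T, T ⊆ U → u ∈ T →
      ε * |∑ c, w u c * x c * S.hc w T z u c| < 1 / S.Res w T z u + k := by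
    intro T hT huT
    have hv := h.mono hT
    have h1 := S.abs_change_le (hw.mono hT) huT hv hx
    have h2 := S.res_window hw h hT huT
    have h3 : 1 / R ≤ 1 / S.Res w T z u := one_div_le_one_div_of_le (S.res_pos hv) h2
    have h4 : ε * z u * R ≤ 1 / 2 := by linarith
    have h5 : ε * z u ≤ 1 / 2 / R := by rw [le_div_iff₀ hRpos]; exact h4
    have h6 : (1 : ℝ) / 2 / R < 1 / R := div_lt_div_of_pos_right (by norm_num) hRpos
    have := mul_le_mul_of_nonneg_left h1 hε
    linarith
  have valid : ∀ f : Fin r → ℝ, (∀ T, T ⊆ U → u ∈ T → 0 < S.F (update w u f) T z') →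
      S.Valid (update w u f) U z' := by
    intro f hpos T hT
    by_cases huT : u ∈ T
    · exact hpos T hT huT
    · rw [S.congr _ w T z' z (fun y hy => update_of_ne (fun e : y = u => huT (e ▸ hy)) _ _)
        fun y hy => update_of_ne (fun e : y = u => huT (e ▸ hy)) _ _]
      exact h T hT
  have hqp : S.Valid qp U z' := by
    refine valid _ fun T hT huT => ?_
    rw [child T hT huT ε]
    refine mul_pos (h _ ((erase_subset u T).trans hT)) ?_
    have := small T hT huT
    have := abs_le.1 (le_of_eq (abs_mul ε (∑ c, w u c * x c * S.hc w T z u c)))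
    rw [abs_of_nonneg hε] at this
    linarith [this.2]
  have hqm : S.Valid qm U z' := by
    refine valid _ fun T hT huT => ?_
    rw [childm T hT huT]
    refine mul_pos (h _ ((erase_subset u T).trans hT)) ?_
    have := small T hT huT
    have := abs_le.1 (le_of_eq (abs_mul ε (∑ c, w u c * x c * S.hc w T z u c)))
    rw [abs_of_nonneg hε] at this
    linarith [this.1]
  refine ⟨hqp, hqm, fun v hv => ?_⟩
  have hD0 := h (U.erase u) (erase_subset u U)
  have hb0 : 0 < 1 / R := one_div_pos.2 hRpos
  have hs := small U subset_rfl hu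
  have eF := S.F_eq hw hu hD0.ne'
  rw [S.hc_sum hw hu (h.mono (erase_subset u U)), sub_sub_cancel] at eF
  rcases eq_or_ne v u with rfl | hne
  · -- the point itself
    unfold Res
    rw [child U subset_rfl hu ε, childm U subset_rfl hu, S.F_erase_law]
    have e1 : S.F qm (U.erase v) z' = S.F w (U.erase v) z := by
      rw [S.F_erase_law]; exact S.F_erase_var w U z v _
    rw [show S.F w (U.erase v) z' = S.F w (U.erase v) z from S.F_erase_var w U z v _, e1,
      show S.F w U z = S.F w (U.erase v) z * (1 / R) from eF]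
    have hm : 0 < 1 / R + k - ε * M := by
      have := mul_le_mul_of_nonneg_left (le_abs_self M) hε
      linarith
    have hp : 0 < 1 / R + k + ε * M := by
      have := mul_le_mul_of_nonneg_left (neg_abs_le M) hε
      linarith
    have hcost : ε ^ 2 * M ^ 2 ≤ (1 / R + k) * k := by
      have h1 : 2 * ε ^ 2 * |M| * (|M| * R) ≤ k := by
        have := abs_nonneg M
        rw [hk]
        nlinarith [mul_nonneg (sq_nonneg ε) this]
      have h2 : ε ^ 2 * M ^ 2 ≤ 1 / R * (2 * ε ^ 2 * |M| * (|M| * R)) := by
        rw [show 1 / R * (2 * ε ^ 2 * |M| * (|M| * R)) = 2 * ε ^ 2 * (|M| * |M|) by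
          field_simp, abs_mul_abs_self]
        nlinarith [sq_nonneg (ε * M)]
      have := mul_le_mul_of_nonneg_left h1 hb0.le
      nlinarith [mul_nonneg hk0 hk0]
    show S.F w (U.erase v) z / (S.F w (U.erase v) z * (1 / R + k - ε * M)) +
      S.F w (U.erase v) z / (S.F w (U.erase v) z * (1 / R + k + ε * M)) ≤
        2 * (S.F w (U.erase v) z / (S.F w (U.erase v) z * (1 / R)))
    rw [div_mul_cancel_left₀ hD0.ne', div_mul_cancel_left₀ hD0.ne', div_mul_cancel_left₀ hD0.ne',
      inv_eq_one_div, inv_eq_one_div, inv_eq_one_div, div_add_div _ _ hm.ne' hp.ne',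
      mul_div_assoc', div_le_div_iff₀ (mul_pos hm hp) hb0]
    nlinarith
  · -- another point
    have hT : U.erase v ⊆ U := erase_subset v U
    have huT : u ∈ U.erase v := mem_erase.2 ⟨Ne.symm hne, hu⟩
    have hv' := h.mono hT
    have hD1 := h ((U.erase v).erase u) ((erase_subset u _).trans hT)
    set M₁ := ∑ c, w u c * x c * S.hc w (U.erase v) z u c with hM₁
    set b₁ := 1 / S.Res w (U.erase v) z u with hb₁
    have hle : 1 / R ≤ b₁ :=
      one_div_le_one_div_of_le (S.res_pos hv') (S.res_window hw h hT huT)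
    have hM : |M - M₁| ≤ b₁ - 1 / R := by
      have hdiff : ∀ c, 0 ≤ S.hc w U z u c - S.hc w (U.erase v) z u c := fun c =>
        sub_nonneg.2 (S.hc_window hw hT huT (h.mono (erase_subset u U)) c)
      have e : M - M₁ = ∑ c, w u c * x c * (S.hc w U z u c - S.hc w (U.erase v) z u c) := by
        simp only [M, hM₁, mul_sub, Finset.sum_sub_distrib]
      rw [e]
      refine (Finset.abs_sum_le_sum_abs _ _).trans ?_
      refine le_trans (Finset.sum_le_sum fun c _ => ?_)
        (b := ∑ c, w u c * (S.hc w U z u c - S.hc w (U.erase v) z u c)) ?_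
      · rw [abs_mul, abs_mul, abs_of_nonneg ((hw u hu).1 c), abs_of_nonneg (hdiff c)]
        exact mul_le_mul_of_nonneg_right
          (mul_le_of_le_one_right ((hw u hu).1 c) (hx c)) (hdiff c)
      · simp only [mul_sub, Finset.sum_sub_distrib]
        rw [S.hc_sum hw hu (h.mono (erase_subset u U)),
          S.hc_sum (hw.mono hT) huT (hv'.mono (erase_subset u _))]
        linarith
    have hcost : ε ^ 2 * (M ^ 2 + 1 / R * |M|) ≤ (1 / R + k) * k := by
      have h1 : 1 / R * k = 2 * ε ^ 2 * (|M| * |M| + 1 / R * |M|) := by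
        rw [hk]; field_simp
      rw [abs_mul_abs_self] at h1
      nlinarith [mul_nonneg hk0 hk0, mul_nonneg (sq_nonneg ε)
        (add_nonneg (mul_self_nonneg M) (mul_nonneg hb0.le (abs_nonneg M)))]
    have key := visit_ratio hb0 hk0 hle hM hcost hs hε
    have eF1 := S.F_eq (hw.mono hT) huT hD1.ne'
    rw [S.hc_sum (hw.mono hT) huT (hv'.mono (erase_subset u _)), sub_sub_cancel] at eF1
    unfold Res
    rw [child U subset_rfl hu ε, childm U subset_rfl hu, child _ hT huT ε, childm _ hT huT, eF,
      eF1]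
    change S.F w ((U.erase v).erase u) z * (b₁ + k - ε * M₁) /
        (S.F w (U.erase u) z * (1 / R + k - ε * M)) +
      S.F w ((U.erase v).erase u) z * (b₁ + k + ε * M₁) /
        (S.F w (U.erase u) z * (1 / R + k + ε * M)) ≤
      2 * (S.F w ((U.erase v).erase u) z * b₁ / (S.F w (U.erase u) z * (1 / R)))
    rw [mul_div_mul_comm, mul_div_mul_comm, mul_div_mul_comm, ← mul_add,
      mul_left_comm (2 : ℝ)]
    exact mul_le_mul_of_nonneg_left key (div_pos hD1 hD0).le

end Pre

/-- Block B, a visit. -/
theorem visitStatement : VisitStatement := by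
  intro V _ r S q U z u x ε hw h hu hx hx0 hε _ hsmall
  exact S.pre.visit hw h hu hx hx0 hε hsmall

end Vale.Agent.P078.Any
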