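import Vale.Agent.P078.Any.Chain
import Vale.Agent.P078.Any.Mismatch
import Vale.Agent.P078.Any.VisitSys

/-!
The scheme that analyses the rule on a finite window: the points are visited one after the other
at random slots, with shifts that keep all resolvent entries supermartingales.
-/

namespace Vale.Agent.P078.Any

open Finset Function

set_option linter.unusedSectionVars false

variable {V X : Type} [DecidableEq V] [Fintype X] [DecidableEq X] {r : ℕ}

/-- The data of the analysis. -/
structure Cfg (V X : Type) [DecidableEq V] (r : ℕ) where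
  /-- The system. -/
  S : Sys V r
  /-- The parameters of the rule. -/
  P : Par
  /-- The rule. -/
  rule : Rule V r
  /-- The cells of the seeds. -/
  cell : V → X
  /-- The centre of the window. -/
  v : V
  /-- The final radius. -/
  k₀ : ℕ
  /-- The number of slots. -/
  K : ℕ
  /-- The level of the pushes. -/
  Lam2 : ℝ
  /-- The absorbed part of a visit. -/
  α : ℝ
  /-- The constant of the quadratic gain. -/
  cA : ℝ
  /-- The factor of the repairs. -/
  cRep : ℝ
  /-- The factor of the linear shifts. -/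
  cLin : ℝ

/-- The operations of the scheme. -/
inductive Op (X : Type)
  | start (j : ℕ)
  | rise (j : ℕ)
  | visit (j t : ℕ) (x : X)
  | fin (j : ℕ)

/-- The states of the scheme. -/
structure St (V X : Type) (r : ℕ) where
  /-- The laws at the start of the round. -/
  q0 : V → Fin r → ℝ
  /-- The current laws. -/
  q : V → Fin r → ℝ
  /-- The coins found in this round, with their signs. -/
  seen : X → Option Bool
  /-- The current window. -/
  W : Finset V
  /-- The level. -/
  T : ℝ
  /-- The repairs. -/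
  kR : V → ℝ
  /-- The linear shifts. -/
  kL : V → ℝ
  /-- The pushes. -/
  kP : V → ℝ
  /-- The absorbed shifts of this round. -/
  ab : V → ℝ
  /-- Own shifts at the start of this round. -/
  start : V → ℝ
  /-- Linear shifts at the start of this round. -/
  startL : V → ℝ
  /-- Own shifts at the start of the last round. -/
  prev : V → ℝ
  /-- Linear shifts at the start of the last round. -/
  prevL : V → ℝ
  /-- A visit has happened in the current slot. -/
  dirty : Bool

/-- The shift of a point. -/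
def St.ktot (s : St V X r) (u : V) : ℝ := s.kR u + s.kL u + s.kP u

/-- The variables. -/
def St.z (s : St V X r) (u : V) : ℝ := s.T + s.ktot u + s.ab u

/-- The seed of a coin that was found or not. -/
def seedOf : Option Bool → Bool × Bool
  | some b => (true, b)
  | none => (false, false)

/-- The visits of the slots, each after a small rise. -/
noncomputable def slots (j : ℕ) : ℕ → ℕ → List (Op X)
  | _, 0 => []
  | t, n + 1 => .rise j :: ((univ : Finset X).toList.map (Op.visit j t) ++ slots j (t + 1) n)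

namespace Cfg

variable (C : Cfg V X r)

/-- The window of a round. -/
def win (j : ℕ) : Finset V := ball C.S.nb (C.k₀ + (C.P.m - j) * C.P.L) C.v

/-- The seeds of the points whose moves count in a round. -/
def mask (j : ℕ) (seen : X → Option Bool) (u : V) : Bool × Bool :=
  if u ∈ C.win (j + 1) then seedOf (seen (C.cell u)) else (false, false)

/-- A point that a visit moves. -/
def moved (j : ℕ) (x : X) (s : St V X r) (u : V) : Prop :=
  C.cell u = x ∧ u ∈ C.win (j + 1) ∧ u ∈ s.W ∧ (C.rule j s.q0 u).isSome = true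

instance (j : ℕ) (x : X) (s : St V X r) (u : V) : Decidable (C.moved j x s u) :=
  inferInstanceAs (Decidable (_ ∧ _ ∧ _ ∧ _))

/-- The resolvent entry of a point of the window. -/
noncomputable def RP (v : V) (s : St V X r) : ℝ :=
  if v ∈ s.W then C.S.Res s.q s.W s.z v else 0

/-- The base of a repair. -/
noncomputable def amt (s : St V X r) (u : V) : ℝ :=
  if s.dirty then C.Lam2
  else min (C.cA * C.P.g ^ 2 * (C.S.slope s.q s.W s.z u / (C.P.Lam + C.S.Res s.q s.W s.z u)))
    C.Lam2

/-- The largest shift of a neighbourhood. -/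
noncomputable def Kmax (s : St V X r) (u : V) : ℝ :=
  (ball C.S.nb C.P.L u).sup' ⟨u, self_mem_ball _ _ _⟩ s.ktot

/-- The shift that lowers a resolvent entry to the level of the pushes. -/
noncomputable def pushBy (s : St V X r) (u : V) : ℝ :=
  if u ∈ s.W then max 0 (1 / C.Lam2 - 1 / C.S.Res s.q s.W s.z u) else 0

/-- Push every resolvent entry below its level, at once. -/
noncomputable def push (s : St V X r) : St V X r :=
  { s with
    kP := fun u => s.kP u + C.pushBy s u
    W := s.W.filter fun u => s.ktot u + C.pushBy s u ≤ 1 / 2 }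

/-- A visit, before the pushes. -/
noncomputable def mid (j : ℕ) (x : X) (b : Bool) (s : St V X r) : St V X r :=
  let kR' := fun u => if C.moved j x s u then
    s.kR u + C.P.h * (C.cRep * (1 + C.Kmax s u / C.P.g) * C.amt s u) else s.kR u
  let kL' := fun u => if C.moved j x s u then
    s.kL u + C.P.h * (C.cLin * C.Kmax s u) else s.kL u
  { s with
    q := next C.P C.rule j s.q0 (C.mask j (update s.seen x (some b)))
    seen := update s.seen x (some b)
    kR := kR'
    kL := kL'
    ab := fun u => if C.moved j x s u then C.P.h * C.α else s.ab u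
    W := s.W.filter fun u => kR' u + kL' u + s.kP u ≤ 1 / 2
    dirty := true }

/-- A visit. -/
noncomputable def hit (j : ℕ) (x : X) (b : Bool) (s : St V X r) : St V X r :=
  C.push (C.mid j x b s)

/-- The hazard of a slot. -/
noncomputable def haz (t : ℕ) : ℝ := 1 / ((2 * C.K - t : ℕ) : ℝ)

/-- The state after an operation. -/
noncomputable def nx : Op X → St V X r → Fin 3 → St V X r
  | .start _, s, _ => { s with T := s.T + C.P.rise / 4, dirty := false }
  | .rise _, s, _ => { s with T := s.T + C.P.rise / (4 * C.K), dirty := false }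
  | .visit j _ x, s, i => if i = 1 then C.hit j x true s else if i = 2 then C.hit j x false s else s
  | .fin j, s, _ =>
    let q' := next C.P C.rule j s.q0 fun u => seedOf (s.seen (C.cell u))
    { s with
      q0 := q'
      q := q'
      seen := fun _ => none
      W := s.W ∩ C.win (j + 1)
      T := s.T + C.P.rise / 2
      ab := fun _ => 0
      start := fun u => s.kR u + s.kL u
      startL := s.kL
      prev := s.start
      prevL := s.startL
      dirty := false }

/-- The probabilities. -/
noncomputable def pr : Op X → St V X r → Fin 3 → ℝ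
  | .visit _ t x, s, i =>
    if s.seen x = none then (if i = 0 then 1 - C.haz t else C.haz t / 2)
    else if i = 0 then 1 else 0
  | _, _, i => if i = 0 then 1 else 0

theorem haz_nonneg (t : ℕ) : 0 ≤ C.haz t := by unfold haz; positivity

theorem haz_le_one (t : ℕ) : C.haz t ≤ 1 := by
  unfold haz
  rcases Nat.eq_zero_or_pos (2 * C.K - t) with h | h
  · simp [h]
  · rw [div_le_one (Nat.cast_pos.2 h)]
    exact_mod_cast h

/-- The scheme. -/
noncomputable def prog' : Prog (Op X) (St V X r) where
  p := C.pr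
  nx := C.nx
  p_nonneg := fun o s i => by
    cases o <;> simp only [pr] <;> split_ifs <;>
      linarith [C.haz_nonneg ‹_›, C.haz_le_one ‹_›]
  p_sum := fun o s => by
    cases o with
    | visit j t x =>
      simp only [pr]
      split_ifs <;> simp [Fin.sum_univ_three] <;> ring
    | _ => simp [pr]

/-- A round. -/
noncomputable def round (j : ℕ) : List (Op X) :=
  .start j :: (slots j 0 C.K ++ [.fin j])

/-- Some rounds, from a first one. -/
noncomputable def rounds : ℕ → ℕ → List (Op X)
  | _, 0 => []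
  | i, n + 1 => C.round i ++ rounds (i + 1) n

/-- The own shifts of one visit are at most this, divided by `h`. -/
noncomputable def J₀ : ℝ := C.cRep * (1 + 1 / C.P.g) * C.Lam2 + C.cLin

/-- What holds in the round `j`. -/
structure Base (j : ℕ) (s : St V X r) : Prop where
  law : ∀ U, LawOn s.q0 U
  q_eq : s.q = next C.P C.rule j s.q0 (C.mask j s.seen)
  sub : s.W ⊆ C.win j
  gone : ∀ u ∈ C.win j, u ∉ s.W → 1 / 2 < s.ktot u
  alive : ∀ u ∈ s.W, s.ktot u ≤ 1 / 2
  total : ∀ u, s.ktot u ≤ 1
  kR_nonneg : ∀ u, 0 ≤ s.kR u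
  kL_nonneg : ∀ u, 0 ≤ s.kL u
  kP_nonneg : ∀ u, 0 ≤ s.kP u
  ab_nonneg : ∀ u, 0 ≤ s.ab u
  ab_le : ∀ u, s.ab u ≤ C.P.h * C.α
  fresh : ∀ u, s.seen (C.cell u) = none →
    s.kR u + s.kL u ≤ s.start u ∧ s.kL u ≤ s.startL u ∧ s.ab u = 0
  own : ∀ u, s.kR u + s.kL u ≤ s.start u + C.P.h * C.J₀
  lin : ∀ u, s.kL u ≤ s.startL u + C.P.h * (C.cLin * C.Kmax s u)
  valid : C.S.Valid s.q s.W s.z
  res : ∀ u ∈ s.W, C.S.Res s.q s.W s.z u ≤ C.Lam2

/-- The numerical conditions. -/
structure OK (d : ℕ) (e₀ η : ℝ) : Prop where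
  deg : ∀ u, (C.S.nb u).card ≤ d
  rule : C.S.RuleOK C.P η C.rule
  loc : LocalityStatement
  inj : Set.InjOn C.cell (C.win 0)
  g_pos : 0 < C.P.g
  g_le : C.P.g ≤ 1 / 4
  Lam_le : 1 ≤ C.P.Lam
  Lam2_le : 4 ≤ C.Lam2
  T0_nonneg : 0 ≤ C.P.T0
  h_nonneg : 0 ≤ C.P.h
  h_le : C.P.h ≤ 1
  rise_nonneg : 0 ≤ C.P.rise
  top : C.P.T0 + C.P.m * C.P.rise ≤ 7 / 2
  rise_le : C.P.rise ≤ C.P.g
  absorb : C.P.h * C.α ≤ C.P.rise / 2
  loc_small : locErr C.P.g C.P.L * C.Lam2 ≤ C.P.Lam * C.P.g
  lip_small : lipErr (ballCard d C.P.L) C.P.g (Real.sqrt C.P.h) ≤ C.P.Lam * C.P.g / 4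
  lip_dom : ballCard d C.P.L * (Real.sqrt C.P.h * fBound (ballCard d C.P.L)) ≤
    (C.P.g / 4) ^ ballCard d C.P.L / 2
  sign_small : 9 * Real.sqrt C.P.h * C.Lam2 ≤ 1
  jump : C.P.h * C.J₀ ≤ 1 / 4
  K_pos : 0 < C.K
  e₀_pos : 0 < e₀
  α_eq : C.α = 700 * C.P.Lam * e₀ + 700 * C.P.Lam * (locErr C.P.g C.P.L * C.Lam2) +
    6500 * C.P.Lam ^ 2 * C.P.rise +
      26 * C.P.Lam * (lipErr (ballCard d C.P.L) C.P.g (Real.sqrt C.P.h) + η)
  α_nonneg : 0 ≤ C.α
  cA_eq : C.cA = (1 + 5 * C.P.Lam / e₀) * (32 * C.P.Lam)
  cRep_eq : C.cRep = 700 * C.P.Lam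
  cLin_eq : C.cLin = 6500 * C.P.Lam ^ 2

theorem ball_succ_mono (nb : V → Finset V) (n : ℕ) (u : V) :
    ball nb n u ⊆ ball nb (n + 1) u :=
  Finset.subset_union_left

theorem ball_mono (nb : V → Finset V) {a b : ℕ} (h : a ≤ b) (u : V) :
    ball nb a u ⊆ ball nb b u := by
  induction h with
  | refl => exact subset_rfl
  | step _ ih => exact ih.trans (ball_succ_mono nb _ u)

theorem ball_subset_ball (nb : V → Finset V) {a : ℕ} {u w : V} (h : u ∈ ball nb a w) :
    ∀ b, ball nb b u ⊆ ball nb (a + b) w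
  | 0 => by simpa [ball] using h
  | b + 1 => by
    have ih := ball_subset_ball nb h b
    exact Finset.union_subset_union ih (Finset.biUnion_subset_biUnion_of_subset_left _ ih)

theorem win_succ_subset (j : ℕ) : C.win (j + 1) ⊆ C.win j :=
  ball_mono _ (by gcongr; omega) _

theorem win_subset_zero (j : ℕ) : C.win j ⊆ C.win 0 :=
  ball_mono _ (by gcongr; omega) _

theorem ball_subset_win {j : ℕ} (hj : j < C.P.m) {u : V} (hu : u ∈ C.win (j + 1)) :
    ball C.S.nb C.P.L u ⊆ C.win j := by
  refine (ball_subset_ball _ hu _).trans (ball_mono _ (le_of_eq ?_) _)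
  have : C.P.m - j = (C.P.m - (j + 1)) + 1 := by omega
  rw [this, add_mul, one_mul, add_assoc]

variable {C} {d : ℕ} {e₀ η : ℝ} (hC : C.OK d e₀ η)

include hC

theorem sign_le : Real.sqrt C.P.h ≤ 1 := Real.sqrt_le_one.2 hC.h_le

theorem law_next (j : ℕ) {q : V → Fin r → ℝ} (hq : ∀ U, LawOn q U) (σ : V → Bool × Bool)
    (U : Finset V) : LawOn (next C.P C.rule j q σ) U := by
  intro u hu
  have hu' := hq U u hu
  unfold next
  cases hr : C.rule j q u with
  | none => simpa using hu'
  | some x =>
    obtain ⟨hx, hx0, -, -⟩ := ((hC.rule j q hq u).1 x hr).2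
    split_ifs with hσ
    · refine ⟨fun c => mul_nonneg (hu'.1 c) ?_, ?_⟩
      · have : |sgn (σ u).2 * Real.sqrt C.P.h * x c| ≤ 1 := by
          rw [abs_mul, abs_mul, abs_of_nonneg (Real.sqrt_nonneg _),
            show |sgn (σ u).2| = 1 by unfold sgn; split_ifs <;> simp, one_mul]
          exact mul_le_one₀ (sign_le hC) (abs_nonneg _) (hx c)
        linarith [(abs_le.1 this).1]
      · simp only [mul_add, mul_one, Finset.sum_add_distrib, hu'.2, mul_left_comm (q u _),
          ← Finset.mul_sum, hx0, mul_zero, add_zero]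
    · exact hu'

theorem dist_next (j : ℕ) {q : V → Fin r → ℝ} (hq : ∀ U, LawOn q U) (σ : V → Bool × Bool)
    (u : V) : ∑ c, |next C.P C.rule j q σ u c - q u c| ≤ Real.sqrt C.P.h := by
  have hu' := hq {u} u (Finset.mem_singleton_self u)
  unfold next
  cases hr : C.rule j q u with
  | none => simp [Real.sqrt_nonneg]
  | some x =>
    obtain ⟨hx, -, -, -⟩ := ((hC.rule j q hq u).1 x hr).2
    split_ifs with hσ
    · refine le_trans (Finset.sum_le_sum (g := fun c => q u c * Real.sqrt C.P.h) fun c _ => ?_) ?_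
      · dsimp only
        rw [mul_add, mul_one, add_sub_cancel_left, abs_mul, abs_mul, abs_mul,
          abs_of_nonneg (hu'.1 c), abs_of_nonneg (Real.sqrt_nonneg _),
          show |sgn (σ u).2| = 1 by unfold sgn; split_ifs <;> simp, one_mul]
        exact mul_le_mul_of_nonneg_left (mul_le_of_le_one_right (Real.sqrt_nonneg _) (hx c))
          (hu'.1 c)
      · rw [← Finset.sum_mul, hu'.2, one_mul]
    · simp [Real.sqrt_nonneg]

theorem RP_nonneg {j : ℕ} {s : St V X r} (hs : C.Base j s) (v : V) : 0 ≤ C.RP v s := by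
  unfold RP
  split_ifs with h
  · exact (res_pos (hs.q_eq ▸ law_next hC j hs.law _ _) hs.valid h).le
  · exact le_rfl

theorem Kmax_nonneg {j : ℕ} {s : St V X r} (hs : C.Base j s) (u : V) : 0 ≤ C.Kmax s u :=
  (add_nonneg (add_nonneg (hs.kR_nonneg u) (hs.kL_nonneg u)) (hs.kP_nonneg u)).trans
    (Finset.le_sup' s.ktot (self_mem_ball _ _ _))

theorem Kmax_le_one {j : ℕ} {s : St V X r} (hs : C.Base j s) (u : V) : C.Kmax s u ≤ 1 :=
  Finset.sup'_le _ _ fun v _ => hs.total v

theorem amt_nonneg {j : ℕ} {s : St V X r} (hs : C.Base j s) {u : V} (hu : u ∈ s.W) :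
    0 ≤ C.amt s u ∧ C.amt s u ≤ C.Lam2 := by
  have hL : 0 ≤ C.Lam2 := by linarith [hC.Lam2_le]
  unfold amt
  split_ifs
  · exact ⟨hL, le_rfl⟩
  · refine ⟨le_min ?_ hL, min_le_right _ _⟩
    have hw : LawOn s.q s.W := hs.q_eq ▸ law_next hC j hs.law _ _
    have h1 := slope_nonneg hw hs.valid hu
    have h2 := res_pos hw hs.valid hu
    have := hC.Lam_le
    have := hC.e₀_pos
    rw [hC.cA_eq]
    positivity

end Cfg

end Vale.Agent.P078.Any
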