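import Vale.Agent.P078.Any.Hit

/-!
The invariant of the scheme along a program of rounds.
-/

namespace Vale.Agent.P078.Any

open Finset Function

set_option linter.unusedSectionVars false

variable {V X : Type} [DecidableEq V] [Fintype X] [DecidableEq X] {r : ℕ}

theorem mask_none (C : Cfg V X r) (j : ℕ) (q : V → Fin r → ℝ) :
    next C.P C.rule j q (C.mask j fun _ => none) = q := by
  funext u c
  simp [next, Cfg.mask, seedOf]

namespace Cfg

variable (C : Cfg V X r)

/-- What holds at the start of a round. -/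
structure AtStart (i : ℕ) (s : St V X r) : Prop where
  base : C.Base i s
  seen : s.seen = fun _ => none
  level : s.T = C.P.T0 + i * C.P.rise
  prev : ∀ u, s.kR u + s.kL u ≤ s.prev u + C.P.h * C.J₀
  prevL : ∀ u, s.kL u ≤ s.prevL u + C.P.h * (C.cLin * C.Kmax s u)
  prev_nonneg : ∀ u, 0 ≤ s.prev u ∧ 0 ≤ s.prevL u
  start_eq : ∀ u, s.start u = s.kR u + s.kL u ∧ s.startL u = s.kL u

/-- What holds inside a round, with `n` slots left. -/
structure InRound (j n : ℕ) (s : St V X r) : Prop where
  base : C.Base j s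
  lt : j < C.P.m
  level : s.T + n * (C.P.rise / (4 * C.K)) = C.P.level j + C.P.rise / 4
  slots : n ≤ C.K
  start_nonneg : ∀ u, 0 ≤ s.start u ∧ 0 ≤ s.startL u

/-- The invariant, for programs that end after `M` rounds. -/
def Inv (M : ℕ) (l : List (Op X)) (s : St V X r) : Prop :=
  M ≤ C.P.m ∧
    ((∃ i n, i + n = M ∧ l = C.rounds i n ∧ C.AtStart i s) ∨
      ∃ j n' cs t a n, j + 1 + n' = M ∧ a + n = C.K ∧ (cs ≠ [] → t < C.K) ∧ cs.Nodup ∧
        l = List.map (Op.visit j t) cs ++ (slots j a n ++ Op.fin j :: C.rounds (j + 1) n') ∧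
        C.InRound j n s)

theorem InRound.inLevel {j n : ℕ} {s : St V X r} {d : ℕ} {e₀ η : ℝ} (hC : C.OK d e₀ η)
    (h : C.InRound j n s) : C.InLevel j s := by
  have hK : (0 : ℝ) < C.K := Nat.cast_pos.2 hC.K_pos
  have hn : (n : ℝ) ≤ C.K := Nat.cast_le.2 h.slots
  have h1 : (n : ℝ) * (C.P.rise / (4 * C.K)) ≤ C.P.rise / 4 := by
    calc (n : ℝ) * (C.P.rise / (4 * C.K)) ≤ C.K * (C.P.rise / (4 * C.K)) :=
          mul_le_mul_of_nonneg_right hn (div_nonneg hC.rise_nonneg (by positivity))
      _ = C.P.rise / 4 := by field_simp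
  have h2 : 0 ≤ (n : ℝ) * (C.P.rise / (4 * C.K)) :=
    mul_nonneg (Nat.cast_nonneg n) (div_nonneg hC.rise_nonneg (by positivity))
  exact ⟨h.lt, by linarith [h.level], by linarith [h.level]⟩

variable {C} {d : ℕ} {e₀ η : ℝ} (hC : C.OK d e₀ η)

include hC

theorem base_raise {j : ℕ} {s : St V X r} (hs : C.Base j s) {τ : ℝ} (hτ : 0 ≤ τ) :
    C.Base j { s with T := s.T + τ, dirty := false } := by
  set s' : St V X r := { s with T := s.T + τ, dirty := false }
  have hl : LawOn s.q s.W := hs.q_eq ▸ law_next hC j hs.law _ _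
  have hz : ∀ u ∈ s.W, s.z u ≤ s'.z u := fun u _ => by
    simp only [s', St.z, St.ktot]; linarith
  have hV : C.S.Valid s'.q s'.W s'.z := C.S.facts.valid_mono hl hs.valid hz
  exact ⟨hs.law, hs.q_eq, hs.sub, hs.gone, hs.alive, hs.total, hs.kR_nonneg, hs.kL_nonneg,
    hs.kP_nonneg, hs.ab_nonneg, hs.ab_le, hs.fresh, hs.own, hs.lin, hV,
    fun u hu => (C.S.facts.res_anti hl hs.valid hz hu).trans (hs.res u hu)⟩

/-- At the end of a round the laws of the remaining window do not change. -/
theorem fin_q_eq {j : ℕ} {s : St V X r} (hs : C.Base j s) (i : Fin 3) {u : V}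
    (hu : u ∈ C.win (j + 1)) : (C.nx (.fin j) s i).q u = s.q u := by
  rw [hs.q_eq]
  simp only [nx]
  funext c
  simp [next, mask, hu]

theorem fin_z_le {j : ℕ} {s : St V X r} (hs : C.Base j s) (i : Fin 3) (u : V) :
    s.z u ≤ (C.nx (.fin j) s i).z u := by
  simp only [nx, St.z, St.ktot]
  linarith [hs.ab_le u, hC.absorb]

/-- The end of a round lowers all resolvent entries. -/
theorem fin_res_le {j : ℕ} {s : St V X r} (hs : C.Base j s) (i : Fin 3) :
    C.S.Valid (C.nx (.fin j) s i).q (C.nx (.fin j) s i).W (C.nx (.fin j) s i).z ∧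
      ∀ u ∈ (C.nx (.fin j) s i).W,
        C.S.Res (C.nx (.fin j) s i).q (C.nx (.fin j) s i).W (C.nx (.fin j) s i).z u ≤
          C.S.Res s.q s.W s.z u := by
  set s' := C.nx (.fin j) s i with hs'
  have hsub : s'.W ⊆ s.W := Finset.inter_subset_left
  have hl : LawOn s.q s.W := hs.q_eq ▸ law_next hC j hs.law _ _
  have hz : ∀ u ∈ s.W, s.z u ≤ s'.z u := fun u _ => fin_z_le hC hs i u
  have hV := C.S.facts.valid_mono hl hs.valid hz
  have hq : ∀ u ∈ s'.W, s'.q u = s.q u := fun u hu =>
    fin_q_eq hC hs i (Finset.mem_inter.1 hu).2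
  have hF : ∀ T ⊆ s'.W, C.S.F s'.q T s'.z = C.S.F s.q T s'.z := fun T hT =>
    C.S.congr _ _ _ _ _ (fun u hu => hq u (hT hu)) fun _ _ => rfl
  refine ⟨fun T hT => by rw [hF T hT]; exact hV T (hT.trans hsub), fun u hu => ?_⟩
  rw [Sys.Res, hF _ (Finset.erase_subset _ _), hF _ subset_rfl]
  exact (C.S.facts.res_window hl hV hsub hu).trans
    (C.S.facts.res_anti hl hs.valid hz (hsub hu))

theorem fin_base {j : ℕ} {s : St V X r} (hs : C.Base j s) (i : Fin 3) :
    C.Base (j + 1) (C.nx (.fin j) s i) := by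
  obtain ⟨hV, hres⟩ := fin_res_le hC hs i
  have hJ : 0 ≤ C.P.h * C.J₀ := by
    have := hC.h_nonneg
    have := hC.g_pos
    have := hC.Lam_le
    have := hC.Lam2_le
    unfold J₀
    rw [hC.cRep_eq, hC.cLin_eq]
    positivity
  have hlin : ∀ (u : V) (s' : St V X r), C.Base j s → s'.ktot = s.ktot →
      0 ≤ C.P.h * (C.cLin * C.Kmax s' u) := fun u s' hb e => by
    have h1 : C.Kmax s' u = C.Kmax s u := by unfold Kmax; simp only [e]
    have := hC.h_nonneg
    have := Kmax_nonneg hC hb u
    rw [h1, hC.cLin_eq]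
    positivity
  refine ⟨fun U => law_next hC j hs.law _ U, (mask_none C _ _).symm,
    Finset.inter_subset_right, fun u hu hnot => ?_, fun u hu => hs.alive u (Finset.mem_inter.1 hu).1,
    hs.total, hs.kR_nonneg, hs.kL_nonneg, hs.kP_nonneg, fun u => le_rfl,
    fun u => mul_nonneg hC.h_nonneg hC.α_nonneg, fun u _ => ⟨le_rfl, le_rfl, rfl⟩,
    fun u => le_add_of_nonneg_right hJ,
    fun u => le_add_of_nonneg_right (hlin u _ hs rfl), hV,
    fun u hu => (hres u hu).trans (hs.res u (Finset.mem_inter.1 hu).1)⟩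
  refine hs.gone u (C.win_succ_subset j hu) fun h => hnot (Finset.mem_inter.2 ⟨h, hu⟩)

/-- The invariant is kept. -/
theorem stable {M : ℕ} : C.prog'.Stable (C.Inv M) := by
  intro o l s i hI hi
  obtain ⟨hM, h⟩ := hI
  refine ⟨hM, ?_⟩
  rcases h with ⟨i₀, n, hin, hl, hs⟩ | ⟨j, n', cs, t, a, n, hjn, han, hcs, hnd, hl, hs⟩
  · cases n with
    | zero => simp [rounds] at hl
    | succ n =>
      simp only [rounds, round, List.cons_append, List.append_assoc, List.nil_append,
        List.cons.injEq] at hl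
      obtain ⟨rfl, rfl⟩ := hl
      refine Or.inr ⟨i₀, n, [], 0, 0, C.K, by omega, by omega, fun h => absurd rfl h,
        List.nodup_nil, rfl, base_raise hC hs.base (by linarith [hC.rise_nonneg]), by omega, ?_,
        le_rfl, fun u => ?_⟩
      · show s.T + C.P.rise / 4 + (C.K : ℝ) * (C.P.rise / (4 * C.K)) = _
        have hK : (C.K : ℝ) ≠ 0 := (Nat.cast_pos.2 hC.K_pos).ne'
        rw [hs.level, Par.level]
        field_simp
      · show 0 ≤ s.start u ∧ 0 ≤ s.startL u
        rw [(hs.start_eq u).1, (hs.start_eq u).2]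
        exact ⟨add_nonneg (hs.base.kR_nonneg u) (hs.base.kL_nonneg u), hs.base.kL_nonneg u⟩
  · cases cs with
    | cons x cs =>
      simp only [List.map_cons, List.cons_append, List.cons.injEq] at hl
      obtain ⟨rfl, rfl⟩ := hl
      refine Or.inr ⟨j, n', cs, t, a, n, hjn, han, fun _ => hcs (by simp),
        (List.nodup_cons.1 hnd).2, rfl, ?_⟩
      simp only [prog', nx]
      by_cases hx : s.seen x = none
      · split_ifs
        · exact ⟨hit_base hC hs.base (hs.inLevel C hC) hx true, hs.lt, hs.level, hs.slots,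
            hs.start_nonneg⟩
        · exact ⟨hit_base hC hs.base (hs.inLevel C hC) hx false, hs.lt, hs.level, hs.slots,
            hs.start_nonneg⟩
        · exact hs
      · simp only [prog', pr, if_neg hx] at hi
        split_ifs at hi with h
        · subst h; simpa using hs
        · exact absurd hi (lt_irrefl 0)
    | nil =>
      cases n with
      | succ n =>
        simp only [List.map_nil, List.nil_append, slots, List.cons_append, List.append_assoc,
          List.cons.injEq] at hl
        obtain ⟨rfl, rfl⟩ := hl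
        refine Or.inr ⟨j, n', (univ : Finset X).toList, a, a + 1, n, hjn, by omega,
          fun _ => by omega, Finset.nodup_toList _, rfl,
          base_raise hC hs.base (div_nonneg hC.rise_nonneg (by positivity)), hs.lt, ?_,
          (Nat.le_succ n).trans hs.slots, hs.start_nonneg⟩
        have := hs.level
        show s.T + C.P.rise / (4 * C.K) + (n : ℝ) * (C.P.rise / (4 * C.K)) = _
        push_cast at this
        linarith
      | zero =>
        simp only [List.map_nil, List.nil_append, slots, List.cons.injEq] at hl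
        obtain ⟨rfl, rfl⟩ := hl
        have hb := fin_base hC hs.base i
        refine Or.inl ⟨j + 1, n', hjn, rfl, hb, rfl, ?_, fun u => hs.base.own u,
          fun u => hs.base.lin u, hs.start_nonneg, fun u => ⟨rfl, rfl⟩⟩
        have := hs.level
        show s.T + C.P.rise / 2 = _
        simp only [Nat.cast_zero, zero_mul, add_zero] at this
        rw [this, Par.level]
        push_cast
        ring

end Cfg

end Vale.Agent.P078.Any
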