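import Vale.Agent.P078.Any.Rep
import Vale.Agent.P078.Any.State

/-!
The split of an element along the normaliser algebra for a state centralised by the MASA: a
self-adjoint `x` is a two-norm limit of bounded self-adjoint sums `∑ a * u` plus an element with
`E(u* y) = 0` for all normalisers `u`.
-/

namespace Vale.Agent.P078.Any

open scoped InnerProductSpace ComplexOrder
open ContinuousLinearMap Filter Topology Cartan

variable {H : Type} [NormedAddCommGroup H] [InnerProductSpace ℂ H] [CompleteSpace H]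
variable {M : VonNeumannAlgebra H} {A : StarSubalgebra ℂ (H →L[ℂ] H)} {ι : Type} {η : ι → H}

/-- `y` is orthogonal, in the sense of the expectation, to all normalisers. -/
def Orth (M : VonNeumannAlgebra H) (A : StarSubalgebra ℂ (H →L[ℂ] H)) (y : H →L[ℂ] H) : Prop :=
  ∀ u, IsNormaliser M A u → expect A (star u * y) = 0

/-- The sums `∑ u * a` over a set of normalisers. -/
def spanR (A : StarSubalgebra ℂ (H →L[ℂ] H)) (s : Set (H →L[ℂ] H)) :
    Submodule ℂ (H →L[ℂ] H) :=
  Submodule.span ℂ {y | ∃ u ∈ s, ∃ a ∈ A, y = u * a}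

theorem spanR_le {s : Finset (H →L[ℂ] H)} (hs : ∀ u ∈ s, IsNormaliser M A u)
    {x : H →L[ℂ] H} (hx : x ∈ spanR A (s : Set (H →L[ℂ] H))) : x ∈ spanN M A := by
  refine Submodule.span_le.2 ?_ hx
  rintro _ ⟨u, hu, a, ha, rfl⟩
  rw [(hs u hu).push' a]
  exact mem_spanN ((hs u hu).conj_mem' a ha) (hs u hu)

theorem exists_finset_spanR {x : H →L[ℂ] H} (hx : x ∈ spanN M A) :
    ∃ s : Finset (H →L[ℂ] H), (∀ u ∈ s, IsNormaliser M A u) ∧
      x ∈ spanR A (s : Set (H →L[ℂ] H)) := by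
  classical
  have mono : ∀ {s t : Finset (H →L[ℂ] H)}, s ⊆ t →
      spanR A (s : Set (H →L[ℂ] H)) ≤ spanR A (t : Set (H →L[ℂ] H)) := fun hst =>
    Submodule.span_mono fun y ⟨u, hu, a, ha, e⟩ => ⟨u, Finset.coe_subset.2 hst hu, a, ha, e⟩
  induction hx using Submodule.span_induction with
  | mem y hy =>
    obtain ⟨a, ha, u, hu, rfl⟩ := hy
    refine ⟨{u}, fun v hv => Finset.mem_singleton.1 hv ▸ hu, ?_⟩
    rw [hu.push a]
    exact Submodule.subset_span ⟨u, by simp, _, hu.conj_mem a ha, rfl⟩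
  | zero => exact ⟨∅, by simp, zero_mem _⟩
  | add y z _ _ hy hz =>
    obtain ⟨s, hs, hy⟩ := hy
    obtain ⟨t, ht, hz⟩ := hz
    refine ⟨s ∪ t, fun u hu => ?_, add_mem (mono Finset.subset_union_left hy)
      (mono Finset.subset_union_right hz)⟩
    rcases Finset.mem_union.1 hu with h1 | h1
    exacts [hs u h1, ht u h1]
  | smul c y _ hy =>
    obtain ⟨s, hs, hy⟩ := hy
    exact ⟨s, hs, Submodule.smul_mem _ c hy⟩

/-- Common complement of finitely many projections of the MASA. -/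
theorem exists_common_compl (hA : IsMasa M A) (s : Finset (H →L[ℂ] H))
    (p : (H →L[ℂ] H) → H →L[ℂ] H) (hpA : ∀ i ∈ s, p i ∈ A)
    (hp : ∀ i ∈ s, IsStarProjection (p i)) :
    ∃ q ∈ A, (∀ i ∈ s, p i * q = 0) ∧
      ∀ c ∈ A, (∀ i ∈ s, p i * c = 0) → q * c = c := by
  classical
  induction s using Finset.induction_on with
  | empty => exact ⟨1, one_mem A, by simp, fun c _ _ => one_mul c⟩
  | insert i t hit ih =>
    obtain ⟨q, hq, hq0, hq1⟩ := ih (fun j hj => hpA j (Finset.mem_insert_of_mem hj))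
      fun j hj => hp j (Finset.mem_insert_of_mem hj)
    have hiA := hpA i (Finset.mem_insert_self i t)
    refine ⟨(1 - p i) * q, mul_mem (sub_mem (one_mem A) hiA) hq, fun j hj => ?_,
      fun c hc h0 => ?_⟩
    · rcases Finset.mem_insert.1 hj with rfl | hj
      · rw [← mul_assoc, mul_sub, mul_one,
          (hp j (Finset.mem_insert_self j t)).isIdempotentElem.eq, sub_self, zero_mul]
      · rw [hA.comm _ (sub_mem (one_mem A) hiA) q hq, ← mul_assoc, hq0 j hj, zero_mul]
    · rw [mul_assoc, hq1 c hc fun j hj => h0 j (Finset.mem_insert_of_mem hj), sub_mul, one_mul,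
        h0 i (Finset.mem_insert_self i t), sub_zero]

namespace IsState

variable (h : IsState M A η)

include h in
/-- The best approximation on finitely many normalisers. -/
theorem exists_coef (hA : IsMasa M A) {x : H →L[ℂ] H} (hx : x ∈ M) (s : Finset (H →L[ℂ] H))
    (hs : ∀ u ∈ s, IsNormaliser M A u) :
    ∃ k ∈ spanR A (s : Set (H →L[ℂ] H)), ∀ u ∈ s, expect A (star u * (x - k)) = 0 := by
  classical
  have := hA.abelianClosed
  induction s using Finset.induction_on with
  | empty => exact ⟨0, zero_mem _, by simp⟩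
  | insert u t hut ih =>
    have hu := hs u (Finset.mem_insert_self u t)
    have ht : ∀ i ∈ t, IsNormaliser M A i := fun i hi => hs i (Finset.mem_insert_of_mem hi)
    obtain ⟨k, hk, hk0⟩ := ih ht
    have hkM : k ∈ M := spanN_le hA (spanR_le ht hk)
    obtain ⟨d, hd⟩ : ∃ d, d = x - k := ⟨_, rfl⟩
    have hdM : d ∈ M := hd ▸ sub_mem hx hkM
    obtain ⟨c, hc⟩ : ∃ c, c = expect A (star u * d) := ⟨_, rfl⟩
    have hcA : c ∈ A := hc ▸ expect_mem hA (mul_mem (star_mem hu.mem) hdM)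
    have hpiece : ∀ i : H →L[ℂ] H, ∃ p : H →L[ℂ] H, i ∈ t → p ∈ A ∧ IsStarProjection p ∧
        star i * u * p ∈ A ∧ expect A (star i * u) = star i * u * p := by
      intro i
      by_cases hi : i ∈ t
      · obtain ⟨p, h1, h2, h3, -, h5⟩ := exists_fixed_piece hA ((ht i hi).star'.mul hu)
        exact ⟨p, fun _ => ⟨h1, h2, h3, h5⟩⟩
      · exact ⟨0, fun h' => absurd h' hi⟩
    choose p hp using hpiece
    obtain ⟨q, hqA, hq0, hq1⟩ := exists_common_compl hA t p (fun i hi => (hp i hi).1)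
      fun i hi => (hp i hi).2.1
    have hqc : q * c = c := hq1 c hcA fun i hi => by
      obtain ⟨hpA, hpp, hvA, hvE⟩ := hp i hi
      have hi' := ht i hi
      have e : p i * star u = star (expect A (star i * u)) * star i := by
        rw [hvE, star_mul, star_mul, star_star, hpp.isSelfAdjoint.star_eq, mul_assoc (p i),
          mul_assoc (star u), hi'.mul_star, mul_one]
      rw [hc, ← expect_mul_left hA hpA, ← mul_assoc, e, mul_assoc,
        expect_mul_left hA (star_mem (expect_mem hA (mul_mem (star_mem hi'.mem) hu.mem))), hd,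
        hk0 i hi, mul_zero]
    have hsub : spanR A (t : Set (H →L[ℂ] H)) ≤ spanR A ((insert u t : Finset _) : Set _) :=
      Submodule.span_mono fun y ⟨i, hi, a, ha, e⟩ =>
        ⟨i, Finset.coe_subset.2 (Finset.subset_insert u t) hi, a, ha, e⟩
    refine ⟨k + u * (q * c), add_mem (hsub hk)
      (Submodule.subset_span ⟨u, by simp, _, mul_mem hqA hcA, rfl⟩), fun i hi => ?_⟩
    rw [← sub_sub, ← hd, mul_sub, expect_sub, ← mul_assoc (star i),
      expect_mul_right hA (mul_mem hqA hcA)]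
    rcases Finset.mem_insert.1 hi with rfl | hi
    · rw [← hc, hu.star_mul, expect_one, one_mul, hqc, sub_self]
    · obtain ⟨hpA, hpp, hvA, hvE⟩ := hp i hi
      rw [hvE, ← mul_assoc, mul_assoc (star i * u) (p i), hq0 i hi, mul_zero, zero_mul, sub_zero,
        hd]
      exact hk0 i hi

theorem inner_V_eq_zero (hA : IsMasa M A) {s : Finset (H →L[ℂ] H)}
    (hs : ∀ u ∈ s, IsNormaliser M A u) {y : H →L[ℂ] H} (hy : y ∈ M)
    (h0 : ∀ u ∈ s, expect A (star u * y) = 0) {n : H →L[ℂ] H}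
    (hn : n ∈ spanR A (s : Set (H →L[ℂ] H))) : ⟪h.V n, h.V y⟫_ℂ = 0 := by
  induction hn using Submodule.span_induction with
  | mem z hz =>
    obtain ⟨u, hu, a, ha, rfl⟩ := hz
    rw [← h.phi_star_mul, star_mul, mul_assoc,
      ← h.phi_mul_expect hA (star_mem ha) (mul_mem (star_mem (hs u hu).mem) hy), h0 u hu]
    simp [phi]
  | zero => simp
  | add a b _ _ h1 h2 => rw [map_add, inner_add_left, h1, h2, add_zero]
  | smul c a _ h1 => rw [map_smul, inner_smul_left, h1, mul_zero]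

theorem orth_inner (hA : IsMasa M A) {y : H →L[ℂ] H} (hy : y ∈ M) (h0 : Orth M A y)
    {n : H →L[ℂ] H} (hn : n ∈ spanN M A) : ⟪h.V n, h.V y⟫_ℂ = 0 := by
  obtain ⟨s, hs, hns⟩ := exists_finset_spanR hn
  exact h.inner_V_eq_zero hA hs hy (fun u hu => h0 u (hs u hu)) hns

include h in
theorem orth_of_inner (hA : IsMasa M A) {y : H →L[ℂ] H} (hy : y ∈ M)
    (h0 : ∀ n ∈ spanN M A, ⟪h.V n, h.V y⟫_ℂ = 0) : Orth M A y := by
  intro u hu
  obtain ⟨b, hb⟩ : ∃ b, b = expect A (star u * y) := ⟨_, rfl⟩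
  have hm := mul_mem (star_mem hu.mem) hy
  have hbA : b ∈ A := hb ▸ expect_mem hA hm
  rw [← hb]
  refine h.eq_zero_of_phi (hA.le b hbA) ?_
  have := h0 (u * b) (by rw [hu.push' b]; exact mem_spanN (hu.conj_mem' b hbA) hu)
  rw [← h.phi_star_mul, star_mul, mul_assoc, ← h.phi_mul_expect hA (star_mem hbA) hm, ← hb]
    at this
  exact this

include h in
theorem expect_mul_star_eq_zero (hA : IsMasa M A) {u : H →L[ℂ] H} (hu : IsNormaliser M A u)
    {y : H →L[ℂ] H} (hy : y ∈ M) (h0 : expect A (star u * y) = 0) :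
    expect A (u * star y) = 0 := by
  have e := h.expect_conj hA hu.star' (mul_mem (star_mem hu.mem) hy)
  rw [star_star, h0, mul_zero, zero_mul, ← mul_assoc, hu.mul_star, one_mul] at e
  rw [← star_star u, ← star_mul, expect_star, e, star_zero]

include h in
theorem orth_star (hA : IsMasa M A) {y : H →L[ℂ] H} (hy : y ∈ M) (h0 : Orth M A y) :
    Orth M A (star y) := fun u hu =>
  h.expect_mul_star_eq_zero hA hu.star' hy (h0 _ hu.star')

/-- The closure of the normaliser sums. -/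
noncomputable def spanK : Submodule ℂ (lp (fun _ : ι => H) 2) :=
  ((spanN M A).map h.V).topologicalClosure

instance spanK_complete : CompleteSpace h.spanK :=
  (Submodule.isClosed_topologicalClosure _).completeSpace_coe

theorem V_mem_spanK {n : H →L[ℂ] H} (hn : n ∈ spanN M A) : h.V n ∈ h.spanK :=
  Submodule.le_topologicalClosure _ ⟨n, hn, rfl⟩

theorem diagMul_mem_spanK {n : H →L[ℂ] H} (hn : n ∈ spanN M A)
    {v : lp (fun _ : ι => H) 2} (hv : v ∈ h.spanK) : diagMul n v ∈ h.spanK := by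
  refine map_mem_closure (diagMul n).continuous (show v ∈ closure _ from hv) ?_
  rintro _ ⟨m, hm, rfl⟩
  exact ⟨n * m, mul_mem_spanN hn hm, rfl⟩

/-- Left multiplication compressed to the closure of the sums. -/
noncomputable def compL : (H →L[ℂ] H) →ₗ[ℂ] (h.spanK →L[ℂ] h.spanK) where
  toFun x := comp0 h.spanK (diagMul x)
  map_add' x y := by
    ext1 v
    have e : diagMul (ι := ι) (x + y) = diagMul x + diagMul y := by ext f i; rfl
    simp [comp0, e]
  map_smul' c x := by
    ext1 v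
    have e : diagMul (ι := ι) (c • x) = c • diagMul x := by ext f i; rfl
    simp [comp0, e]

theorem compL_apply (x : H →L[ℂ] H) (v : h.spanK) :
    (h.compL x v : lp (fun _ : ι => H) 2) = h.spanK.starProjection (diagMul x v) := rfl

theorem compL_apply_of_mem {n : H →L[ℂ] H} (hn : n ∈ spanN M A) (v : h.spanK) :
    (h.compL n v : lp (fun _ : ι => H) 2) = diagMul n v := by
  rw [compL_apply, Submodule.starProjection_eq_self_iff]
  exact h.diagMul_mem_spanK hn v.2

theorem compL_star (x : H →L[ℂ] H) : h.compL (star x) = star (h.compL x) := by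
  refine (ContinuousLinearMap.eq_adjoint_iff _ _).2 fun v w => ?_
  rw [Submodule.coe_inner, Submodule.coe_inner, compL_apply, compL_apply,
    Submodule.inner_starProjection_left_eq_right,
    Submodule.starProjection_eq_self_iff.2 w.2, ← Submodule.inner_starProjection_left_eq_right,
    Submodule.starProjection_eq_self_iff.2 v.2, diagMul_inner x]

theorem compL_mul (x : H →L[ℂ] H) {n : H →L[ℂ] H} (hn : n ∈ spanN M A) :
    h.compL (x * n) = h.compL x * h.compL n := by
  ext1 v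
  refine Subtype.ext ?_
  rw [mul_apply', compL_apply, compL_apply, h.compL_apply_of_mem hn]
  rfl

theorem compL_one : h.compL 1 = 1 := by
  ext1 v
  refine Subtype.ext ?_
  rw [h.compL_apply_of_mem one_mem_spanN]
  rfl

theorem norm_compL_le (x : H →L[ℂ] H) : ‖h.compL x‖ ≤ ‖x‖ :=
  (norm_comp0_le _ _).trans (LinearMap.mkContinuous_norm_le _ (norm_nonneg x) _)

/-- The vector of `1`. -/
noncomputable def vecOne : h.spanK := ⟨h.V 1, h.V_mem_spanK one_mem_spanN⟩

theorem compL_vecOne (x : H →L[ℂ] H) :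
    (h.compL x h.vecOne : lp (fun _ : ι => H) 2) = h.spanK.starProjection (h.V x) := by
  rw [compL_apply]
  show h.spanK.starProjection (diagMul x (h.V 1)) = _
  rw [diagMul_V, mul_one]

theorem compL_vecOne_of_mem {n : H →L[ℂ] H} (hn : n ∈ spanN M A) :
    (h.compL n h.vecOne : lp (fun _ : ι => H) 2) = h.V n := by
  rw [compL_vecOne, Submodule.starProjection_eq_self_iff.2 (h.V_mem_spanK hn)]

/-- One normaliser sum approximates an element and its adjoint. -/
theorem graph_near (hA : IsMasa M A) {x : H →L[ℂ] H} (hx : x ∈ M) {γ : ℝ} (hγ : 0 < γ) :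
    ∃ k ∈ spanN M A, ‖h.compL k h.vecOne - h.compL x h.vecOne‖ ≤ γ ∧
      ‖h.compL (star k) h.vecOne - h.compL (star x) h.vecOne‖ ≤ γ := by
  classical
  have hget : ∀ y : H →L[ℂ] H, ∃ n ∈ spanN M A,
      ‖h.V n - h.spanK.starProjection (h.V y)‖ ≤ γ := fun y => by
    obtain ⟨_, ⟨n, hn, rfl⟩, hd⟩ := Metric.mem_closure_iff.1
      (show h.spanK.starProjection (h.V y) ∈ closure ((spanN M A).map h.V : Set _) from
        Submodule.starProjection_apply_mem h.spanK (h.V y)) γ hγ
    exact ⟨n, hn, by rw [norm_sub_rev, ← dist_eq_norm]; exact hd.le⟩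
  obtain ⟨n, hn, hnγ⟩ := hget x
  obtain ⟨m, hm, hmγ⟩ := hget (star x)
  obtain ⟨s₁, hs₁, hns⟩ := exists_finset_spanR hn
  obtain ⟨s₂, hs₂, hms⟩ := exists_finset_spanR hm
  obtain ⟨s, hs⟩ : ∃ s, s = s₁ ∪ s₂.image star := ⟨_, rfl⟩
  have hsN : ∀ u ∈ s, IsNormaliser M A u := fun u hu => by
    rw [hs, Finset.mem_union, Finset.mem_image] at hu
    rcases hu with hu | ⟨v, hv, rfl⟩
    exacts [hs₁ u hu, (hs₂ v hv).star']
  obtain ⟨s', hs'⟩ : ∃ s', s' = s.image star := ⟨_, rfl⟩
  have hs'N : ∀ u ∈ s', IsNormaliser M A u := fun u hu => by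
    rw [hs', Finset.mem_image] at hu
    obtain ⟨v, hv, rfl⟩ := hu
    exact (hsN v hv).star'
  obtain ⟨k, hk, hk0⟩ := h.exists_coef hA hx s hsN
  have hkN := spanR_le hsN hk
  have hkM := spanN_le hA hkN
  have hd := sub_mem hx hkM
  have hks : ∀ k ∈ spanR A (s : Set (H →L[ℂ] H)), star k ∈ spanR A (s' : Set (H →L[ℂ] H)) := by
    intro k hk
    induction hk using Submodule.span_induction with
    | mem z hz =>
      obtain ⟨u, hu, a, ha, rfl⟩ := hz
      have hu' := hsN u hu
      refine Submodule.subset_span ⟨star u, ?_, u * star a * star u,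
        hu'.conj_mem' _ (star_mem ha), ?_⟩
      · rw [hs']; exact Finset.mem_coe.2 (Finset.mem_image_of_mem star hu)
      · rw [star_mul, ← mul_assoc, ← mul_assoc, hu'.star_mul, one_mul]
    | zero => simp
    | add a b _ _ h1 h2 => rw [star_add]; exact add_mem h1 h2
    | smul c a _ h1 => rw [star_smul]; exact Submodule.smul_mem _ _ h1
  have hmono : ∀ (t t' : Finset (H →L[ℂ] H)), t ⊆ t' → ∀ z ∈ spanR A (t : Set (H →L[ℂ] H)),
      z ∈ spanR A (t' : Set (H →L[ℂ] H)) := fun t t' htt z hz =>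
    Submodule.span_mono (by
      rintro y ⟨u, hu, a, ha, e⟩
      exact ⟨u, Finset.coe_subset.2 htt hu, a, ha, e⟩) hz
  have best : ∀ (t : Finset (H →L[ℂ] H)) (y b l : H →L[ℂ] H),
      (∀ u ∈ t, IsNormaliser M A u) → y ∈ M → b ∈ spanR A (t : Set (H →L[ℂ] H)) →
      l ∈ spanR A (t : Set (H →L[ℂ] H)) → (∀ u ∈ t, expect A (star u * (y - b)) = 0) →
      ‖h.V l - h.spanK.starProjection (h.V y)‖ ≤ γ →
      ‖h.compL b h.vecOne - h.compL y h.vecOne‖ ≤ γ := by
    intro t y b l ht hy hb hl hb0 hlγ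
    have hbN := spanR_le ht hb
    have hlN := spanR_le ht hl
    show ‖((h.compL b h.vecOne - h.compL y h.vecOne : h.spanK) : lp (fun _ : ι => H) 2)‖ ≤ γ
    rw [Submodule.coe_sub, h.compL_vecOne_of_mem hbN, compL_vecOne]
    obtain ⟨P, hP⟩ : ∃ P, P = h.spanK.starProjection (h.V y) := ⟨_, rfl⟩
    rw [← hP] at hlγ ⊢
    have h1 : ⟪h.V b - h.V l, h.V b - P⟫_ℂ = 0 := by
      have e1 : ⟪h.V (b - l), h.V (y - b)⟫_ℂ = 0 :=
        h.inner_V_eq_zero hA ht (sub_mem hy (spanN_le hA hbN)) hb0 (sub_mem hb hl)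
      have e2 : ⟪h.V (b - l), h.V y - P⟫_ℂ = 0 := by
        rw [hP, ← inner_conj_symm, Submodule.starProjection_inner_eq_zero _ _
          (h.V_mem_spanK (sub_mem hbN hlN)), map_zero]
      rw [← map_sub, show h.V b - P = (h.V y - P) - h.V (y - b) by rw [map_sub]; abel,
        inner_sub_right, e1, e2, sub_zero]
    have h1' : ⟪h.V l - h.V b, h.V b - P⟫_ℂ = 0 := by
      rw [← neg_sub, inner_neg_left, h1, neg_zero]
    have h2 := norm_add_sq_eq_norm_sq_add_norm_sq_of_inner_eq_zero (𝕜 := ℂ) _ _ h1'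
    rw [sub_add_sub_cancel] at h2
    nlinarith [norm_nonneg (h.V b - P), norm_nonneg (h.V l - h.V b), norm_nonneg (h.V l - P)]
  refine ⟨k, hkN, best s x k n hsN hx hk ?_ hk0 hnγ,
    best s' (star x) (star k) m hs'N (star_mem hx) (hks k hk) ?_ (fun u hu => ?_) hmγ⟩
  · exact hmono _ _ (hs ▸ Finset.subset_union_left) n hns
  · refine hmono _ _ (fun u hu => ?_) m hms
    rw [hs', hs, Finset.mem_image]
    exact ⟨star u, Finset.mem_union_right _ (Finset.mem_image_of_mem star hu), star_star u⟩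
  · rw [hs', Finset.mem_image] at hu
    obtain ⟨v, hv, rfl⟩ := hu
    rw [star_star, ← star_sub]
    exact h.expect_mul_star_eq_zero hA (hsN v hv) hd (hk0 v hv)

theorem eq_zero_of_inner_vec {v : h.spanK}
    (h0 : ∀ n ∈ spanN M A, ⟪h.compL n h.vecOne, v⟫_ℂ = 0) : v = 0 := by
  have key : ∀ w ∈ h.spanK, ⟪w, (v : lp (fun _ : ι => H) 2)⟫_ℂ = 0 := by
    intro w hw
    have hc : IsClosed {w : lp (fun _ : ι => H) 2 | ⟪w, (v : lp (fun _ : ι => H) 2)⟫_ℂ = 0} :=
      isClosed_eq (continuous_id.inner continuous_const) continuous_const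
    refine closure_minimal ?_ hc (show w ∈ closure _ from hw)
    rintro _ ⟨n, hn, rfl⟩
    have := h0 n hn
    rwa [Submodule.coe_inner, h.compL_vecOne_of_mem hn] at this
  exact Subtype.ext (inner_self_eq_zero.1 (key _ v.2))

theorem isRep (hA : IsMasa M A) : IsRep M A h.compL h.vecOne :=
  ⟨h.compL_star, fun x n hn => h.compL_mul x hn, h.compL_one, h.norm_compL_le,
    h.norm_V_one.le, fun v => h.eq_zero_of_inner_vec, fun x hx γ hγ => h.graph_near hA hx hγ⟩

/-- The projection of a self-adjoint element is approximated by sums of no larger norm. -/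
theorem exists_bdd_near (hA : IsMasa M A) {x : H →L[ℂ] H} (hx : x ∈ M) (hxs : IsSelfAdjoint x)
    {e : ℝ} (he : 0 < e) :
    ∃ n ∈ spanN M A, IsSelfAdjoint n ∧ ‖n‖ ≤ ‖x‖ ∧
      ‖h.V n - h.spanK.starProjection (h.V x)‖ ≤ e := by
  obtain ⟨n, hn, hns, hnx, hne⟩ := (h.isRep hA).exists_near hA hx hxs he
  refine ⟨n, hn, hns, hnx, ?_⟩
  rw [← h.compL_vecOne x, ← h.compL_vecOne_of_mem hn, ← Submodule.coe_sub, ← Submodule.coe_norm]
  exact hne

include h in
/-- A self-adjoint element splits into a two-norm limit of sums of no larger norm and an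
orthogonal part. -/
theorem exists_split (hA : IsMasa M A) {x : H →L[ℂ] H} (hx : x ∈ M) (hxs : IsSelfAdjoint x) :
    ∃ z ∈ M, IsSelfAdjoint z ∧ ‖z‖ ≤ ‖x‖ ∧ Orth M A (x - z) ∧
      ∀ γ : ℝ, 0 < γ → ∃ n ∈ spanN M A,
        IsSelfAdjoint n ∧ ‖n‖ ≤ ‖x‖ ∧ ‖h.V (z - n)‖ ≤ γ := by
  obtain ⟨ζ, hζ⟩ : ∃ ζ, ζ = h.spanK.starProjection (h.V x) := ⟨_, rfl⟩
  have hbd : ∀ k : ℕ, ∃ n ∈ spanN M A, IsSelfAdjoint n ∧ ‖n‖ ≤ ‖x‖ ∧
      ‖h.V n - ζ‖ ≤ 1 / ((k : ℝ) + 1) := fun k =>
    hζ ▸ h.exists_bdd_near hA hx hxs (by positivity)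
  choose n hn hns hnx hnζ using hbd
  have hlim : Tendsto (fun k => h.V (n k)) atTop (𝓝 ζ) :=
    tendsto_iff_norm_sub_tendsto_zero.2
      (squeeze_zero (fun _ => norm_nonneg _) hnζ tendsto_one_div_add_atTop_nhds_zero_nat)
  obtain ⟨z, hzM, hzn, hzV, hzt⟩ :=
    h.vLimit (fun k => spanN_le hA (hn k)) hnx hlim.cauchySeq
  have e : h.V z = ζ := tendsto_nhds_unique hzV hlim
  refine ⟨z, hzM, ?_, hzn, h.orth_of_inner hA (sub_mem hx hzM) fun b hb => ?_, fun γ hγ => ?_⟩
  · rw [ContinuousLinearMap.isSelfAdjoint_iff_isSymmetric]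
    intro u v
    refine tendsto_nhds_unique ((hzt u).inner tendsto_const_nhds)
      (Tendsto.congr (fun k => ?_) ((tendsto_const_nhds (x := u)).inner (hzt v)))
    exact ((ContinuousLinearMap.isSelfAdjoint_iff_isSymmetric.1 (hns k)) u v).symm
  · rw [map_sub, e, ← inner_conj_symm, hζ,
      Submodule.starProjection_inner_eq_zero _ _ (h.V_mem_spanK hb), map_zero]
  · obtain ⟨k, hk⟩ := exists_nat_one_div_lt hγ
    refine ⟨n k, hn k, hns k, hnx k, ?_⟩
    rw [map_sub, e, norm_sub_rev]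
    exact (hnζ k).trans hk.le

end IsState

end Vale.Agent.P078.Any
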