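import Vale.Agent.P078.Any.StateNet
import Vale.Agent.P078.Any.StateSplit

/-!
An element orthogonal to the normalisers in the sense of the expectation has atomless fibres.
-/

namespace Vale.Agent.P078.Any

open scoped InnerProductSpace ComplexOrder
open ContinuousLinearMap Cartan Filter Topology
open All hiding State

variable {H : Type} [NormedAddCommGroup H] [InnerProductSpace ℂ H] [CompleteSpace H]
variable {M : VonNeumannAlgebra H} {A : StarSubalgebra ℂ (H →L[ℂ] H)} {κ : Type} {η : κ → H}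
variable [AbelianClosed A]

section kept

variable {y g : H →L[ℂ] H} {p : Set (Spec A)}

theorem part_pairS (G : KeptPiece M A y g p) (hA : IsMasa M A) (h : IsState M A η) (Q : FPart A)
    {w : H →L[ℂ] H} (hw : w ∈ M) (hwg : w * g = w)
    (hwQ : ∀ i, w * Q.c i = psi y g p (Q.c i) * w) :
    h.phi (part y g p Q * star w) = h.phi (y * star w) := by
  have hws : g * star w = star w := by
    rw [← G.g_proj.isSelfAdjoint.star_eq, ← star_mul, hwg]
  have hterm : ∀ i, h.phi (psi y g p (Q.c i) * y * (g * Q.c i) * star w)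
      = h.phi (y * g * Q.c i * star w) := fun i => by
    have hm : y * (g * Q.c i) * star w ∈ M :=
      mul_mem (mul_mem G.y_mem (mul_mem (hA.le g G.g_mem) (hA.le _ (Q.mem i)))) (star_mem hw)
    have e : star w * psi y g p (Q.c i) = Q.c i * star w := by
      rw [← (G.psi_proj hA Q i).isSelfAdjoint.star_eq, ← star_mul, ← hwQ i, star_mul,
        (Q.proj i).isSelfAdjoint.star_eq]
    rw [mul_assoc (psi y g p (Q.c i)) y, mul_assoc (psi y g p (Q.c i)) (y * (g * Q.c i)),
      h.phi_central (show psi y g p (Q.c i) ∈ A from clP_mem (A := A) _) hm,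
      mul_assoc _ (star w), e, ← mul_assoc, ← mul_assoc y g, mul_assoc _ (Q.c i) (Q.c i),
      (Q.proj i).isIdempotentElem.eq]
  rw [part, Finset.sum_mul, h.phi_sum, Finset.sum_congr rfl fun i _ => hterm i, ← h.phi_sum,
    ← Finset.sum_mul, ← Finset.mul_sum, Q.sum_eq, mul_one, mul_assoc, hws]

theorem inner_partS (G : KeptPiece M A y g p) (hA : IsMasa M A) (h : IsState M A η)
    {Q R : FPart A} (hQR : Q ≤ R) :
    ⟪h.V (star (part y g p Q)), h.V (star (part y g p R))⟫_ℂ
      = ⟪h.V (star y), h.V (star (part y g p R))⟫_ℂ := by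
  rw [← h.phi_star_mul, ← h.phi_star_mul, star_star, star_star]
  exact part_pairS G hA h Q (G.part_mem hA R) (G.part_g hA R) (G.part_intertwine hA hQR)

theorem part_lowerS (G : KeptPiece M A y g p) (hA : IsMasa M A) (h : IsState M A η)
    (hne : p.Nonempty) :
    ∃ b : ℝ, 0 < b ∧ ∀ Q, b ≤ ‖h.V (star (part y g p Q))‖ ^ 2 := by
  classical
  obtain ⟨β, hβ⟩ : ∃ β : C(Spec A, ℝ), ∀ ω, β ω = if ω ∈ p then ef y g ω / 2 else 0 := by
    refine ⟨⟨fun ω => if ω ∈ p then ef y g ω / 2 else 0, ?_⟩, fun ω => rfl⟩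
    refine continuous_iff_continuousAt.2 fun ω => ?_
    by_cases hω : ω ∈ p
    · refine ((ef y g).continuous.div_const 2).continuousAt.congr ?_
      filter_upwards [G.clopen.isOpen.mem_nhds hω] with ν hν
      exact (if_pos hν).symm
    · refine continuousAt_const.congr (f := fun _ => (0 : ℝ)) ?_
      filter_upwards [G.clopen.isClosed.isOpen_compl.mem_nhds hω] with ν hν
      exact (if_neg hν).symm
  have hβ0 : ∀ ω, 0 ≤ β ω := fun ω => by
    rw [hβ]; split_ifs
    · exact div_nonneg (ef_nonneg hA G.y_mem G.g_mem G.g_proj ω) two_pos.le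
    · exact le_rfl
  refine ⟨muS h β, (muS_nonneg h _ hβ0).lt_of_ne fun e => ?_, fun Q => ?_⟩
  · obtain ⟨ω, hω⟩ := hne
    have h1 := congrArg (fun f : C(Spec A, ℝ) => f ω) (muS_eq_zero hA h hβ0 e.symm)
    simp only [hβ, if_pos hω, ContinuousMap.zero_apply] at h1
    linarith [G.pos ω hω]
  · obtain ⟨f, hf, hf0, hfp⟩ := G.exists_mass hA Q
    refine (muS_mono h (g := f) fun ω => ?_).trans_eq ?_
    · rw [hβ]; split_ifs with hω
      · exact hfp ω hω
      · exact hf0 ω
    · have e : h.phi (y * star (part y g p Q))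
          = h.phi (∑ i, psi y g p (Q.c i) * expect A (y * (g * Q.c i) * star y)) := by
        rw [part, star_sum, Finset.mul_sum, h.phi_sum, h.phi_sum]
        refine Finset.sum_congr rfl fun i _ => ?_
        have hgc : g * Q.c i ∈ M := mul_mem (hA.le g G.g_mem) (hA.le _ (Q.mem i))
        have hψ : psi y g p (Q.c i) ∈ A := clP_mem (A := A) _
        have hm := mul_mem (mul_mem G.y_mem hgc) (star_mem G.y_mem)
        rw [h.phi_mul_expect hA hψ hm, h.phi_central hψ hm, star_mul,
          (piece_proj hA G.g_mem G.g_proj Q i).isSelfAdjoint.star_eq, star_mul,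
          (G.psi_proj hA Q i).isSelfAdjoint.star_eq]
        simp only [mul_assoc]
      show (h.phi (ofReal' f)).re = _
      rw [hf, ← e, ← star_star y, h.phi_star_mul, star_star, ← inner_partS G hA h (le_refl Q),
        inner_self_eq_norm_sq_to_K]
      simp only [Complex.coe_algebraMap, ← Complex.ofReal_pow, Complex.ofReal_re]

end kept

/-- An element with non-vanishing fibre masses has an intertwining part. -/
theorem exists_intertwinerS [TotallyDisconnectedSpace (Spec A)] (hA : IsMasa M A)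
    (h : IsState M A η) {y : H →L[ℂ] H} (hy : y ∈ M) {δ : ℝ} (hδ : 0 < δ)
    (hlow : ∀ Q : FPart A, δ ≤ gsS h y Q) :
    ∃ ξ ∈ M, ξ ≠ 0 ∧ ∃ ψ : (H →L[ℂ] H) → (H →L[ℂ] H),
      (∀ k ∈ A, IsStarProjection k → ψ k ∈ A ∧ IsStarProjection (ψ k) ∧ ξ * k = ψ k * ξ) ∧
      (∀ a ∈ A, ∀ b ∈ A, a * y = y * b → a * ξ = ξ * b) ∧
      ∀ w ∈ M, (∀ k ∈ A, IsStarProjection k → w * k = ψ k * w) →
        expect A (y * star w) = expect A (ξ * star w) := by
  obtain ⟨g, hg, hgp, p, hp, hne, hpos, hkeep⟩ := exists_goodS hA h hy hδ hlow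
  have G : KeptPiece M A y g p := ⟨hy, hg, hgp, hp, hpos, hkeep⟩
  obtain ⟨b, hb, hlb⟩ := part_lowerS G hA h hne
  obtain ⟨Z, hZ, hlim⟩ := net_limitS hA h (fun Q => star (part y g p Q))
    (fun Q => star_mem (G.part_mem hA Q)) (fun Q => (norm_star _).trans_le (G.part_norm hA Q))
    (fun Q => ‖h.V (star (part y g p Q))‖ ^ 2) (L := 0) (fun Q => sq_nonneg _) zero_le_one
    fun Q R hQR _ => by
      rw [one_mul, map_sub, norm_sub_sq (𝕜 := ℂ), inner_re_symm, inner_partS G hA h hQR,
        ← inner_partS G hA h (le_refl R), inner_self_eq_norm_sq]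
      linarith
  have := fpart_neBot hA
  have hZs : star Z ∈ M := star_mem hZ
  refine ⟨star Z, hZs, fun e => ?_, psi y g p,
    fun k hk hkp => ⟨clP_mem (A := A) _, ?_, ?_⟩, fun a ha c hc hac => ?_, fun w hw hwk => ?_⟩
  · have h1 := ge_of_tendsto' ((hlim.norm).pow 2) hlb
    rw [star_eq_zero.1 e, map_zero, norm_zero] at h1
    norm_num at h1
    linarith
  · exact G.psi_proj hA (FPart.two k hk hkp) true
  · have hψp : IsStarProjection (psi y g p k) := G.psi_proj hA (FPart.two k hk hkp) true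
    have e := intertwine_limitS hA h (fun Q => star_mem (G.part_mem hA Q)) hZ (hA.le k hk)
      (clP_mem (A := A) _) hlim ((eventually_ge_atTop (FPart.two k hk hkp)).mono fun R hR => by
        have := congrArg star (G.part_intertwine hA hR true)
        rw [star_mul, star_mul, ((FPart.two k hk hkp).proj true).isSelfAdjoint.star_eq,
          (G.psi_proj hA (FPart.two k hk hkp) true).isSelfAdjoint.star_eq] at this
        exact this)
    have e' := congrArg star e
    rw [star_mul, star_mul, hkp.isSelfAdjoint.star_eq] at e'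
    exact e'.trans (congrArg (· * star Z) hψp.isSelfAdjoint.star_eq)
  · have e := intertwine_limitS hA h (fun Q => star_mem (G.part_mem hA Q)) hZ
      (hA.le _ (star_mem hc)) (star_mem ha) hlim (Eventually.of_forall fun Q => by
        rw [← star_mul, ← star_mul]
        congr 1
        rw [part, Finset.mul_sum, Finset.sum_mul]
        refine Finset.sum_congr rfl fun i _ => ?_
        rw [← mul_assoc a, ← mul_assoc a,
          hA.comm a ha _ (show psi y g p (Q.c i) ∈ A from clP_mem (A := A) _),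
          mul_assoc _ a y, hac, mul_assoc _ (g * Q.c i) c,
          hA.comm _ (mul_mem hg (Q.mem i)) c hc]
        simp only [mul_assoc])
    have e' := congrArg star e
    rw [star_mul, star_mul, star_star, star_star] at e'
    exact e'.symm
  · have hpair : ∀ v ∈ M, (∀ k ∈ A, IsStarProjection k → v * k = psi y g p k * v) →
        h.phi (y * star v) = h.phi (star Z * star v) := fun v hv hvk => by
      rw [h.phi_star_mul Z (star v)]
      refine tendsto_nhds_unique ?_ (hlim.inner tendsto_const_nhds)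
      have hv1 : v * g = v := by
        rw [hvk g hg hgp]
        conv_rhs => rw [← mul_one v, hvk 1 (one_mem A) (.one _)]
        simp only [psi, major, mul_one, hgp.isIdempotentElem.eq]
      refine tendsto_const_nhds.congr fun Q => ?_
      rw [← h.phi_star_mul, star_star]
      exact (part_pairS G hA h Q hv hv1 fun i => hvk _ (Q.mem i) (Q.proj i)).symm
    have h1 := mul_mem hy (star_mem hw)
    have h2 := mul_mem hZs (star_mem hw)
    obtain ⟨d, hd⟩ : ∃ d, d = expect A (y * star w - star Z * star w) := ⟨_, rfl⟩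
    have hdA : d ∈ A := hd ▸ expect_mem hA (sub_mem h1 h2)
    have h3 := hpair (d * w) (mul_mem (hA.le d hdA) hw) fun k hk hkp => by
      rw [mul_assoc, hwk k hk hkp, ← mul_assoc, ← mul_assoc,
        hA.comm d hdA _ (show psi y g p k ∈ A from clP_mem (A := A) _)]
    rw [star_mul, ← mul_assoc, ← mul_assoc, ← h.phi_central (star_mem hdA) h1,
      ← h.phi_central (star_mem hdA) h2, ← sub_eq_zero, ← h.phi_sub, ← mul_sub,
      ← h.phi_mul_expect hA (star_mem hdA) (sub_mem h1 h2), ← hd] at h3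
    have h4 := h.eq_zero_of_phi (hA.le d hdA) h3
    rw [hd, expect_sub, sub_eq_zero] at h4
    exact h4

variable [TotallyDisconnectedSpace (Spec A)]

/-- An intertwiner moving a projection off itself is orthogonal to what is orthogonal to the
normalisers. -/
theorem inner_intertwiner_eq_zeroS (hA : IsMasa M A) (h : IsState M A η) {x w c : H →L[ℂ] H}
    (hxM : x ∈ M) (hx : Orth M A x) (hwM : w ∈ M)
    (hw : Intertwines A w) (hc : c ∈ A) (hwc : w * c = w) (hcw : c * w = 0) :
    ⟪h.V w, h.V x⟫_ℂ = 0 := by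
  classical
  refine norm_le_zero_iff.1 (le_of_forall_pos_le_add fun t ht => ?_)
  rw [zero_add]
  obtain ⟨δ, hδ⟩ : ∃ δ : ℝ, δ = (t / (‖h.V x‖ + 1)) ^ 2 := ⟨_, rfl⟩
  have hWA := hw.sq_mem hA hwM
  have hδ0 : 0 < δ := hδ ▸ by positivity
  have hcont : Continuous fun ω : Spec A => (chi ω (star w * w)).re :=
    Complex.continuous_re.comp (continuous_chi _)
  obtain ⟨U, hU, hKU, hUO⟩ := exists_clopen_of_closed_subset_open
    (isClosed_le continuous_const hcont : IsClosed {ω : Spec A | δ ≤ (chi ω (star w * w)).re})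
    (isOpen_lt continuous_const hcont : IsOpen {ω : Spec A | 0 < (chi ω (star w * w)).re})
    fun ω hω => lt_of_lt_of_le hδ0 hω
  obtain ⟨a, ha, u, hu, e⟩ := cut_mem_normaliser hA hwM hw hc hwc hcw hU fun ω hω => hUO hω
  have h0 : ⟪h.V (w * clP U), h.V x⟫_ℂ = 0 := e ▸ h.orth_inner hA hxM hx (mem_spanN ha hu)
  have hT : 1 - clP U ∈ A := sub_mem (one_mem A) (clP_mem _)
  have hsmall : ‖h.V (w * (1 - clP U))‖ ^ 2 ≤ δ := by
    have h1 : ‖h.V (w * (1 - clP U))‖ ^ 2
        = (h.phi ((1 - clP U) * (star w * w) * (1 - clP U))).re := by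
      rw [← inner_self_eq_norm_sq (𝕜 := ℂ), ← h.phi_star_mul, star_mul,
        (clP_proj hU).one_sub.isSelfAdjoint.star_eq]
      simp only [mul_assoc]
      rfl
    obtain ⟨f, hf⟩ : ∃ f : C(Spec A, ℝ), ∀ ω,
        f ω = (chi ω ((1 - clP U) * (star w * w) * (1 - clP U))).re :=
      ⟨⟨_, Complex.continuous_re.comp (continuous_chi _)⟩, fun _ => rfl⟩
    have hTW := mul_mem (mul_mem hT hWA) hT
    have hfe : ofReal' f = (1 - clP U) * (star w * w) * (1 - clP U) :=
      eq_of_chi_eq (ofReal'_mem _) hTW fun ω => by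
        rw [chi_ofReal', hf]
        have := chi_star ω hTW
        rw [star_mul, star_mul, (clP_proj hU).one_sub.isSelfAdjoint.star_eq, star_mul, star_star,
          ← mul_assoc (1 - clP U)] at this
        exact Complex.conj_eq_iff_re.1 this.symm
    rw [h1, ← hfe]
    refine (muS_mono h (g := δ • 1) fun ω => ?_).trans_eq
      (by rw [map_smul, muS_one, smul_eq_mul, mul_one])
    rw [hf, chi_mul ω (mul_mem hT hWA) hT, chi_mul ω hT hWA, chi_sub ω (one_mem A) (clP_mem _),
      chi_one, chi_clP hU]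
    show _ ≤ δ * (1 : ℝ)
    split_ifs with hω
    · simpa using hδ0.le
    · simpa using (not_le.1 fun h' => hω (hKU h')).le
  have hdec : h.V w = h.V (w * clP U) + h.V (w * (1 - clP U)) := by
    rw [← map_add, ← mul_add, add_sub_cancel, mul_one]
  rw [hdec, inner_add_left, h0, zero_add]
  refine (norm_inner_le_norm _ _).trans ?_
  have h2 : ‖h.V (w * (1 - clP U))‖ ≤ t / (‖h.V x‖ + 1) :=
    (abs_le_of_sq_le_sq' (hsmall.trans_eq hδ) (by positivity)).2
  refine (mul_le_mul_of_nonneg_right h2 (norm_nonneg _)).trans ?_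
  rw [div_mul_eq_mul_div, div_le_iff₀ (by positivity)]
  nlinarith [norm_nonneg (h.V x)]

/-- Intertwiners are orthogonal, in the sense of the expectation, to what is orthogonal to the
normalisers. -/
theorem expect_mul_intertwiner (hA : IsMasa M A) (h : IsState M A η) {y z : H →L[ℂ] H}
    (hyM : y ∈ M) (hy : Orth M A y) (hzM : z ∈ M) (hzI : Intertwines A z) :
    expect A (y * z) = 0 := by
  classical
  obtain ⟨a, ha⟩ : ∃ a, a = expect A (y * z) := ⟨_, rfl⟩
  have hm := mul_mem hyM hzM
  have haA : a ∈ A := ha ▸ expect_mem hA hm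
  obtain ⟨x, hx⟩ : ∃ x, x = star y * a := ⟨_, rfl⟩
  have hxM : x ∈ M := hx ▸ mul_mem (star_mem hyM) (hA.le a haA)
  have hxO : Orth M A x := fun u hu => by
    rw [hx, ← mul_assoc, expect_mul_right hA haA, h.orth_star hA hyM hy u hu, zero_mul]
  have hD : ∀ P : FPart A, ⟪h.V x, h.V (P.D z)⟫_ℂ = ⟪h.V x, h.V z⟫_ℂ := fun P => by
    have h0 : ∀ i, ⟪h.V ((1 - P.c i) * z * P.c i), h.V x⟫_ℂ = 0 := fun i =>
      inner_intertwiner_eq_zeroS hA h hxM hxO
        (mul_mem (mul_mem (hA.le _ (sub_mem (one_mem A) (P.mem i))) hzM) (hA.le _ (P.mem i)))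
        ((hzI.mul_left hA (sub_mem (one_mem A) (P.mem i))).mul_right hA (P.mem i)) (P.mem i)
        (by rw [mul_assoc, (P.proj i).isIdempotentElem.eq])
        (by rw [← mul_assoc, ← mul_assoc, (P.proj i).mul_one_sub_self, zero_mul, zero_mul])
    have e : z = P.D z + ∑ i, (1 - P.c i) * z * P.c i := by
      simp only [FPart.D, sub_mul, one_mul, Finset.sum_sub_distrib, ← Finset.mul_sum, P.sum_eq,
        mul_one]
      abel
    conv_rhs => rw [e]
    rw [map_add, map_sum, inner_add_right, inner_sum, Finset.sum_eq_zero fun i _ => ?_, add_zero]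
    rw [← inner_conj_symm, h0 i, map_zero]
  have e1 := tendsto_nhds_unique (tendsto_const_nhds.congr fun P => (hD P).symm)
    (h.tendsto_inner_D (A := A) z x)
  have h1 : expect A z ∈ spanN M A := by
    simpa using mem_spanN (expect_mem hA hzM) (IsNormaliser.one (M := M) (A := A))
  have h2 : ⟪h.V x, h.V z⟫_ℂ = 0 := by
    rw [e1, ← inner_conj_symm, h.orth_inner hA hxM hxO h1, map_zero]
  rw [← h.phi_star_mul, hx, star_mul, star_star, mul_assoc,
    ← h.phi_mul_expect hA (star_mem haA) hm, ← ha] at h2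
  rw [← ha]
  exact h.eq_zero_of_phi (hA.le a haA) h2

omit [TotallyDisconnectedSpace (Spec A)] in
/-- The fibre masses of the adjoint of an intertwiner are bounded below. -/
theorem gsS_adjoint_lower (hA : IsMasa M A) (h : IsState M A η) {ξ : H →L[ℂ] H} (hξ : ξ ∈ M)
    (hmem : ∀ f ∈ A, IsStarProjection f → star ξ * f * ξ ∈ A) (Q : FPart A) :
    (⟪h.V ξ, h.V (expect A (ξ * star ξ) * ξ)⟫_ℂ).re ≤ gsS h (star ξ) Q := by
  obtain ⟨b, hb⟩ : ∃ b, b = ξ * star ξ := ⟨_, rfl⟩
  rw [← hb]
  have hterm : ∀ P : FPart A, (⟪h.V ξ, h.V (P.D b * ξ)⟫_ℂ).re = gsS h (star ξ) P := by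
    intro P
    rw [← h.phi_star_mul, FPart.D, Finset.sum_mul, Finset.mul_sum, h.phi_sum, Complex.re_sum, gsS]
    refine Finset.sum_congr rfl fun i _ => ?_
    show _ = (h.phi (ofReal' _)).re
    rw [ofReal'_mul, ofReal'_ef hA (star_mem hξ) (P.mem i) (P.proj i), star_star,
      expect_self hA (hmem _ (P.mem i) (P.proj i)), hb]
    simp only [mul_assoc]
  have hlim : Tendsto (fun P : FPart A => (⟪h.V ξ, h.V (P.D b * ξ)⟫_ℂ).re) (pUltra A)
      (𝓝 (⟪h.V ξ, h.V (expect A b * ξ)⟫_ℂ).re) := by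
    refine (Complex.continuous_re.tendsto _).comp ?_
    simp only [IsState.inner_V]
    refine tendsto_tsum_of_dominated_convergence
      (bound := fun i => ‖ξ‖ * (‖b‖ * ‖ξ‖) * ‖η i‖ ^ 2) (h.summable.mul_left _)
      (fun i => tendsto_expect b (ξ (η i)) (ξ (η i))) (Eventually.of_forall fun P i => ?_)
    rw [mul_apply']
    refine (norm_inner_le_norm _ _).trans ?_
    refine (mul_le_mul (ξ.le_opNorm _) ((P.norm_D_apply b _).trans
      (mul_le_mul_of_nonneg_left (ξ.le_opNorm _) (norm_nonneg b))) (norm_nonneg _)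
      (by positivity)).trans (le_of_eq ?_)
    ring
  exact le_of_tendsto hlim ((eventually_le hA Q).mono fun P hP =>
    (hterm P).trans_le (gsS_anti hA h (star_mem hξ) hP))

/-- Fibre masses vanish for elements orthogonal to the normalisers. -/
theorem exists_gsS_le (hA : IsMasa M A) (h : IsState M A η) {y : H →L[ℂ] H} (hyM : y ∈ M)
    (hy : Orth M A y) {δ : ℝ} (hδ : 0 < δ) : ∃ Q : FPart A, gsS h y Q ≤ δ := by
  by_contra hcon
  push Not at hcon
  obtain ⟨ξ, hξ, hξ0, ψ, hψ, -, hpair⟩ :=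
    exists_intertwinerS hA h hyM hδ fun Q => (hcon Q).le
  have hflip : ∀ k ∈ A, IsStarProjection k → k * star ξ = star ξ * ψ k := fun k hk hkp => by
    have := congrArg star (hψ k hk hkp).2.2
    rwa [star_mul, star_mul, hkp.isSelfAdjoint.star_eq, (hψ k hk hkp).2.1.isSelfAdjoint.star_eq]
      at this
  have hmem : ∀ f ∈ A, IsStarProjection f → star ξ * f * ξ ∈ A := fun f hf hfp =>
    hA.mem_of_commute (mul_mem (mul_mem (star_mem hξ) (hA.le f hf)) hξ) fun a ha =>
      (commute_of_commute_proj hA (fun k hk hkp => by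
        obtain ⟨hk', -, e⟩ := hψ k hk hkp
        show star ξ * f * ξ * k = k * (star ξ * f * ξ)
        rw [mul_assoc (star ξ * f), e, mul_assoc (star ξ), ← mul_assoc f, hA.comm f hf _ hk',
          ← mul_assoc (star ξ), ← mul_assoc (star ξ), ← hflip k hk hkp]
        simp only [mul_assoc]) ha).eq
  have hlow : 0 < (⟪h.V ξ, h.V (expect A (ξ * star ξ) * ξ)⟫_ℂ).re := by
    obtain ⟨R, hRA, hRs, hR⟩ := expect_pos_sqrt hA (star_mem hξ)
    rw [star_star] at hR
    have hEM := hA.le _ (expect_mem hA (mul_mem hξ (star_mem hξ)))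
    rw [← hR, mul_assoc, h.inner_mul_left, hRs.star_eq, ← RCLike.re_to_complex,
      inner_self_eq_norm_sq]
    refine pow_pos (norm_pos_iff.2 fun e => hξ0 ?_) 2
    have h1 : R * ξ = 0 := h.eq_of_V (mul_mem (hA.le R hRA) hξ) (zero_mem M) (by rw [e, map_zero])
    have h2 : R * (R * R) = 0 := by
      rw [hR, ← expect_mul_left hA hRA, ← mul_assoc, h1, zero_mul, expect_zero]
    have h3 : star (R * R) * (R * R) = 0 := by
      rw [star_mul, hRs.star_eq, mul_assoc R R (R * R), h2, mul_zero]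
    rw [CStarRing.star_mul_self_eq_zero_iff, hR] at h3
    have h4 : h.phi (ξ * star ξ) = 0 := by
      rw [← h.phi_expect hA (mul_mem hξ (star_mem hξ)), h3]
      simp [IsState.phi]
    have h5 := h.eq_zero_of_phi (star_mem hξ) (by rw [star_star]; exact h4)
    exact star_eq_zero.1 h5
  obtain ⟨ζ, hζ, hζ0, ψ', hψ', hinh, hpair'⟩ := exists_intertwinerS hA h (star_mem hξ) hlow
    (gsS_adjoint_lower hA h hξ hmem)
  have hzr : ∀ k ∈ A, IsStarProjection k → k * ζ = ζ * ψ k := fun k hk hkp =>
    hinh k hk (ψ k) (hψ k hk hkp).1 (hflip k hk hkp)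
  have hzs : ∀ k ∈ A, IsStarProjection k → star ζ * k = ψ k * star ζ := fun k hk hkp => by
    have := congrArg star (hzr k hk hkp)
    rwa [star_mul, star_mul, hkp.isSelfAdjoint.star_eq,
      (hψ k hk hkp).2.1.isSelfAdjoint.star_eq] at this
  have hζI : Intertwines A ζ :=
    ⟨fun k hk hkp => ⟨ψ' k, (hψ' k hk hkp).1, (hψ' k hk hkp).2.1.isSelfAdjoint,
        (hψ' k hk hkp).2.2⟩,
      fun k hk hkp => ⟨ψ k, (hψ k hk hkp).1, (hψ k hk hkp).2.1.isSelfAdjoint, hzr k hk hkp⟩⟩
  have hzero : expect A (ξ * ζ) = 0 := by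
    have := hpair (star ζ) (star_mem hζ) hzs
    rw [star_star] at this
    rw [← this]
    exact expect_mul_intertwiner hA h hyM hy hζ hζI
  have hd : ζ * ξ = ζ * star ζ := by
    have hmem1 : ζ * ξ ∈ A := hA.mem_of_commute (mul_mem hζ hξ) fun a ha =>
      (commute_of_commute_proj hA (fun k hk hkp => by
        show ζ * ξ * k = k * (ζ * ξ)
        rw [mul_assoc, (hψ k hk hkp).2.2, ← mul_assoc, ← hzr k hk hkp, mul_assoc]) ha).eq
    have hmem2 := hζI.sq_mem' hA hζ
    have e := congrArg star (hpair' ζ hζ fun k hk hkp => (hψ' k hk hkp).2.2)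
    rw [← expect_star, ← expect_star, star_mul, star_mul, star_star, star_star,
      expect_self hA hmem1, expect_self hA hmem2] at e
    exact e
  have heA := hζI.sq_mem hA hζ
  have e1 : star ζ * ζ * (ξ * ζ) = star ζ * ζ * (star ζ * ζ) := by
    rw [← mul_assoc, mul_assoc (star ζ) ζ ξ, hd]
    simp only [mul_assoc]
  have e2 : star (star ζ * ζ) * (star ζ * ζ) = 0 := by
    rw [star_mul, star_star, ← expect_self hA (mul_mem heA heA), ← e1, expect_mul_left hA heA,
      hzero, mul_zero]
  rw [CStarRing.star_mul_self_eq_zero_iff, CStarRing.star_mul_self_eq_zero_iff] at e2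
  exact hζ0 e2

end Vale.Agent.P078.Any
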