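import Vale.Agent.P078.All.OperatorAtomless
import Vale.Agent.P078.Any.State

/-!
Nets over partitions and squared fibre masses for a state centralised by the MASA.
-/

namespace Vale.Agent.P078.Any

open scoped InnerProductSpace ComplexOrder
open ContinuousLinearMap Cartan Filter Topology
open All hiding State

variable {H : Type} [NormedAddCommGroup H] [InnerProductSpace ℂ H] [CompleteSpace H]
variable {M : VonNeumannAlgebra H} {A : StarSubalgebra ℂ (H →L[ℂ] H)} {κ : Type} {η : κ → H}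

/-- A net with controlled two-norm increments converges in two-norm. -/
theorem net_limitS (hA : IsMasa M A) (h : IsState M A η) (Φ : FPart A → H →L[ℂ] H)
    (hΦ : ∀ Q, Φ Q ∈ M) {C : ℝ} (hC : ∀ Q, ‖Φ Q‖ ≤ C) (ν : FPart A → ℝ) {L : ℝ}
    (hν : ∀ Q, L ≤ ν Q) {K : ℝ} (hK0 : 0 ≤ K)
    (hK : ∀ Q R, Q ≤ R → L ≤ ν R → ‖h.V (Φ R - Φ Q)‖ ^ 2 ≤ K * (ν Q - ν R)) :
    ∃ Z ∈ M, Tendsto (fun Q => h.V (Φ Q)) atTop (𝓝 (h.V Z)) := by
  have : Nonempty (FPart A) := ⟨FPart.triv⟩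
  have hbdd : BddBelow (Set.range ν) := ⟨L, by rintro _ ⟨Q, rfl⟩; exact hν Q⟩
  have hsel : ∀ n : ℕ, ∃ Q, ν Q < (⨅ P, ν P) + 1 / ((n : ℝ) + 1) := fun n =>
    exists_lt_of_ciInf_lt (lt_add_of_pos_right _ (by positivity))
  choose q hq using hsel
  have hnear : ∀ n R, q n ≤ R → ‖h.V (Φ R) - h.V (Φ (q n))‖ ^ 2 ≤ K / ((n : ℝ) + 1) := by
    intro n R hR
    rw [← map_sub]
    refine (hK _ R hR (hν R)).trans ?_
    rw [div_eq_mul_one_div]
    exact mul_le_mul_of_nonneg_left (by linarith [ciInf_le hbdd R, hq n]) hK0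
  have hsmall : ∀ γ : ℝ, 0 < γ → ∃ N : ℕ, ∀ n ≥ N, ∀ R, q n ≤ R →
      dist (h.V (Φ R)) (h.V (Φ (q n))) < γ := by
    intro γ hγ
    obtain ⟨N, hN⟩ := exists_nat_gt (K / γ ^ 2)
    refine ⟨N, fun n hn R hR => ?_⟩
    rw [dist_eq_norm]
    refine lt_of_pow_lt_pow_left₀ 2 hγ.le (lt_of_le_of_lt (hnear n R hR) ?_)
    rw [div_lt_iff₀ (by positivity)] at hN ⊢
    nlinarith [(Nat.cast_le (α := ℝ)).2 hn]
  have hcauchy : CauchySeq fun n => h.V (Φ (q n)) := by
    refine Metric.cauchySeq_iff.2 fun γ hγ => ?_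
    obtain ⟨N, hN⟩ := hsmall (γ / 2) (half_pos hγ)
    refine ⟨N, fun m hm n hn => ?_⟩
    have h1 := hN m hm _ ((q m).le_join_left hA (q n))
    have h2 := hN n hn _ ((q m).le_join_right hA (q n))
    rw [dist_comm] at h1
    linarith [dist_triangle (h.V (Φ (q m))) (h.V (Φ ((q m).join hA (q n)))) (h.V (Φ (q n)))]
  obtain ⟨Z, hZ, -, hlim, -⟩ := h.vLimit (fun n => hΦ (q n)) (fun n => hC (q n)) hcauchy
  refine ⟨Z, hZ, Metric.tendsto_nhds.2 fun γ hγ => ?_⟩
  obtain ⟨N, hN⟩ := hsmall (γ / 2) (half_pos hγ)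
  obtain ⟨N', hN'⟩ := Metric.tendsto_atTop.1 hlim (γ / 2) (half_pos hγ)
  filter_upwards [eventually_ge_atTop (q (max N N'))] with R hR
  linarith [hN (max N N') (le_max_left _ _) R hR, hN' (max N N') (le_max_right _ _),
    dist_triangle (h.V (Φ R)) (h.V (Φ (q (max N N')))) (h.V Z)]

theorem tendsto_V_mul_leftS (h : IsState M A η) {α : Type*} {l : Filter α} {Φ : α → H →L[ℂ] H}
    {Z : H →L[ℂ] H} (hl : Tendsto (fun Q => h.V (Φ Q)) l (𝓝 (h.V Z))) (a : H →L[ℂ] H) :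
    Tendsto (fun Q => h.V (a * Φ Q)) l (𝓝 (h.V (a * Z))) := by
  simp only [← h.diagMul_V]
  exact ((diagMul a).continuous.tendsto _).comp hl

theorem tendsto_V_mul_rightS (hA : IsMasa M A) (h : IsState M A η) {α : Type*} {l : Filter α}
    {Φ : α → H →L[ℂ] H} {Z a : H →L[ℂ] H} (hΦ : ∀ Q, Φ Q ∈ M) (hZ : Z ∈ M) (ha : a ∈ A)
    (hl : Tendsto (fun Q => h.V (Φ Q)) l (𝓝 (h.V Z))) :
    Tendsto (fun Q => h.V (Φ Q * a)) l (𝓝 (h.V (Z * a))) := by
  rw [tendsto_iff_norm_sub_tendsto_zero] at hl ⊢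
  refine squeeze_zero (fun _ => norm_nonneg _) (fun Q => ?_) (by simpa using hl.const_mul ‖a‖)
  rw [← map_sub, ← sub_mul, ← map_sub]
  exact h.norm_V_mul_right_le hA ha (sub_mem (hΦ Q) hZ)

/-- Relations between a net and two elements pass to its two-norm limit. -/
theorem intertwine_limitS (hA : IsMasa M A) (h : IsState M A η) {Φ : FPart A → H →L[ℂ] H}
    {Z a b : H →L[ℂ] H} (hΦ : ∀ Q, Φ Q ∈ M) (hZ : Z ∈ M) (ha : a ∈ M) (hb : b ∈ A)
    (hl : Tendsto (fun Q => h.V (Φ Q)) atTop (𝓝 (h.V Z)))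
    (he : ∀ᶠ Q in atTop, a * Φ Q = Φ Q * b) : a * Z = Z * b := by
  have := fpart_neBot hA
  refine h.eq_of_V (mul_mem ha hZ) (mul_mem hZ (hA.le b hb))
    (tendsto_nhds_unique (tendsto_V_mul_leftS h hl a) ?_)
  exact (tendsto_V_mul_rightS hA h hΦ hZ hb hl).congr' (he.mono fun Q hQ => (congrArg h.V hQ).symm)

variable [AbelianClosed A]

/-- The trace on the functions. -/
noncomputable def muS (h : IsState M A η) : C(Spec A, ℝ) →ₗ[ℝ] ℝ where
  toFun f := (h.phi (ofReal' f)).re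
  map_add' f g := by
    have : ofReal' (f + g) = ofReal' f + ofReal' g :=
      eq_of_chi_eq (ofReal'_mem _) (add_mem (ofReal'_mem _) (ofReal'_mem _)) fun ω => by
        rw [chi_add ω (ofReal'_mem _) (ofReal'_mem _), chi_ofReal', chi_ofReal', chi_ofReal']
        simp
    rw [this, IsState.phi_add, Complex.add_re]
  map_smul' c f := by
    have : ofReal' (c • f) = (c : ℂ) • ofReal' f :=
      eq_of_chi_eq (ofReal'_mem _) (SMulMemClass.smul_mem _ (ofReal'_mem _)) fun ω => by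
        rw [chi_smul ω _ (ofReal'_mem _), chi_ofReal', chi_ofReal']
        simp
    rw [this, IsState.phi_smul, Complex.re_ofReal_mul]
    rfl

theorem muS_nonneg (h : IsState M A η) (f : C(Spec A, ℝ)) (hf : 0 ≤ f) :
    0 ≤ muS h f := by
  obtain ⟨g, hg⟩ : ∃ g : C(Spec A, ℝ), g = ⟨fun ω => Real.sqrt (f ω),
    Real.continuous_sqrt.comp f.continuous⟩ := ⟨_, rfl⟩
  have e : ofReal' f = star (ofReal' g) * ofReal' g :=
    eq_of_chi_eq (ofReal'_mem _) (mul_mem (star_mem (ofReal'_mem _)) (ofReal'_mem _)) fun ω => by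
      rw [chi_mul ω (star_mem (ofReal'_mem _)) (ofReal'_mem _), chi_star ω (ofReal'_mem _),
        chi_ofReal', chi_ofReal', Complex.conj_ofReal, hg]
      exact_mod_cast (Real.mul_self_sqrt (hf ω)).symm
  show 0 ≤ (h.phi (ofReal' f)).re
  rw [e, h.phi_star_mul, inner_self_eq_norm_sq_to_K]
  simp only [← Complex.ofReal_pow, Complex.ofReal_re, Complex.coe_algebraMap]
  positivity

theorem muS_one (h : IsState M A η) : muS h 1 = 1 := by
  have : ofReal' (1 : C(Spec A, ℝ)) = 1 :=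
    eq_of_chi_eq (ofReal'_mem _) (one_mem A) fun ω => by rw [chi_ofReal', chi_one]; simp
  show (h.phi (ofReal' 1)).re = 1
  rw [this, IsState.phi, inner_self_eq_norm_sq_to_K, h.norm_V_one]
  simp

theorem norm_V_ofRealS' (h : IsState M A η) (f : C(Spec A, ℝ)) :
    ‖h.V (ofReal' f)‖ ^ 2 = muS h (f * f) := by
  show _ = (h.phi (ofReal' (f * f))).re
  rw [ofReal'_mul]
  conv_rhs => arg 1; arg 2; arg 1; rw [← (ofReal'_isSelfAdjoint f).star_eq]
  rw [h.phi_star_mul]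
  exact (inner_self_eq_norm_sq (𝕜 := ℂ) _).symm

theorem muS_mono (h : IsState M A η) {f g : C(Spec A, ℝ)} (hfg : ∀ ω, f ω ≤ g ω) :
    muS h f ≤ muS h g := by
  have := muS_nonneg h (g - f) fun ω => by simpa using hfg ω
  rw [map_sub] at this
  linarith

theorem muS_eq_zero (hA : IsMasa M A) (h : IsState M A η) {f : C(Spec A, ℝ)}
    (hf : ∀ ω, 0 ≤ f ω) (hμ : muS h f = 0) : f = 0 := by
  obtain ⟨C, hC⟩ := (isCompact_range f.continuous).bddAbove
  have h1 : muS h (f * f) ≤ muS h (C • f) := muS_mono h fun ω => by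
    simpa using mul_le_mul_of_nonneg_right (hC ⟨ω, rfl⟩) (hf ω)
  rw [map_smul, hμ, smul_zero, ← norm_V_ofRealS'] at h1
  have h2 : ofReal' f = 0 := h.eq_of_V (hA.le _ (ofReal'_mem f)) (zero_mem M) (by
    rw [map_zero, ← norm_le_zero_iff]
    nlinarith [norm_nonneg (h.V (ofReal' f))])
  ext ω
  have := congrArg (chi ω) h2
  rw [chi_ofReal', chi_zero] at this
  exact_mod_cast this

/-- The total squared mass of the fibres. -/
noncomputable def gsS (h : IsState M A η) (y : H →L[ℂ] H) (Q : FPart A) : ℝ :=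
  ∑ i, muS h (ef y (Q.c i) * ef y (Q.c i))

theorem gsS_eq (h : IsState M A η) (y : H →L[ℂ] H) (Q : FPart A) :
    gsS h y Q = muS h (sqMass y 1 Q) := by
  simp only [gsS, sqMass, map_sum, one_mul]

theorem gsS_anti (hA : IsMasa M A) (h : IsState M A η) {y : H →L[ℂ] H} (hy : y ∈ M) {Q R : FPart A} (hQR : Q ≤ R) :
    gsS h y R ≤ gsS h y Q := by
  rw [gsS_eq, gsS_eq]
  exact muS_mono h (sqMass_anti hA hy (one_mem A) (.one _) hQR)

theorem gsS_join (hA : IsMasa M A) (h : IsState M A η) (y : H →L[ℂ] H) (P Q : FPart A) :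
    gsS h y (P.join hA Q) = ∑ i, muS h (sqMass y (P.c i) Q) := by
  simp only [sqMass, map_sum]
  exact Fintype.sum_prod_type _

omit [AbelianClosed A] in
theorem tendsto_V_star_eqS (hA : IsMasa M A) (h : IsState M A η) {Φ : FPart A → H →L[ℂ] H}
    {Z : H →L[ℂ] H} (hΦ : ∀ Q, Φ Q ∈ A) (hΦs : ∀ Q, IsSelfAdjoint (Φ Q)) (hZ : Z ∈ A)
    (hlim : Tendsto (fun Q => h.V (Φ Q)) atTop (𝓝 (h.V Z))) : star Z = Z := by
  have := fpart_neBot hA
  refine h.eq_of_V (star_mem (hA.le Z hZ)) (hA.le Z hZ) (tendsto_nhds_unique ?_ hlim)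
  rw [tendsto_iff_norm_sub_tendsto_zero] at hlim ⊢
  refine hlim.congr fun Q => ?_
  rw [← map_sub, ← map_sub, ← h.norm_V_star hA (sub_mem (hΦ Q) hZ), star_sub, (hΦs Q).star_eq]

theorem norm_V_sub_swapS (h : IsState M A η) (q r : C(Spec A, ℝ)) :
    ‖h.V (ofReal' r - ofReal' q)‖ ^ 2 = muS h ((q - r) * (q - r)) := by
  rw [← norm_V_ofRealS' h (q - r), ofReal'_sub, ← neg_sub (ofReal' q) (ofReal' r),
    LinearMap.map_neg, norm_neg]

theorem sq_le_mulS (h : IsState M A η) {q r : C(Spec A, ℝ)} {K : ℝ} (hr : ∀ ω, 0 ≤ r ω)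
    (hrq : ∀ ω, r ω ≤ q ω) (hq : ∀ ω, q ω ≤ K) :
    muS h ((q - r) * (q - r)) ≤ K * (muS h q - muS h r) := by
  refine (muS_mono h (g := K • (q - r)) fun ω => ?_).trans_eq
    ((LinearMap.map_smul (muS h) K (q - r)).trans
      (congrArg (fun t => K * t) (LinearMap.map_sub (muS h) q r)))
  show (q ω - r ω) * (q ω - r ω) ≤ K * (q ω - r ω)
  exact mul_le_mul_of_nonneg_right (by linarith [hr ω, hq ω]) (by linarith [hrq ω])

theorem sqMass_stepS (hA : IsMasa M A) (h : IsState M A η) {y g : H →L[ℂ] H} (hy : y ∈ M)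
    (hg : g ∈ A) (hgp : IsStarProjection g) {K : ℝ}
    (hup : ∀ (Q : FPart A) (ω : Spec A), sqMass y g Q ω ≤ K) {Q R : FPart A} (hQR : Q ≤ R) :
    ‖h.V (ofReal' (sqMass (A := A) y g R) - ofReal' (sqMass y g Q))‖ ^ 2
      ≤ K * (muS h (sqMass y g Q) - muS h (sqMass y g R)) :=
  (norm_V_sub_swapS h _ _).trans_le (sq_le_mulS h (sqMass_nonneg y g R)
    (sqMass_anti hA hy hg hgp hQR) (hup Q))

/-- The squared masses converge to an element of `A`. -/
theorem sqMass_netS (hA : IsMasa M A) (h : IsState M A η) {y g : H →L[ℂ] H} (hy : y ∈ M)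
    (hg : g ∈ A) (hgp : IsStarProjection g) :
    ∃ F : C(Spec A, ℝ), Tendsto (fun Q => h.V (ofReal' (sqMass (A := A) y g Q))) atTop
      (𝓝 (h.V (ofReal' F))) := by
  obtain ⟨C, hC⟩ := (isCompact_range (ef (A := A) y g).continuous).bddAbove
  obtain ⟨K, hKdef⟩ : ∃ K : ℝ, K = C ^ 2 := ⟨_, rfl⟩
  have hup : ∀ Q ω, sqMass y g Q ω ≤ K := fun Q ω => by
    rw [hKdef]
    exact (sqMass_le hA hy hg hgp Q ω).trans
      (pow_le_pow_left₀ (ef_nonneg hA hy hg hgp ω) (hC ⟨ω, rfl⟩) 2)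
  have hK0 : 0 ≤ K := by rw [hKdef]; exact sq_nonneg C
  obtain ⟨Z, hZ, hlim⟩ := net_limitS hA h (fun Q => ofReal' (sqMass (A := A) y g Q))
    (fun Q => hA.le _ (ofReal'_mem _)) (C := K)
    (fun Q => norm_ofReal'_le _ hK0 fun ω => by
      rw [abs_of_nonneg (sqMass_nonneg y g Q ω)]; exact hup Q ω)
    (fun Q => muS h (sqMass y g Q)) (L := 0)
    (fun Q => muS_nonneg h _ (sqMass_nonneg y g Q)) (K := K) hK0
    (fun Q R hQR _ => sqMass_stepS hA h hy hg hgp hup hQR)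
  have hZA : Z ∈ A := hA.mem_of_commute hZ fun a ha => (intertwine_limitS hA h
    (fun Q => hA.le _ (ofReal'_mem _)) hZ (hA.le a ha) ha hlim
    (Eventually.of_forall fun Q => hA.comm a ha _ (ofReal'_mem _))).symm
  have hstar := tendsto_V_star_eqS hA h (fun Q => ofReal'_mem _)
    (fun Q => ofReal'_isSelfAdjoint _) hZA hlim
  refine ⟨⟨fun ω => (chi ω Z).re, Complex.continuous_re.comp (continuous_chi Z)⟩, ?_⟩
  rw [show ofReal' ⟨fun ω => (chi ω Z).re, _⟩ = Z from eq_of_chi_eq (ofReal'_mem _) hZA fun ω => by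
    rw [chi_ofReal']
    have := chi_star ω hZA
    rw [hstar] at this
    exact (Complex.conj_eq_iff_re.1 this.symm)]
  exact hlim

/-- The infimum of the squared masses. -/
theorem sqMass_limitS (hA : IsMasa M A) (h : IsState M A η) {y g : H →L[ℂ] H} (hy : y ∈ M)
    (hg : g ∈ A) (hgp : IsStarProjection g) {G : C(Spec A, ℝ)}
    (hsmall : ∀ Q : FPart A, 7 / 8 * muS h G < muS h (sqMass y g Q)) :
    ∃ F : C(Spec A, ℝ), (∀ Q ω, F ω ≤ sqMass y g Q ω) ∧ 7 / 8 * muS h G ≤ muS h F := by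
  obtain ⟨F, hlim⟩ := sqMass_netS hA h hy hg hgp
  have := fpart_neBot hA
  have hbelow : ∀ Q ω, F ω ≤ sqMass y g Q ω := by
    intro Q ω
    obtain ⟨d, hd⟩ : ∃ d : C(Spec A, ℝ), d = (F - sqMass y g Q) ⊔ 0 := ⟨_, rfl⟩
    have hd0 : ‖h.V (ofReal' d)‖ ^ 2 ≤ 0 := by
      have ht : Tendsto (fun R => ‖h.V (ofReal' (sqMass (A := A) y g R)) - h.V (ofReal' F)‖ ^ 2) atTop
          (𝓝 0) := by
        simpa using ((tendsto_iff_norm_sub_tendsto_zero.1 hlim).pow 2)
      refine ge_of_tendsto ht ((eventually_ge_atTop Q).mono fun R hR => ?_)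
      rw [← map_sub, ← ofReal'_sub, norm_V_ofRealS', norm_V_ofRealS']
      refine muS_mono h fun ν => ?_
      have h1 := sqMass_anti hA hy hg hgp hR ν
      simp only [hd, ContinuousMap.mul_apply, ContinuousMap.sup_apply, ContinuousMap.sub_apply,
        ContinuousMap.zero_apply]
      rcases max_cases (F ν - sqMass y g Q ν) 0 with ⟨e, e'⟩ | ⟨e, e'⟩
      · rw [e]; nlinarith
      · rw [e]; simpa using mul_self_nonneg (sqMass y g R ν - F ν)
    rw [norm_V_ofRealS'] at hd0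
    have h3 := muS_eq_zero hA h (fun ν => mul_self_nonneg (d ν))
      (le_antisymm hd0 (muS_nonneg h _ fun ν => mul_self_nonneg (d ν)))
    have h4 := mul_self_eq_zero.1 (congrArg (fun f : C(Spec A, ℝ) => f ω) h3)
    rw [hd] at h4
    simp only [ContinuousMap.sup_apply, ContinuousMap.sub_apply, ContinuousMap.zero_apply] at h4
    linarith [le_max_left (F ω - sqMass y g Q ω) 0]
  have hμF : 7 / 8 * muS h G ≤ muS h F := by
    have ht : Tendsto (fun R => muS h (sqMass (A := A) y g R)) atTop (𝓝 (muS h F)) := by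
      show Tendsto (fun R => (h.phi (ofReal' (sqMass (A := A) y g R))).re) atTop
        (𝓝 (h.phi (ofReal' F)).re)
      exact (Complex.continuous_re.tendsto _).comp (tendsto_const_nhds.inner hlim)
    exact ge_of_tendsto' ht fun R => (hsmall R).le
  exact ⟨F, hbelow, hμF⟩

/-- A partition either loses an eighth of the squared mass of a piece or all partitions keep three
quarters of it on a clopen set. -/
theorem good_or_smallS [TotallyDisconnectedSpace (Spec A)] (hA : IsMasa M A) (h : IsState M A η)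
    {y : H →L[ℂ] H} (hy : y ∈ M) {g : H →L[ℂ] H} (hg : g ∈ A) (hgp : IsStarProjection g) :
    (∃ p : Set (Spec A), IsClopen p ∧ p.Nonempty ∧ (∀ ω ∈ p, 0 < ef y g ω) ∧
        ∀ Q : FPart A, ∀ ω ∈ p, 3 / 4 * ef y g ω ^ 2 ≤ sqMass y g Q ω) ∨
      ∃ Q : FPart A, muS h (sqMass y g Q) ≤ 7 / 8 * muS h (ef (A := A) y g * ef y g) := by
  by_cases hsmall : ∃ Q : FPart A,
      muS h (sqMass y g Q) ≤ 7 / 8 * muS h (ef (A := A) y g * ef y g)
  · exact Or.inr hsmall
  refine Or.inl ?_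
  push Not at hsmall
  obtain ⟨G, hG⟩ : ∃ G : C(Spec A, ℝ), G = ef y g * ef y g := ⟨_, rfl⟩
  rw [← hG] at hsmall
  have hGv : ∀ ω, G ω = ef y g ω ^ 2 := fun ω => by rw [hG, sq]; rfl
  obtain ⟨C, hC⟩ := (isCompact_range G.continuous).bddAbove
  have hGC : ∀ ω, G ω ≤ max C 0 := fun ω => (hC ⟨ω, rfl⟩).trans (le_max_left _ _)
  have hup : ∀ Q ω, sqMass y g Q ω ≤ G ω := fun Q ω =>
    (sqMass_le hA hy hg hgp Q ω).trans_eq (hGv ω).symm
  obtain ⟨F, hbelow, hμF⟩ := sqMass_limitS hA h hy hg hgp hsmall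
  have hpos : 0 < muS h G := by
    have h1 := hsmall FPart.triv
    have h2 := muS_mono h (hup FPart.triv)
    linarith
  obtain ⟨ω₀, hω₀⟩ : ∃ ω₀, 3 / 4 * G ω₀ < F ω₀ := by
    by_contra hcon
    push Not at hcon
    have h1 := muS_mono h (f := F) (g := (3 / 4 : ℝ) • G) fun ω => by simpa using hcon ω
    rw [map_smul, smul_eq_mul] at h1
    linarith
  obtain ⟨p, hp, hω, hpU⟩ := compact_exists_isClopen_in_isOpen
    (isOpen_lt (continuous_const.mul G.continuous) F.continuous) hω₀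
  refine ⟨p, hp, ⟨ω₀, hω⟩, fun ω hωp => ?_, fun Q ω hωp => ?_⟩
  · have h1 : 3 / 4 * G ω < F ω := hpU hωp
    have h2 := (hbelow FPart.triv ω).trans (hup FPart.triv ω)
    rcases (ef_nonneg hA hy hg hgp ω).eq_or_lt with e | e
    · rw [hGv, ← e] at h1 h2; linarith
    · exact e
  · have h1 : 3 / 4 * G ω < F ω := hpU hωp
    rw [← hGv]
    linarith [hbelow Q ω]

/-- If the squared masses do not vanish, some piece keeps its mass on a clopen set. -/
theorem exists_goodS [TotallyDisconnectedSpace (Spec A)] (hA : IsMasa M A) (h : IsState M A η)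
    {y : H →L[ℂ] H} (hy : y ∈ M) {δ : ℝ} (hδ : 0 < δ) (hlow : ∀ Q : FPart A, δ ≤ gsS h y Q) :
    ∃ g ∈ A, IsStarProjection g ∧ ∃ p : Set (Spec A), IsClopen p ∧ p.Nonempty ∧
      (∀ ω ∈ p, 0 < ef y g ω) ∧
      ∀ Q : FPart A, ∀ ω ∈ p, 3 / 4 * ef y g ω ^ 2 ≤ sqMass y g Q ω := by
  classical
  have : Nonempty (FPart A) := ⟨FPart.triv⟩
  have := fpart_directed hA
  have hbdd : BddBelow (Set.range fun Q : FPart A => gsS h y Q) :=
    ⟨δ, by rintro _ ⟨Q, rfl⟩; exact hlow Q⟩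
  obtain ⟨m, hm⟩ : ∃ m, m = ⨅ Q : FPart A, gsS h y Q := ⟨_, rfl⟩
  have hm0 : δ ≤ m := hm ▸ le_ciInf hlow
  obtain ⟨P, hP⟩ : ∃ P : FPart A, gsS h y P < 8 / 7 * m :=
    exists_lt_of_ciInf_lt (by rw [← hm]; linarith)
  by_contra hcon
  have hQ : ∀ i, ∃ Q : FPart A, muS h (sqMass y (P.c i) Q)
      ≤ 7 / 8 * muS h (ef (A := A) y (P.c i) * ef y (P.c i)) := fun i =>
    (good_or_smallS hA h hy (P.mem i) (P.proj i)).resolve_left fun ⟨p, hp⟩ =>
      hcon ⟨_, P.mem i, P.proj i, p, hp⟩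
  choose q hq using hQ
  obtain ⟨R, hR⟩ := Finset.exists_le (Finset.univ.image q)
  have h1 : gsS h y (P.join hA R) ≤ 7 / 8 * gsS h y P := by
    rw [gsS_join, gsS, Finset.mul_sum]
    exact Finset.sum_le_sum fun i _ => le_trans (muS_mono h (sqMass_anti hA hy (P.mem i) (P.proj i)
      (hR _ (Finset.mem_image_of_mem q (Finset.mem_univ i))))) (hq i)
  have h2 : m ≤ gsS h y (P.join hA R) := hm ▸ ciInf_le hbdd _
  linarith

end Vale.Agent.P078.Any
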