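import Vale.Agent.P078.Any.Point

/-!
Windows as submatrices, independence across a partition and shifts of the diagonal.
-/

namespace Vale.Agent.P078.Any

open Matrix Function
open Vale.Agent.P078.Cartan (ofR sum_weight mask)
open Vale.Agent.P078.Quad (Fdet maskF maskEF pinch IsLaw weight)

set_option linter.unusedSectionVars false

variable {ι κ : Type*} [Fintype ι] [DecidableEq ι] [Fintype κ] [DecidableEq κ] {R : ℕ}

/-- A bijection of points and a diagonal unitary do not change an expected determinant. -/
theorem Fdet_equiv_conj (G : Fin R → Matrix ι ι ℂ) (w : ι → Fin R → ℝ) (x : ι → ℂ) (e : κ ≃ ι)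
    (d : κ → ℂ) (hd : ∀ i, ‖d i‖ = 1) :
    Fdet (fun c => Matrix.of fun i j => star (d i) * G c (e i) (e j) * d j) (w ∘ e) (x ∘ e) =
      Fdet G w x := by
  have hdd : ∀ i, star (d i) * d i = 1 := fun i => by
    rw [RCLike.star_def, ← Complex.normSq_eq_conj_mul_self, Complex.normSq_eq_norm_sq, hd]
    norm_num
  unfold Fdet
  refine Fintype.sum_equiv (e.arrowCongr (Equiv.refl _)) _ _ fun s => ?_
  have hw : weight w ((e.arrowCongr (Equiv.refl _)) s) = weight (w ∘ e) s :=
    Fintype.prod_equiv e.symm _ _ fun i => by simp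
  set s' := (e.arrowCongr (Equiv.refl _)) s
  have hs : ∀ i, s' (e i) = s i := fun i => by simp [s']
  have hM : diagonal (x ∘ e) -
      pinch (fun c => Matrix.of fun i j => star (d i) * G c (e i) (e j) * d j) s =
      diagonal (fun i => star (d i)) * (diagonal x - pinch G s').submatrix e e * diagonal d := by
    ext i j
    rw [mul_diagonal, diagonal_mul]
    rcases eq_or_ne i j with rfl | h
    · simp only [pinch, Matrix.sub_apply, Matrix.of_apply, submatrix_apply, diagonal_apply_eq,
        Function.comp_apply, hs, if_true]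
      linear_combination (-(x (e i))) * hdd i
    · simp only [pinch, Matrix.of_apply, Matrix.sub_apply, submatrix_apply, diagonal_apply_ne _ h,
        diagonal_apply_ne _ fun hh => h (e.injective hh), hs]
      split_ifs <;> ring
  rw [hM, det_mul, det_mul, det_diagonal, det_diagonal, det_submatrix_equiv_self, hw,
    mul_right_comm (∏ i, star (d i)), ← Finset.prod_mul_distrib,
    Finset.prod_congr rfl fun i _ => hdd i, Finset.prod_const_one, one_mul]

/-- Functions of the colours inside and outside of `A` are independent. -/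
theorem sum_weight_mul {w : ι → Fin R → ℝ} (hw : IsLaw w) (A : Finset ι)
    (f g : (ι → Fin R) → ℂ) (hf : ∀ s s' : ι → Fin R, (∀ i ∈ A, s i = s' i) → f s = f s')
    (hg : ∀ s s' : ι → Fin R, (∀ i ∉ A, s i = s' i) → g s = g s') :
    ∑ s, weight w s * (f s * g s) = (∑ s, weight w s * f s) * ∑ s, weight w s * g s := by
  set φ : (ι → Fin R) × (ι → Fin R) → (ι → Fin R) × (ι → Fin R) := fun p =>
    (A.piecewise p.1 p.2, A.piecewise p.2 p.1)
  have hinv : Involutive φ := fun p => by
    ext i <;> by_cases hi : i ∈ A <;> simp [φ, hi]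
  have hW : ∀ p, weight w (φ p).1 * weight w (φ p).2 = weight w p.1 * weight w p.2 := fun p => by
    unfold Cartan.weight
    rw [← Finset.prod_mul_distrib, ← Finset.prod_mul_distrib]
    refine Finset.prod_congr rfl fun i _ => ?_
    by_cases hi : i ∈ A <;> simp [φ, hi, mul_comm]
  have key : ∑ p : (ι → Fin R) × (ι → Fin R), weight w p.1 * weight w p.2 * (f p.1 * g p.2) =
      ∑ p : (ι → Fin R) × (ι → Fin R), weight w p.1 * weight w p.2 * (f p.1 * g p.1) := by
    refine Fintype.sum_equiv hinv.toPerm _ _ fun p => ?_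
    simp only [Involutive.coe_toPerm, hW]
    rw [hf (φ p).1 p.1 fun i hi => by simp [φ, hi], hg (φ p).1 p.2 fun i hi => by simp [φ, hi]]
  rw [Fintype.sum_prod_type, Fintype.sum_prod_type] at key
  have e1 : ∑ s, ∑ s', weight w s * weight w s' * (f s * g s') =
      (∑ s, weight w s * f s) * ∑ s, weight w s * g s := by
    rw [Finset.sum_mul_sum]
    exact Finset.sum_congr rfl fun s _ => Finset.sum_congr rfl fun s' _ => by ring
  have e2 : ∑ s, ∑ s', weight w s * weight w s' * (f s * g s) =
      ∑ s, weight w s * (f s * g s) := by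
    refine Finset.sum_congr rfl fun s _ => ?_
    rw [← Finset.sum_mul, ← Finset.mul_sum, sum_weight hw, mul_one]
  rw [← e1, key, e2]

/-- The matrix of the window `A` in the state `s`. -/
noncomputable def winMat (G : Fin R → Matrix ι ι ℂ) (x : ι → ℝ) (A : Finset ι)
    (s : ι → Fin R) : Matrix ι ι ℂ :=
  diagonal (ofR (A.piecewise x 1)) - pinch (maskF G A) s

theorem winMat_apply (G : Fin R → Matrix ι ι ℂ) (x : ι → ℝ) (A : Finset ι) (s : ι → Fin R)
    (i j : ι) : winMat G x A s i j =
      if i ∈ A ∧ j ∈ A then ((if i = j then (x i : ℂ) else 0) -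
        if s i = s j then G (s i) i j else 0) else if i = j then 1 else 0 := by
  simp only [winMat, pinch, maskF, mask, Matrix.sub_apply, Matrix.of_apply, ofR, diagonal_apply]
  by_cases hi : i ∈ A <;> by_cases hij : i = j
  · subst hij; simp [hi]
  · by_cases hj : j ∈ A <;> simp [hi, hj, hij]
  · subst hij; simp [hi]
  · simp [hi, hij]

theorem winMat_det (G : Fin R → Matrix ι ι ℂ) (x : ι → ℝ) (A : Finset ι) (s : ι → Fin R) :
    (winMat G x A s).det = (diagonal (fun a : A => (x a : ℂ)) -
      pinch (fun c => (G c).submatrix (fun a : A => (a : ι)) fun a : A => (a : ι))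
        fun a : A => s a).det := by
  have htri : ∀ i, i ∉ A → ∀ j ∈ A, winMat G x A s i j = 0 := fun i hi j hj => by
    rw [winMat_apply, if_neg fun h => hi h.1, if_neg fun e : i = j => hi (e ▸ hj)]
  have hblock : (toSquareBlockProp (winMat G x A s) fun i => i ∈ A) =
      diagonal (fun a : A => (x a : ℂ)) -
        pinch (fun c => (G c).submatrix (fun a : A => (a : ι)) fun a : A => (a : ι))
          fun a : A => s a := by
    ext ⟨i, hi⟩ ⟨j, hj⟩
    rw [toSquareBlockProp_def, Matrix.of_apply, winMat_apply, if_pos (And.intro hi hj)]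
    simp [pinch, diagonal_apply, Subtype.ext_iff]
  have hone : (toSquareBlockProp (winMat G x A s) fun i => i ∉ A) = 1 := by
    ext ⟨i, hi⟩ ⟨j, hj⟩
    rw [toSquareBlockProp_def, Matrix.of_apply, winMat_apply, if_neg fun h => hi h.1]
    simp [Matrix.one_apply]
  rw [twoBlockTriangular_det (winMat G x A s) (fun i => i ∈ A) htri]
  simp only [hone, det_one, mul_one]
  rw [Subsingleton.elim (Subtype.fintype fun i => i ∈ A) (Finset.Subtype.fintype A)]
  exact congrArg Matrix.det hblock

/-- A window is the expected determinant of the submatrices. -/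
theorem Fdet_window (G : Fin R → Matrix ι ι ℂ) {w : ι → Fin R → ℝ} (hw : IsLaw w) (x : ι → ℝ)
    (A : Finset ι) :
    Fdet (maskF G A) w (ofR (A.piecewise x 1)) =
      Fdet (fun c => (G c).submatrix (fun a : A => (a : ι)) fun a : A => (a : ι))
        (fun a : A => w a) fun a : A => (x a : ℂ) := by
  set f : (A → Fin R) → ℂ := fun t => (diagonal (fun a : A => (x a : ℂ)) -
    pinch (fun c => (G c).submatrix (fun a : A => (a : ι)) fun a : A => (a : ι)) t).det with hf
  have h1 : ∀ s : ι → Fin R, (winMat G x A s).det = f fun a => s a := fun s =>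
    winMat_det G x A s
  set e := Equiv.piEquivPiSubtypeProd (fun i => i ∈ A) fun _ : ι => Fin R
  have h2 : ∀ p : (A → Fin R) × ({i // i ∉ A} → Fin R),
      weight w (e.symm p) = weight (fun a : A => w a) p.1 *
        weight (fun a : {i // i ∉ A} => w a) p.2 := fun p => by
    unfold Cartan.weight
    rw [← Fintype.prod_subtype_mul_prod_subtype (fun i => i ∈ A)]
    congr 1
    · refine Finset.prod_congr (by ext; simp) fun a _ => ?_
      simp [e, a.2]
    · refine Finset.prod_congr rfl fun a _ => ?_
      simp [e, a.2]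
  calc Fdet (maskF G A) w (ofR (A.piecewise x 1))
      = ∑ s, weight w s * f fun a => s a := Finset.sum_congr rfl fun s _ => by
          rw [← h1]; rfl
    _ = ∑ p : (A → Fin R) × ({i // i ∉ A} → Fin R),
          weight (fun a : A => w a) p.1 * weight (fun a : {i // i ∉ A} => w a) p.2 * f p.1 := by
        refine (Fintype.sum_equiv e.symm _ _ fun p => ?_).symm
        rw [h2]
        congr 2
        funext a
        simp [e, a.2]
    _ = _ := by
        rw [Fintype.sum_prod_type]
        refine Finset.sum_congr rfl fun t _ => ?_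
        dsimp only
        rw [← Finset.sum_mul, ← Finset.mul_sum, sum_weight fun a => hw _, mul_one]

theorem win_window_eq (G : Fin R → Matrix ι ι ℂ) {w : ι → Fin R → ℝ} (hw : IsLaw w) (x : ι → ℝ)
    (A : Finset ι) :
    win G w x A = (Fdet (fun c => (G c).submatrix (fun a : A => (a : ι)) fun a : A => (a : ι))
      (fun a : A => w a) fun a : A => (x a : ℂ)).re := by
  rw [win, Fdet_window G hw]

theorem winMat_depends (G : Fin R → Matrix ι ι ℂ) (x : ι → ℝ) (A : Finset ι) {s s' : ι → Fin R}
    (h : ∀ i ∈ A, s i = s' i) : winMat G x A s = winMat G x A s' := by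
  ext i j
  simp only [winMat_apply]
  split_ifs <;> simp_all

theorem winMat_mul (G : Fin R → Matrix ι ι ℂ) (x : ι → ℝ) {A B : Finset ι} (hd : Disjoint A B)
    (h0 : ∀ c, ∀ a ∈ A, ∀ b ∈ B, G c a b = 0 ∧ G c b a = 0) (s : ι → Fin R) :
    winMat G x A s * winMat G x B s = winMat G x (A ∪ B) s := by
  have hz : (winMat G x A s - 1) * (winMat G x B s - 1) = 0 := by
    ext i k
    rw [Matrix.mul_apply]
    refine Finset.sum_eq_zero fun j _ => ?_
    by_cases hj : j ∈ A
    · have : j ∉ B := Finset.disjoint_left.1 hd hj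
      simp [winMat_apply, this, Matrix.one_apply]
    · simp [winMat_apply, hj, Matrix.one_apply]
  have key : winMat G x (A ∪ B) s - 1 = (winMat G x A s - 1) + (winMat G x B s - 1) := by
    ext i j
    simp only [Matrix.sub_apply, Matrix.add_apply, winMat_apply, Matrix.one_apply,
      Finset.mem_union]
    have hAB : ∀ k, k ∈ A → k ∉ B := fun k hk => Finset.disjoint_left.1 hd hk
    by_cases hi : i ∈ A <;> by_cases hj : j ∈ A
    · simp [hi, hj, hAB i hi]
    · by_cases hj' : j ∈ B
      · have hij : i ≠ j := fun e => hj (e ▸ hi)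
        simp [hi, hj, hj', hAB i hi, hij, (h0 (s i) i hi j hj').1]
      · simp [hi, hj, hj', hAB i hi]
    · by_cases hi' : i ∈ B
      · have hij : i ≠ j := fun e => hi (e ▸ hj)
        simp [hi, hj, hi', hAB j hj, hij, (h0 (s i) j hj i hi').2]
      · simp [hi, hj, hi', hAB j hj]
    · simp [hi, hj]
  have e : winMat G x A s * winMat G x B s = (winMat G x A s - 1) * (winMat G x B s - 1) +
      ((winMat G x A s - 1) + (winMat G x B s - 1)) + 1 := by
    rw [Matrix.sub_mul, Matrix.mul_sub, Matrix.mul_one, Matrix.one_mul]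
    abel
  rw [e, hz, ← key, zero_add, sub_add_cancel]

theorem win_union {G : Fin R → Matrix ι ι ℂ} (hG : ∀ c, (G c).IsHermitian)
    {w : ι → Fin R → ℝ} (hw : IsLaw w) (x : ι → ℝ) {A B : Finset ι} (hd : Disjoint A B)
    (h0 : ∀ c, ∀ a ∈ A, ∀ b ∈ B, G c a b = 0 ∧ G c b a = 0) :
    win G w x (A ∪ B) = win G w x A * win G w x B := by
  have key : Fdet (maskF G (A ∪ B)) w (ofR ((A ∪ B).piecewise x 1)) =
      Fdet (maskF G A) w (ofR (A.piecewise x 1)) * Fdet (maskF G B) w (ofR (B.piecewise x 1)) := by
    unfold Fdet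
    change _ = (∑ s, weight w s * (winMat G x A s).det) * ∑ s, weight w s * (winMat G x B s).det
    rw [← sum_weight_mul hw A (fun s => (winMat G x A s).det) (fun s => (winMat G x B s).det)
      (fun s s' h => congrArg Matrix.det (winMat_depends G x A h))
      (fun s s' h => congrArg Matrix.det (winMat_depends G x B fun i hi =>
        h i (Finset.disjoint_right.1 hd hi)))]
    refine Finset.sum_congr rfl fun s _ => ?_
    congr 1
    show (winMat G x (A ∪ B) s).det = (winMat G x A s).det * (winMat G x B s).det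
    rw [← det_mul, winMat_mul G x hd h0]
  rw [win, win, win, key, Complex.mul_re, Fdet_real (isHermitian_maskF hG A), zero_mul, sub_zero]

/-- Diagonal matrices move into the variables. -/
theorem Fdet_shift (G : Fin R → Matrix ι ι ℂ) (w : ι → Fin R → ℝ) (a x : ι → ℂ) :
    Fdet (fun c => G c - diagonal a) w x = Fdet G w (x + a) := by
  unfold Fdet
  refine Finset.sum_congr rfl fun s _ => ?_
  congr 2
  ext i j
  rcases eq_or_ne i j with rfl | h
  · simp [pinch]; ring
  · simp [pinch, h]

theorem maskEF_shift (G : Fin R → Matrix ι ι ℂ) (a : ι → ℂ) (u : ι) :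
    maskEF (fun c => G c - diagonal a) u = fun c => maskEF G u c - diagonal (update a u 0) := by
  funext c
  ext i j
  simp only [maskEF, Cartan.maskE_apply, Matrix.sub_apply, diagonal_apply]
  rcases eq_or_ne i u with rfl | hi
  · rcases eq_or_ne i j with rfl | h <;> simp [*]
  · rcases eq_or_ne j u with rfl | hj
    · simp [hi]
    · simp [hi, hj]

end Vale.Agent.P078.Any
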