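import Vale.Agent.P078.Any.Child

/-!
One visit: a symmetric move of the law of one vertex, paid by a shift of its own coordinate,
does not increase any ratio in the mean.
-/

namespace Vale.Agent.P078.Any

open Matrix Function
open Vale.Agent.P078.Quad (IsLaw)

set_option linter.unusedSectionVars false

variable {ι : Type*} [Fintype ι] [DecidableEq ι] {R : ℕ}
variable {G : Fin R → Matrix ι ι ℂ} {w : ι → Fin R → ℝ} {z : ι → ℝ} {U : Finset ι} {u : ι}

/-- The law after a move of `u` in the direction `y`. -/
def moved (w : ι → Fin R → ℝ) (u : ι) (t : ℝ) (y : Fin R → ℝ) : ι → Fin R → ℝ :=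
  update w u fun c => w u c + t * y c

theorem isLaw_moved (hw : IsLaw w) {t : ℝ} {y : Fin R → ℝ} (ht : |t| ≤ 1)
    (hy0 : ∑ c, y c = 0) (hy : ∀ c, |y c| ≤ w u c) : IsLaw (moved w u t y) := by
  refine isLaw_update hw (fun c => ?_) ?_
  · have : |t * y c| ≤ w u c := by
      rw [abs_mul]
      exact (mul_le_of_le_one_left (abs_nonneg _) ht).trans (hy c)
    linarith [(abs_le.1 this).1]
  · rw [Finset.sum_add_distrib, ← Finset.mul_sum, hy0, mul_zero, add_zero, (hw u).2]

/-- The window after a move and a shift. -/
theorem win_moved (hw : IsLaw w) (h : Valid G w z U) (hu : u ∈ U) {t κ : ℝ} {y : Fin R → ℝ}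
    (hy0 : ∑ c, y c = 0) :
    win G (moved w u t y) (update z u (z u + κ)) U = win G w z (U.erase u) *
      (1 / res G w z U u + κ - t * ∑ c, y c * childH G w z U u c) := by
  have hm : ∑ c, (w u c + t * y c) = 1 := by
    rw [Finset.sum_add_distrib, ← Finset.mul_sum, hy0, mul_zero, add_zero, (hw u).2]
  have e : win G (moved w u t y) z U =
      win G w z U - t * win G w z (U.erase u) * ∑ c, y c * childH G w z U u c := by
    rw [win_split G (moved w u t y) z U u]
    simp only [moved, update_self, update_idem, add_mul, Finset.sum_add_distrib,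
      ← win_split G w z U u]
    simp only [win_child h u]
    have : ∀ c, t * y c * (win G w z (U.erase u) * (z u - childH G w z U u c)) =
        t * win G w z (U.erase u) * z u * y c -
          t * win G w z (U.erase u) * (y c * childH G w z U u c) := fun c => by ring
    simp only [this, Finset.sum_sub_distrib, ← Finset.mul_sum, hy0]
    ring
  rw [win_update _ _ _ hu, e]
  unfold moved
  rw [win_law_of_notMem hw (Finset.notMem_erase u U) hm, res, one_div_div, mul_sub, mul_add,
    mul_div_cancel₀ _ (h.erase_pos u).ne']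
  ring

/-- The mean inequality of one visit. -/
theorem mean_le {A B M E s κ : ℝ} (hA : 0 < A) (hs : 0 ≤ s) (hE : |E| ≤ B) (hM : s * |M| < A)
    (hκ : s ^ 2 * |M| * (|M| / A + 1) ≤ κ) :
    ((B + s * E) / (A + κ - s * M) + (B - s * E) / (A + κ + s * M)) / 2 ≤ B / A := by
  have hκ0 : 0 ≤ κ := le_trans (by positivity) hκ
  have hsM : |s * M| = s * |M| := by rw [abs_mul, abs_of_nonneg hs]
  have hp : 0 < A + κ - s * M := by linarith [(abs_le.1 hsM.le).2]
  have hn : 0 < A + κ + s * M := by linarith [(abs_le.1 hsM.le).1]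
  have hκ' : s ^ 2 * |M| * (|M| + A) ≤ κ * A := by
    have := mul_le_mul_of_nonneg_right hκ hA.le
    rwa [mul_assoc, add_mul, div_mul_cancel₀ _ hA.ne', one_mul] at this
  have hB : 0 ≤ B := (abs_nonneg E).trans hE
  have h1 : E * M ≤ B * |M| := le_trans (le_abs_self _)
    (by rw [abs_mul]; exact mul_le_mul_of_nonneg_right hE (abs_nonneg M))
  rw [div_add_div _ _ hp.ne' hn.ne', div_div, div_le_div_iff₀ (by positivity) hA]
  linarith [mul_le_mul_of_nonneg_left h1 (mul_nonneg hA.le (sq_nonneg s)),
    congrArg (fun x => B * s ^ 2 * x) (sq_abs M),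
    mul_le_mul_of_nonneg_left hκ' hB, mul_nonneg hB (mul_nonneg hκ0 hκ0)]

/-- One visit: both outcomes stay valid and every ratio decreases in the mean. -/
theorem visit (hG : ∀ c, (G c).IsHermitian) (hw : IsLaw w) (h : Valid G w z U) (hu : u ∈ U)
    (hd : ∀ c, G c u u = 1 / 2) {y : Fin R → ℝ} (hy0 : ∑ c, y c = 0)
    (hy : ∀ c, |y c| ≤ w u c) {s κ : ℝ} (hs : 0 ≤ s) (hsmall : s * (res G w z U u * z u) < 1)
    (hκ : s ^ 2 * |∑ c, y c * childH G w z U u c| *
      (res G w z U u * |∑ c, y c * childH G w z U u c| + 1) ≤ κ) :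
    (∀ σ : ℝ, |σ| ≤ s → Valid G (moved w u σ y) (update z u (z u + κ)) U) ∧
    ∀ v ∈ U, (res G (moved w u s y) (update z u (z u + κ)) U v +
      res G (moved w u (-s) y) (update z u (z u + κ)) U v) / 2 ≤ res G w z U v := by
  set Ru := res G w z U u with hRu
  set M := ∑ c, y c * childH G w z U u c with hM
  have hR : 0 < Ru := win_res_pos h u
  have hκ0 : 0 ≤ κ := le_trans (by positivity) hκ
  have hm : ∀ t : ℝ, ∑ c, (w u c + t * y c) = 1 := fun t => by
    rw [Finset.sum_add_distrib, ← Finset.mul_sum, hy0, mul_zero, add_zero, (hw u).2]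
  have hz0 : 0 ≤ z u := by
    linarith [abs_nonneg M, one_div_pos.2 hR, abs_sum_childH_le hG hw h hu hd hy]
  have hMle : ∀ V ⊆ U, u ∈ V →
      s * |∑ c, y c * childH G w z V u c| < 1 / res G w z V u := by
    intro V hV huV
    have h1 := abs_sum_childH_le hG hw (h.mono hV) huV hd hy
    have h2 := res_subset hG hw h hV huV
    have h3 := win_res_pos (h.mono hV) u
    rw [lt_div_iff₀ h3]
    calc s * |∑ c, y c * childH G w z V u c| * res G w z V u
        ≤ s * z u * Ru := by
          refine mul_le_mul (mul_le_mul_of_nonneg_left ?_ hs) h2 h3.le (mul_nonneg hs hz0)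
          linarith [one_div_pos.2 h3]
      _ < 1 := by linarith [hsmall]
  refine ⟨fun σ hσ V hV => ?_, fun v hv => ?_⟩
  · by_cases huV : u ∈ V
    · rw [win_moved hw (h.mono hV) huV hy0]
      refine mul_pos ((h.mono hV).erase_pos u) ?_
      have h1 : |σ * ∑ c, y c * childH G w z V u c| ≤ s * |∑ c, y c * childH G w z V u c| := by
        rw [abs_mul]
        exact mul_le_mul_of_nonneg_right hσ (abs_nonneg _)
      linarith [(abs_le.1 h1).2, hMle V hV huV]
    · unfold moved
      rw [win_law_of_notMem hw huV (hm σ), win_update_of_notMem huV]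
      exact h V hV
  · have hA : s * |M| < 1 / Ru := hMle U subset_rfl hu
    have hκ' : s ^ 2 * |M| * (|M| / (1 / Ru) + 1) ≤ κ := by
      rwa [div_div_eq_mul_div, div_one, mul_comm |M| Ru]
    have hsM : |s * M| = s * |M| := by rw [abs_mul, abs_of_nonneg hs]
    have hL := h.erase_pos u
    rcases eq_or_ne v u with rfl | hvu
    · have key := mean_le (B := 1) (E := 0) (one_div_pos.2 hR) hs (by simp) hA hκ'
      simp only [mul_zero, add_zero, sub_zero, one_div_one_div] at key
      have e : ∀ t : ℝ, res G (moved w v t y) (update z v (z v + κ)) U v =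
          1 / (1 / Ru + κ - t * M) := fun t => by
        rw [res, win_moved hw h hu hy0]
        unfold moved
        rw [win_law_of_notMem hw (Finset.notMem_erase v U) (hm t),
          win_update_of_notMem (Finset.notMem_erase v U), ← hM, ← hRu]
        field_simp [hL.ne']
      rw [e s, e (-s), neg_mul, sub_neg_eq_add]
      exact key
    · have huv : u ∈ U.erase v := Finset.mem_erase.2 ⟨hvu.symm, hu⟩
      have hVv : Valid G w z (U.erase v) := h.mono (Finset.erase_subset v U)
      have hLv := hVv.erase_pos u
      set Lv := win G w z ((U.erase v).erase u)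
      set L := win G w z (U.erase u)
      set B := 1 / res G w z (U.erase v) u - 1 / Ru with hB
      set E := M - ∑ c, y c * childH G w z (U.erase v) u c with hE
      have hEB : |E| ≤ B := by
        have := abs_sum_sub_le hw u hy fun c => childH_erase_le hG hw h hu hv hvu.symm c
        rw [sum_childH hw h, sum_childH hw hVv] at this
        rw [hE, hB]
        linarith
      have key := mean_le (one_div_pos.2 hR) hs hEB hA hκ'
      have hp : 0 < 1 / Ru + κ - s * M := by linarith [(abs_le.1 hsM.le).2]
      have hn : 0 < 1 / Ru + κ + s * M := by linarith [(abs_le.1 hsM.le).1]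
      have e : ∀ t : ℝ, 0 < 1 / Ru + κ - t * M →
          res G (moved w u t y) (update z u (z u + κ)) U v =
            Lv / L * (1 + (B + t * E) / (1 / Ru + κ - t * M)) := fun t ht => by
        rw [res, win_moved hw hVv huv hy0, win_moved hw h hu hy0, mul_div_mul_comm,
          one_add_div ht.ne']
        congr 2
        rw [hB, hE]
        ring
      have e0 : res G w z U v = Lv / L * (1 + B / (1 / Ru)) := by
        have f1 : win G w z (U.erase v) = Lv * (1 / res G w z (U.erase v) u) := by
          rw [res, one_div_div, mul_div_cancel₀ _ hLv.ne']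
        have f2 : win G w z U = L * (1 / Ru) := by
          rw [hRu, res, one_div_div, mul_div_cancel₀ _ hL.ne']
        rw [res, f1, f2, mul_div_mul_comm, one_add_div (one_div_pos.2 hR).ne']
        congr 2
        rw [hB]
        ring
      rw [e s hp, e (-s) (by linarith), e0, neg_mul, ← sub_eq_add_neg, neg_mul, sub_neg_eq_add]
      nlinarith [mul_le_mul_of_nonneg_left key (div_pos hLv hL).le]

end Vale.Agent.P078.Any
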